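import Vale.Agent.P099.H504.Cx.Defs

set_option linter.all false

open MeasureTheory Set Filter Topology

namespace Vale.Agent.P099

namespace Cx

variable {S : Type} (X : Cx S)

/-- the tile reached along a word -/
def run : S → List (Fin 3) → S
  | s, [] => s
  | s, i :: w => run (X.σ s i) w

/-- `z` is an (unfolded) vertex which is visible from the point `x` of the tile `s` after unfolding
along the word -/
def Vis : S → List (Fin 3) → ℂ → ℂ → Prop
  | s, [], _, z => ∃ k, z = (X.T s).P k
  | s, i :: w, x, z => (X.T s).Cross i x z ∧ Vis (X.σ s i) w (X.R s i x) (X.R s i z)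

/-- the anisotropic distance to the visible vertices -/
noncomputable def dis (η : ℝ) (s : S) (p : ℂ × ℂ) : ℝ :=
  sInf {r : ℝ | ∃ w z, X.Vis s w p.1 z ∧ r = an η p.2 (z - p.1)}

lemma vis_nil (s : S) (x z : ℂ) : X.Vis s [] x z ↔ ∃ k, z = (X.T s).P k := Iff.rfl

lemma vis_cons (s : S) (i : Fin 3) (w : List (Fin 3)) (x z : ℂ) :
    X.Vis s (i :: w) x z ↔ (X.T s).Cross i x z ∧ X.Vis (X.σ s i) w (X.R s i x) (X.R s i z) :=
  Iff.rfl

lemma lam_R_neg {s : S} {i m : Fin 3} {z : ℂ} (hz : (X.T s).lam i z < 0)
    (hm : (X.T (X.σ s i)).lam m (X.R s i z) < 0) : m ≠ i := by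
  rintro rfl
  rw [X.lam_R] at hm
  have := mul_pos (X.kap_pos s m) (neg_pos.2 hz)
  linarith

/-- the bilinear form in coordinates of the next tile -/
lemma bb_next {s : S} (i m : Fin 3) (x z : ℂ) :
    (X.T s).lam i x * (X.T (X.σ s i)).lam m (X.R s i z) -
      (X.T (X.σ s i)).lam m (X.R s i x) * (X.T s).lam i z = (X.T s).bb i m x z := by
  have h1 := X.bb_R s i m x z
  simp only [Triangle.bb] at h1 ⊢
  rw [X.lam_R, X.lam_R] at h1
  have hk := X.kap_pos s i
  have h2 : - X.kap s i * ((X.T s).lam i x * (X.T (X.σ s i)).lam m (X.R s i z) -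
      (X.T (X.σ s i)).lam m (X.R s i x) * (X.T s).lam i z) =
      - X.kap s i * ((X.T s).lam i x * (X.T s).lam m z - (X.T s).lam m x * (X.T s).lam i z) := by
    linarith only [h1]
  exact mul_left_cancel₀ (neg_ne_zero.2 hk.ne') h2

/-- positivity of the next coordinate -/
lemma pos_next {s : S} {i m : Fin 3} {x z : ℂ} (hx : 0 ≤ (X.T s).lam i x)
    (hz : (X.T s).lam i z < 0) (hb : ∀ j, j ≠ i → 0 ≤ (X.T s).bb i j x z)
    (hm : (X.T (X.σ s i)).lam m (X.R s i z) < 0) : 0 ≤ (X.T (X.σ s i)).lam m (X.R s i x) := by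
  have hmi : m ≠ i := X.lam_R_neg hz hm
  have h1 := X.bb_next (s := s) i m x z
  have h2 := hb m hmi
  rw [← h1] at h2
  by_contra h3
  push Not at h3
  linarith only [mul_pos (neg_pos.2 h3) (neg_pos.2 hz), mul_nonneg hx (neg_nonneg.2 hm.le), h2]

/-- the crossing condition is inherited by targets on the segment -/
lemma cross_of_seg {s : S} {i : Fin 3} {x z : ℂ} {c : ℝ} {w : List (Fin 3)}
    (hx : 0 ≤ (X.T s).lam i x) (h : (X.T s).Cross i x z) (hc : 0 ≤ c)
    (hw : X.Vis (X.σ s i) w (X.R s i x) (X.R s i (x + c • (z - x))))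
    (hh : ∀ m, w.head? = some m → (X.T (X.σ s i)).lam m (X.R s i z) < 0) :
    (X.T s).Cross i x (x + c • (z - x)) := by
  set z' := x + c • (z - x) with hz'
  have hbb : ∀ j, (X.T s).bb i j x z' = c * (X.T s).bb i j x z :=
    fun j => (X.T s).bb_seg_self i j x z c
  obtain ⟨hz, hb⟩ := ((X.T s).cross_iff i x z).1 h
  have hκ := X.kap_pos s i
  cases w with
  | nil =>
    obtain ⟨k, hk⟩ := hw
    by_cases hki : k = i
    · subst hki
      have h1 : - X.kap s k * (X.T s).lam k z' = 1 := by
        rw [← X.lam_R, hk, (X.T _).lam_P, if_pos rfl]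
      have h1' : (X.T s).lam k z' < 0 := by
        by_contra h2
        push Not at h2
        have := mul_nonneg hκ.le h2
        linarith only [this, h1]
      have hc0 : c ≠ 0 := by
        rintro rfl
        have : z' = x := by rw [hz']; simp
        rw [this] at h1'
        linarith only [h1', hx]
      have hcpos : 0 < c := lt_of_le_of_ne hc (Ne.symm hc0)
      refine ((X.T s).cross_iff _ _ _).2 ⟨h1', fun j hj => ?_⟩
      rw [hbb]
      exact mul_pos hcpos (hb j hj)
    · exfalso
      have hk' : z' = (X.T s).P k := by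
        have h2 : X.R s i z' = X.R s i ((X.T s).P k) := by rw [hk, X.R_P' hki]
        have h3 := congrArg (X.R (X.σ s i) i) h2
        rwa [X.R_R, X.R_R] at h3
      obtain ⟨j, hji, hjk, -⟩ := Triangle.third_cases hki
      have h2 : (X.T s).lam j z' = 0 := by rw [hk', (X.T s).lam_P, if_neg hjk]
      have h3 : (X.T s).lam i z' = 0 := by rw [hk', (X.T s).lam_P, if_neg (Ne.symm hki)]
      have h4 := hbb j
      simp only [Triangle.bb] at h4
      rw [h2, h3] at h4
      have h5 := hb j hji
      simp only [Triangle.bb] at h5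
      have hc0 : c = 0 := by
        by_contra hc0
        have : 0 < c * ((X.T s).lam i x * (X.T s).lam j z - (X.T s).lam j x * (X.T s).lam i z) :=
          mul_pos (lt_of_le_of_ne hc (Ne.symm hc0)) h5
        linarith only [h4, this]
      have h6 : z' = x := by rw [hz', hc0]; simp
      rw [← h6, h3, h2] at h5
      simp at h5
  | cons m w' =>
    obtain ⟨hcm, -⟩ := hw
    obtain ⟨hm1, hm2⟩ := ((X.T _).cross_iff _ _ _).1 hcm
    have hmz : (X.T (X.σ s i)).lam m (X.R s i z) < 0 := hh m rfl
    have hmi : m ≠ i := X.lam_R_neg hz hmz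
    have hc0 : c ≠ 0 := by
      rintro rfl
      have h1 : z' = x := by rw [hz']; simp
      obtain ⟨j, hj⟩ := Triangle.exists_ne m
      have h2 := hm2 j hj
      rw [h1] at h2
      simp only [Triangle.bb] at h2
      linarith only [h2]
    have hcpos : 0 < c := lt_of_le_of_ne hc (Ne.symm hc0)
    have hX : 0 ≤ (X.T (X.σ s i)).lam m (X.R s i x) :=
      X.pos_next hx hz (fun j hj => (hb j hj).le) hmz
    refine ((X.T s).cross_iff _ _ _).2 ⟨?_, fun j hj => ?_⟩
    · have h1 := hm2 i (Ne.symm hmi)
      have h0 := X.bb_next (s := s) i m x z'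
      by_contra h2
      push Not at h2
      have h3 : (X.T s).bb i m x z' = c * (X.T s).bb i m x z := hbb m
      have h4 := mul_pos hcpos (hb m hmi)
      rw [← h3, ← h0] at h4
      linarith only [mul_nonneg hx (neg_nonneg.2 hm1.le), mul_nonneg hX h2, h4]
    · rw [hbb]
      exact mul_pos hcpos (hb j hj)

/-- the exit lemma -/
lemma exit (w : List (Fin 3)) : ∀ (s : S) (x y z : ℂ), X.Vis s w x z →
    (∀ i, w.head? = some i → 0 ≤ (X.T s).lam i x ∧ 0 ≤ (X.T s).lam i y) →
    X.Vis s w y z ∨ ∃ (r c : ℝ) (w' : List (Fin 3)), 0 ≤ r ∧ r ≤ 1 ∧ 0 ≤ c ∧ c ≤ 1 ∧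
      w'.length < w.length ∧ (∀ i, w'.head? = some i → w.head? = some i) ∧
      X.Vis s w' (x + r • (y - x)) (x + r • (y - x) + c • (z - (x + r • (y - x)))) := by
  induction w with
  | nil =>
    intro s x y z h _
    exact Or.inl h
  | cons i w ih =>
    intro s x y z h hpos
    obtain ⟨hx, hy⟩ := hpos i rfl
    obtain ⟨hcr, hv⟩ := h
    obtain ⟨hz, hb⟩ := ((X.T s).cross_iff _ _ _).1 hcr
    by_cases hcase : ∀ j, j ≠ i → 0 < (X.T s).bb i j y z
    · -- no exit at the first level
      have hcry : (X.T s).Cross i y z := ((X.T s).cross_iff _ _ _).2 ⟨hz, hcase⟩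
      have hhead : ∀ m, w.head? = some m → (X.T (X.σ s i)).lam m (X.R s i z) < 0 := by
        intro m hm
        cases w with
        | nil => simp at hm
        | cons m' w' =>
          simp only [List.head?_cons, Option.some.injEq] at hm
          subst hm
          exact hv.1.1
      have hpos' : ∀ m, w.head? = some m → 0 ≤ (X.T (X.σ s i)).lam m (X.R s i x) ∧
          0 ≤ (X.T (X.σ s i)).lam m (X.R s i y) := by
        intro m hm
        exact ⟨X.pos_next hx hz (fun j hj => (hb j hj).le) (hhead m hm),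
          X.pos_next hy hz (fun j hj => (hcase j hj).le) (hhead m hm)⟩
      rcases ih _ _ _ _ hv hpos' with h1 | ⟨r, c, w', hs0, hs1, hc0, hc1, hlen, hhd, hvis⟩
      · exact Or.inl ⟨hcry, h1⟩
      · right
        set xs := x + r • (y - x) with hxs
        have hRxs : X.R s i x + r • (X.R s i y - X.R s i x) = X.R s i xs := by rw [hxs, X.R_seg]
        rw [hRxs] at hvis
        rw [← X.R_seg] at hvis
        have hxsi : 0 ≤ (X.T s).lam i xs := by
          rw [hxs, Triangle.lam_seg]
          have : 0 ≤ 1 - r := by linarith only [hs1]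
          (clear * - this hx hs0 hy; positivity)
        have hcrs : (X.T s).Cross i xs z := by
          refine ((X.T s).cross_iff _ _ _).2 ⟨hz, fun j hj => ?_⟩
          rw [hxs, Triangle.bb_seg_left]
          have h1 := hb j hj
          have h2 := hcase j hj
          rcases eq_or_lt_of_le hs0 with h3 | h3
          · rw [← h3]; simpa using h1
          · have : 0 ≤ 1 - r := by linarith only [hs1]
            have h4 := mul_pos h3 h2
            have h5 := mul_nonneg this h1.le
            linarith only [h4, h5]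
        have hcr' : (X.T s).Cross i xs (xs + c • (z - xs)) :=
          X.cross_of_seg hxsi hcrs hc0 hvis (fun m hm => hhead m (hhd m hm))
        refine ⟨r, c, i :: w', hs0, hs1, hc0, hc1, ?_, ?_, hcr', hvis⟩
        · simpa only [List.length_cons, Order.lt_add_one_iff, Order.add_one_le_iff] using hlen
        · intro m hm
          simpa using hm
    · -- exit at the first level
      right
      push Not at hcase
      obtain ⟨j1, hj1, hb1⟩ := hcase
      -- the exit time
      obtain ⟨r, j, hs0, hs1, hji, hsj, hall⟩ : ∃ (r : ℝ) (j : Fin 3), 0 ≤ r ∧ r ≤ 1 ∧ j ≠ i ∧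
          (1 - r) * (X.T s).bb i j x z + r * (X.T s).bb i j y z = 0 ∧
          ∀ k, k ≠ i → 0 ≤ (1 - r) * (X.T s).bb i k x z + r * (X.T s).bb i k y z := by
        obtain ⟨j2, hj2, hj12, hcov⟩ := Triangle.third_cases hj1
        have hf : ∀ j, j ≠ i → (X.T s).bb i j y z ≤ 0 →
            ∃ r, 0 ≤ r ∧ r ≤ 1 ∧ (1 - r) * (X.T s).bb i j x z + r * (X.T s).bb i j y z = 0 := by
          intro j hj hle
          have h1 := hb j hj
          refine ⟨(X.T s).bb i j x z / ((X.T s).bb i j x z - (X.T s).bb i j y z), ?_, ?_, ?_⟩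
          · apply div_nonneg h1.le; linarith only [hle, h1]
          · rw [div_le_one (by linarith)]; linarith
          · have : (X.T s).bb i j x z - (X.T s).bb i j y z ≠ 0 := by linarith
            field_simp
            ring
        obtain ⟨s1, hs10, hs11, hs1e⟩ := hf j1 hj1 hb1
        by_cases hgood : 0 ≤ (1 - s1) * (X.T s).bb i j2 x z + s1 * (X.T s).bb i j2 y z
        · refine ⟨s1, j1, hs10, hs11, hj1, hs1e, fun k hk => ?_⟩
          rcases hcov k with rfl | rfl | rfl
          · exact absurd rfl hk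
          · exact hs1e.ge
          · exact hgood
        · push Not at hgood
          have hb2 : (X.T s).bb i j2 y z ≤ 0 := by
            by_contra h2
            push Not at h2
            have h3 := hb j2 hj2
            have : 0 ≤ 1 - s1 := by linarith only [hs11]
            have h4 := mul_nonneg this h3.le
            have h5 := mul_nonneg hs10 h2.le
            linarith
          obtain ⟨s2, hs20, hs21, hs2e⟩ := hf j2 hj2 hb2
          refine ⟨s2, j2, hs20, hs21, hj2, hs2e, fun k hk => ?_⟩
          rcases hcov k with rfl | rfl | rfl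
          · exact absurd rfl hk
          · -- s2 < s1
            have hp1 := hb _ hj1
            have hp2 := hb _ hj2
            have hlt : s2 < s1 := by
              by_contra hle
              push Not at hle
              linarith only [mul_nonneg (sub_nonneg.2 hle) (le_of_lt (sub_pos.2 hp2)), mul_nonneg (sub_nonneg.2 hb2) (sub_nonneg.2 hle), hs2e, hgood]
            linarith only [mul_pos (sub_pos.2 hlt) (sub_pos.2 hp1), mul_nonneg (sub_nonneg.2 hb1) (le_of_lt (sub_pos.2 hlt)), hs1e]
          · exact hs2e.ge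
      obtain ⟨k, hki, hkj, hcov⟩ := Triangle.third_cases hji
      set xs := x + r • (y - x) with hxs
      have hxsi : 0 ≤ (X.T s).lam i xs := by
        rw [hxs, Triangle.lam_seg]
        have : 0 ≤ 1 - r := by linarith
        (clear * - this hx hs0 hy; positivity)
      have hden : 0 < (X.T s).lam i xs - (X.T s).lam i z := by linarith only [hz, hxsi]
      have hbj : (X.T s).bb i j xs z = 0 := by rw [hxs, Triangle.bb_seg_left]; exact hsj
      set c := (X.T s).lam i xs / ((X.T s).lam i xs - (X.T s).lam i z) with hcdef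
      have hc0 : 0 ≤ c := div_nonneg hxsi hden.le
      have hc1 : c ≤ 1 := by
        rw [hcdef, div_le_one hden]; linarith only [hz]
      refine ⟨r, c, [], hs0, hs1, hc0, hc1, by simp, by simp, k, ?_⟩
      set z' := xs + c • (z - xs) with hz'
      have hci : (X.T s).lam i z' = 0 := by
        rw [hz', Triangle.lam_seg, hcdef]
        field_simp
        ring
      have hcj : (X.T s).lam j z' = 0 := by
        have hne := hden.ne'
        simp only [Triangle.bb] at hbj
        rw [hz', Triangle.lam_seg, hcdef]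
        field_simp
        linarith only [hbj]
      have hsum : ∑ m, (X.T s).lam m z' = 1 := by
        rw [Fin.sum_univ_three]
        exact (X.T s).sum_lam z'
      have hck : (X.T s).lam k z' = 1 := by
        rw [← hsum]
        symm
        apply Finset.sum_eq_single k
        · intro m _ hm
          rcases hcov m with rfl | rfl | rfl
          · exact hci
          · exact hcj
          · exact absurd rfl hm
        · intro h
          exact absurd (Finset.mem_univ k) h
      apply (X.T s).eq_of_lam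
      intro m
      rw [(X.T s).lam_P]
      rcases hcov m with rfl | rfl | rfl
      · rw [hci, if_neg (Ne.symm hki)]
      · rw [hcj, if_neg (Ne.symm hkj)]
      · rw [hck, if_pos rfl]

/-- the sweeping lemma -/
lemma sweep {η : ℝ} (hη : 0 < η) (u : ℂ) (n : ℕ) : ∀ (s : S) (w : List (Fin 3)), w.length = n →
    ∀ x y z : ℂ, X.Vis s w x z →
    (∀ i, w.head? = some i → 0 ≤ (X.T s).lam i x ∧ 0 ≤ (X.T s).lam i y) →
    ∃ w' z', X.Vis s w' y z' ∧ (∀ i, w'.head? = some i → w.head? = some i) ∧
      an η u (z' - y) ≤ an η u (z - x) + an η u (y - x) := by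
  induction n using Nat.strong_induction_on with
  | _ n ih =>
    intro s w hw x y z hv hpos
    rcases X.exit w s x y z hv hpos with h | ⟨r, c, w', hs0, hs1, hc0, hc1, hlen, hhd, hvis⟩
    · refine ⟨w, z, h, fun i hi => hi, ?_⟩
      have := an_tri hη u z x y
      rw [an_sub_comm η u x y] at this
      exact this
    · set xs := x + r • (y - x) with hxs
      have h1 : xs - x = r • (y - x) := by rw [hxs]; ring
      have h2 : y - xs = (1 - r) • (y - x) := by
        rw [hxs, sub_smul, one_smul]; ring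
      have hpos' : ∀ i, w'.head? = some i → 0 ≤ (X.T s).lam i xs ∧ 0 ≤ (X.T s).lam i y := by
        intro i hi
        obtain ⟨ha, hb⟩ := hpos i (hhd i hi)
        refine ⟨?_, hb⟩
        rw [hxs, Triangle.lam_seg]
        have : 0 ≤ 1 - r := by linarith only [hs1]
        (clear * - this ha hs0 hb; positivity)
      obtain ⟨w'', z'', hv'', hhd'', hle⟩ := ih w'.length (by omega) s w' rfl _ _ _ hvis hpos'
      refine ⟨w'', z'', hv'', fun i hi => hhd i (hhd'' i hi), hle.trans ?_⟩
      rw [add_sub_cancel_left, an_smul, abs_of_nonneg hc0, h2, an_smul,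
        abs_of_nonneg (by linarith only [hs1] : (0:ℝ) ≤ 1 - r)]
      have h3 : an η u (z - xs) ≤ an η u (z - x) + r * an η u (y - x) := by
        have := an_tri hη u z x xs
        rw [an_sub_comm η u x xs, h1, an_smul, abs_of_nonneg hs0] at this
        exact this
      have h4 := an_nonneg hη u (z - xs)
      linarith only [mul_nonneg (sub_nonneg.2 hc1) h4, h3]

lemma bddBelow_dis {η : ℝ} (hη : 0 < η) (s : S) (p : ℂ × ℂ) :
    BddBelow {r : ℝ | ∃ w z, X.Vis s w p.1 z ∧ r = an η p.2 (z - p.1)} := by
  refine ⟨0, ?_⟩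
  rintro r ⟨w, z, -, rfl⟩
  exact an_nonneg hη _ _

lemma nonempty_dis (η : ℝ) (s : S) (p : ℂ × ℂ) :
    {r : ℝ | ∃ w z, X.Vis s w p.1 z ∧ r = an η p.2 (z - p.1)}.Nonempty :=
  ⟨_, [], (X.T s).P 0, ⟨0, rfl⟩, rfl⟩

lemma dis_le_of_vis {η : ℝ} (hη : 0 < η) (s : S) (p : ℂ × ℂ) {w : List (Fin 3)} {z : ℂ}
    (h : X.Vis s w p.1 z) : X.dis η s p ≤ an η p.2 (z - p.1) :=
  csInf_le (X.bddBelow_dis hη s p) ⟨w, z, h, rfl⟩

lemma le_dis {η : ℝ} (s : S) (p : ℂ × ℂ) {c : ℝ}
    (h : ∀ w z, X.Vis s w p.1 z → c ≤ an η p.2 (z - p.1)) : c ≤ X.dis η s p := by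
  apply le_csInf (X.nonempty_dis η s p)
  rintro r ⟨w, z, hv, rfl⟩
  exact h w z hv

lemma exists_vis_of_dis_lt {η : ℝ} (s : S) (p : ℂ × ℂ) {c : ℝ} (h : X.dis η s p < c) :
    ∃ w z, X.Vis s w p.1 z ∧ an η p.2 (z - p.1) < c := by
  by_contra hcon
  push Not at hcon
  exact absurd h (not_lt.2 (X.le_dis s p hcon))

lemma dis_nonneg {η : ℝ} (hη : 0 < η) (s : S) (p : ℂ × ℂ) : 0 ≤ X.dis η s p :=
  X.le_dis s p fun _ _ _ => an_nonneg hη _ _

lemma dis_le {η : ℝ} (hη : 0 < η) (s : S) (p : ℂ × ℂ) (k : Fin 3) :
    X.dis η s p ≤ an η p.2 ((X.T s).P k - p.1) :=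
  X.dis_le_of_vis hη s p (w := []) ⟨k, rfl⟩

lemma dis_le_add {η : ℝ} (hη : 0 < η) {s : S} {x y : ℂ} (u : ℂ) (hx : x ∈ (X.T s).table)
    (hy : y ∈ (X.T s).table) : X.dis η s (y, u) ≤ X.dis η s (x, u) + an η u (y - x) := by
  rw [← sub_le_iff_le_add]
  apply X.le_dis
  intro w z hv
  obtain ⟨w', z', hv', -, hle⟩ := X.sweep hη u w.length s w rfl x y z hv
    (fun i _ => ⟨(((X.T s).mem_table_iff x).1 hx i).le, (((X.T s).mem_table_iff y).1 hy i).le⟩)
  have h1 := X.dis_le_of_vis hη s (y, u) hv'
  simp only at h1 ⊢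
  linarith only [hle, h1]

lemma dis_lip {η : ℝ} (hη : 0 < η) {s : S} {x y : ℂ} (u : ℂ) (hx : x ∈ (X.T s).table)
    (hy : y ∈ (X.T s).table) : |X.dis η s (y, u) - X.dis η s (x, u)| ≤ an η u (y - x) := by
  have h1 := X.dis_le_add hη u hx hy
  have h2 := X.dis_le_add hη u hy hx
  rw [an_sub_comm η u x y] at h2
  rw [abs_le]
  constructor <;> linarith

/-- symmetry of the crossing condition -/
lemma cross_symm {s : S} {i : Fin 3} {x y : ℂ} (hx : x ∈ (X.T s).table)
    (h : (X.T s).Cross i x (X.R (X.σ s i) i y)) : (X.T (X.σ s i)).Cross i y (X.R s i x) := by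
  obtain ⟨ha, hb⟩ := ((X.T s).cross_iff _ _ _).1 h
  have hκ := X.kap_pos s i
  refine ((X.T _).cross_iff _ _ _).2 ⟨?_, fun j hj => ?_⟩
  · rw [X.lam_R]
    have := mul_pos hκ (((X.T s).mem_table_iff x).1 hx i)
    linarith only [this]
  · have h2 := X.bb_R s i j x (X.R (X.σ s i) i y)
    have h4 := X.R_R (X.σ s i) i y
    rw [X.invol] at h4
    rw [h4] at h2
    have h3 := mul_pos hκ (hb j hj)
    simp only [Triangle.bb] at h2 h3 ⊢
    linarith

lemma dis_cross_le {η : ℝ} (hη : 0 < η) {s : S} {x y : ℂ} (u : ℂ) {i : Fin 3}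
    (hx : x ∈ (X.T s).table) (hy : y ∈ (X.T (X.σ s i)).table)
    (h : (X.T s).Cross i x (X.R (X.σ s i) i y)) :
    X.dis η (X.σ s i) (y, X.D s i u) ≤ X.dis η s (x, u) + an η u (X.R (X.σ s i) i y - x) := by
  set y' := X.R (X.σ s i) i y with hy'def
  have hRy : X.R s i y' = y := by
    have h4 := X.R_R (X.σ s i) i y
    rwa [X.invol] at h4
  rw [← sub_le_iff_le_add]
  apply X.le_dis
  intro w z hv
  simp only at hv ⊢
  suffices hsuff : ∃ w' z', X.Vis (X.σ s i) w' y z' ∧
      an η (X.D s i u) (z' - y) ≤ an η u (z - x) + an η u (y' - x) by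
    obtain ⟨w', z', hv', hle⟩ := hsuff
    have h1 := X.dis_le_of_vis hη (X.σ s i) (y, X.D s i u) hv'
    simp only at h1
    linarith
  have hx' := ((X.T s).mem_table_iff x).1 hx
  have hy' := ((X.T _).mem_table_iff y).1 hy
  by_cases hhead : w.head? = some i
  · -- the word starts with `i`
    cases w with
    | nil => simp at hhead
    | cons m w =>
      simp only [List.head?_cons, Option.some.injEq] at hhead
      subst hhead
      obtain ⟨hcr, hv1⟩ := hv
      obtain ⟨w', z', hv', -, hle⟩ := X.sweep hη (X.D s m u) w.length (X.σ s m) w rfl (X.R s m x) y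
        (X.R s m z) hv1 (by
          intro k hk
          refine ⟨?_, (hy' k).le⟩
          apply X.pos_next (hx' m).le hcr.1 (fun j hj => (hcr.2 j hj).le)
          cases w with
          | nil => simp at hk
          | cons m' w' =>
            simp only [List.head?_cons, Option.some.injEq] at hk
            subst hk
            exact hv1.1.1)
      refine ⟨w', z', hv', hle.trans (le_of_eq ?_)⟩
      rw [X.an_R]
      congr 1
      rw [← hRy]
      rw [X.an_R]
  · -- sweep to the side
    obtain ⟨r, hs0, hs1, hci, hcj⟩ := (X.T s).exists_cross_point hx h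
    set c := x + r • (y' - x) with hc
    have hcnn : ∀ j, 0 ≤ (X.T s).lam j c := by
      intro j
      by_cases hj : j = i
      · rw [hj, hci]
      · exact (hcj j hj).le
    obtain ⟨w', z', hv', hhd', hle⟩ := X.sweep hη u w.length s w rfl x c z hv
      (fun j _ => ⟨(hx' j).le, hcnn j⟩)
    have hRc : X.R s i c = c := X.R_of_lam_eq_zero hci
    have hcnn' : ∀ j, 0 ≤ (X.T (X.σ s i)).lam j c := by
      intro j
      by_cases hj : j = i
      · rw [hj]
        have h5 := X.lam_R s i c
        rw [hRc, hci, mul_zero] at h5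
        rw [h5]
      · have h5 := X.lam_R_of_zero hj hci
        rw [hRc] at h5
        rw [h5]
        exact (hcj j hj).le
    have hw'i : w'.head? ≠ some i := fun h1 => hhead (hhd' i h1)
    have hzi : 0 < (X.T s).lam i z' ∨ (∃ k, z' = (X.T s).P k ∧ k ≠ i) := by
      cases w' with
      | nil =>
        obtain ⟨k, hk⟩ := hv'
        by_cases hki : k = i
        · left
          rw [hk, hki, (X.T s).lam_P, if_pos rfl]
          norm_num
        · right
          exact ⟨k, hk, hki⟩
      | cons m w'' =>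
        left
        obtain ⟨⟨hm1, hm2⟩, -⟩ := hv'
        have hmi : m ≠ i := by
          rintro rfl
          exact hw'i rfl
        have h3 := hm2 i (Ne.symm hmi)
        rw [hci] at h3
        simp only [zero_mul, sub_zero] at h3
        exact (pos_iff_pos_of_mul_pos h3).1 (hcj m hmi)
    have hlen : an η u (c - x) + an η u (y' - c) = an η u (y' - x) := by
      have h1 : c - x = r • (y' - x) := by rw [hc]; ring
      have h2 : y' - c = (1 - r) • (y' - x) := by
        rw [hc, sub_smul, one_smul]; ring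
      rw [h1, h2, an_smul, an_smul, abs_of_nonneg hs0,
        abs_of_nonneg (by linarith only [hs1] : (0:ℝ) ≤ 1 - r)]
      ring
    have e2 : an η (X.D s i u) (y - c) = an η u (y' - c) := by
      conv_lhs => rw [← hRy, ← hRc]
      rw [X.an_R]
    rcases hzi with hzi | ⟨k, hk, hki⟩
    · -- add the letter `i`
      have hv2 : X.Vis (X.σ s i) (i :: w') c (X.R s i z') := by
        refine ⟨((X.T _).cross_iff _ _ _).2 ⟨?_, fun j hj => ?_⟩, ?_⟩
        · rw [X.lam_R]
          have := mul_pos (X.kap_pos s i) hzi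
          linarith only [this]
        · have h5 := X.bb_R s i j c z'
          rw [hRc] at h5
          rw [h5]
          simp only [Triangle.bb]
          rw [hci]
          have := mul_pos (X.kap_pos s i) (mul_pos (hcj j hj) hzi)
          linarith only [this]
        · have h5 := X.R_R s i c
          rw [hRc] at h5
          rw [X.invol, X.R_R, h5]
          exact hv'
      obtain ⟨w'', z'', hv'', -, hle2⟩ := X.sweep hη (X.D s i u) (i :: w').length (X.σ s i)
        (i :: w') rfl c y (X.R s i z') hv2 (fun j _ => ⟨hcnn' j, (hy' j).le⟩)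
      refine ⟨w'', z'', hv'', hle2.trans ?_⟩
      have e1 : an η (X.D s i u) (X.R s i z' - c) = an η u (z' - c) := by
        conv_lhs => rw [← hRc]
        rw [X.an_R]
      rw [e1, e2]
      linarith only [hle, hlen]
    · -- the vertex lies on the side
      refine ⟨[], z', ⟨k, ?_⟩, ?_⟩
      · rw [hk, X.glue s i k hki]
      have h0 : (X.T s).lam i z' = 0 := by rw [hk, (X.T s).lam_P, if_neg (Ne.symm hki)]
      have e1 : an η (X.D s i u) (z' - y) = an η u (z' - y') := by
        conv_lhs => rw [← hRy, ← X.R_of_lam_eq_zero h0]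
        rw [X.an_R]
      rw [e1]
      have h1 := an_tri hη u z' c y'
      rw [an_sub_comm η u c y'] at h1
      linarith only [hle, hlen, h1]

lemma dis_cross {η : ℝ} (hη : 0 < η) {s : S} {x y : ℂ} (u : ℂ) {i : Fin 3}
    (hx : x ∈ (X.T s).table) (hy : y ∈ (X.T (X.σ s i)).table)
    (h : (X.T s).Cross i x (X.R (X.σ s i) i y)) :
    |X.dis η (X.σ s i) (y, X.D s i u) - X.dis η s (x, u)| ≤
      an η u (X.R (X.σ s i) i y - x) := by
  have h1 := X.dis_cross_le hη u hx hy h
  have hsym := X.cross_symm hx h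
  have hRy : X.R s i (X.R (X.σ s i) i y) = y := by
    have h4 := X.R_R (X.σ s i) i y
    rwa [X.invol] at h4
  have hx2 : x ∈ (X.T (X.σ (X.σ s i) i)).table := by rw [X.invol]; exact hx
  have hsym2 : (X.T (X.σ s i)).Cross i y (X.R (X.σ (X.σ s i) i) i x) := by
    rw [X.invol]; exact hsym
  have h2 := X.dis_cross_le (s := X.σ s i) hη (X.D s i u) hy hx2 hsym2
  rw [X.invol, X.D_D] at h2
  have h3 : an η (X.D s i u) (X.R s i x - y) = an η u (X.R (X.σ s i) i y - x) := by
    conv_lhs => rw [← hRy]
    rw [X.an_R, an_sub_comm]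
  rw [h3] at h2
  rw [abs_le]
  constructor <;> linarith only [h1, h2]

/-! ### measurability -/

/-- the unfolded vertices -/
noncomputable def unf : S → List (Fin 3) → Fin 3 → ℂ
  | s, [], k => (X.T s).P k
  | s, i :: w, k => X.R (X.σ s i) i (unf (X.σ s i) w k)

lemma exists_unf (w : List (Fin 3)) : ∀ (s : S) (x z : ℂ), X.Vis s w x z →
    ∃ k, z = X.unf s w k := by
  induction w with
  | nil =>
    rintro s x z ⟨k, hk⟩
    exact ⟨k, hk⟩
  | cons i w ih =>
    rintro s x z ⟨-, hv⟩
    obtain ⟨k, hk⟩ := ih _ _ _ hv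
    exact ⟨k, by rw [unf, ← hk, X.R_R]⟩

lemma measurableSet_vis (w : List (Fin 3)) : ∀ (s : S) (z : ℂ),
    MeasurableSet {x | X.Vis s w x z} := by
  induction w with
  | nil =>
    intro s z
    by_cases h : ∃ k, z = (X.T s).P k
    · have : {x : ℂ | X.Vis s [] x z} = univ := by
        ext x; simpa only [vis_nil, mem_ofPred_eq, mem_univ, iff_true] using h
      rw [this]
      exact MeasurableSet.univ
    · have : {x : ℂ | X.Vis s [] x z} = ∅ := by
        ext x; simpa only [vis_nil, mem_ofPred_eq, mem_empty_iff_false, iff_false, not_exists] using h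
      rw [this]
      exact MeasurableSet.empty
  | cons i w ih =>
    intro s z
    have h1 : {x | X.Vis s (i :: w) x z} =
        ({x | (X.T s).lam i z < 0} ∩ ⋂ j, ⋂ (_ : j ≠ i),
          {x | 0 < (X.T s).lam i x * (X.T s).lam j z - (X.T s).lam j x * (X.T s).lam i z}) ∩
        (X.R s i) ⁻¹' {x | X.Vis (X.σ s i) w x (X.R s i z)} := by
      ext x
      simp only [vis_cons, Triangle.Cross, mem_ofPred_eq, mem_inter_iff, mem_iInter, mem_preimage]
    rw [h1]
    apply MeasurableSet.inter
    · apply MeasurableSet.inter (MeasurableSet.const _)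
      apply MeasurableSet.iInter
      intro j
      apply MeasurableSet.iInter
      intro _
      apply (isOpen_lt continuous_const _).measurableSet
      exact (((X.T s).continuous_lam i).mul continuous_const).sub
        (((X.T s).continuous_lam j).mul continuous_const)
    · exact (X.continuous_R s i).measurable (ih _ (X.R s i z))

open Classical in
/-- the terms of the infimum -/
noncomputable def gterm (η : ℝ) (s : S) (p : List (Fin 3) × Fin 3) (q : ℂ × ℂ) : ℝ :=
  if X.Vis s p.1 q.1 (X.unf s p.1 p.2) then an η q.2 (X.unf s p.1 p.2 - q.1)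
    else an η q.2 ((X.T s).P 0 - q.1)

lemma dis_eq_iInf (η : ℝ) (s : S) (q : ℂ × ℂ) : X.dis η s q = ⨅ p, X.gterm η s p q := by
  unfold dis iInf
  congr 1
  ext r
  simp only [mem_ofPred_eq, mem_range, Prod.exists]
  constructor
  · rintro ⟨w, z, hv, rfl⟩
    obtain ⟨k, hk⟩ := X.exists_unf w _ _ _ hv
    refine ⟨w, k, ?_⟩
    rw [gterm, if_pos (by simpa [← hk] using hv), hk]
  · rintro ⟨w, k, rfl⟩
    unfold gterm
    split_ifs with h
    · exact ⟨w, _, h, rfl⟩
    · exact ⟨[], (X.T s).P 0, ⟨0, rfl⟩, rfl⟩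

lemma measurable_dis (η : ℝ) (s : S) : Measurable (X.dis η s) := by
  have : X.dis η s = fun q => ⨅ p, X.gterm η s p q := by
    funext q
    exact X.dis_eq_iInf η s q
  rw [this]
  apply Measurable.iInf
  intro p
  unfold gterm
  apply Measurable.ite
  · exact measurable_fst (X.measurableSet_vis p.1 s (X.unf s p.1 p.2))
  · exact Triangle.measurable_an η _
  · exact Triangle.measurable_an η _

end Cx

end Vale.Agent.P099
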