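import Vale.Agent.P099.H504.Cx.A1

set_option linter.all false

open MeasureTheory Set Filter Topology

namespace Vale.Agent.P099

namespace Cx

variable {S : Type} (X : Cx S)

/-- folding a point back along a word -/
noncomputable def fold : S → List (Fin 3) → ℂ → ℂ
  | _, [], x => x
  | s, i :: w, x => fold (X.σ s i) w (X.R s i x)

/-- folding a direction back along a word -/
noncomputable def rfold : S → List (Fin 3) → ℂ → ℂ
  | _, [], x => x
  | s, i :: w, x => rfold (X.σ s i) w (X.D s i x)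

lemma fold_cons (s : S) (i : Fin 3) (w : List (Fin 3)) (x : ℂ) :
    X.fold s (i :: w) x = X.fold (X.σ s i) w (X.R s i x) := rfl

lemma run_append (a b : List (Fin 3)) : ∀ s, X.run s (a ++ b) = X.run (X.run s a) b := by
  induction a with
  | nil => intro s; rfl
  | cons i a ih => intro s; exact ih _

lemma run_reverse (w : List (Fin 3)) : ∀ s, X.run (X.run s w) w.reverse = s := by
  induction w with
  | nil => intro s; rfl
  | cons i w ih =>
    intro s
    have h : X.run (X.run (X.run (X.σ s i) w) w.reverse) [i] = s := by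
      rw [ih]
      exact X.invol s i
    rw [List.reverse_cons, run_append]
    exact h

lemma fold_append (a b : List (Fin 3)) : ∀ s x,
    X.fold s (a ++ b) x = X.fold (X.run s a) b (X.fold s a x) := by
  induction a with
  | nil => intro s x; rfl
  | cons i a ih => intro s x; exact ih _ _

lemma fold_reverse (w : List (Fin 3)) : ∀ s x,
    X.fold (X.run s w) w.reverse (X.fold s w x) = x := by
  induction w with
  | nil => intro s x; rfl
  | cons i w ih =>
    intro s x
    rw [List.reverse_cons, fold_append]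
    have h : X.R (X.run (X.run (X.σ s i) w) w.reverse) i
        (X.fold (X.run (X.σ s i) w) w.reverse (X.fold (X.σ s i) w (X.R s i x))) = x := by
      rw [ih, run_reverse, X.R_R]
    exact h

lemma fold_unf (w : List (Fin 3)) (k : Fin 3) : ∀ s, X.fold s w (X.unf s w k) =
    (X.T (X.run s w)).P k := by
  induction w with
  | nil => intro s; rfl
  | cons i w ih =>
    intro s
    have h := X.R_R (X.σ s i) i (X.unf (X.σ s i) w k)
    rw [X.invol] at h
    rw [fold_cons, unf, h]
    exact ih _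

lemma an_fold (η : ℝ) (w : List (Fin 3)) : ∀ s u a b,
    an η (X.rfold s w u) (X.fold s w a - X.fold s w b) = an η u (a - b) := by
  induction w with
  | nil => intro s u a b; rfl
  | cons i w ih =>
    intro s u a b
    have h := ih (X.σ s i) (X.D s i u) (X.R s i a) (X.R s i b)
    rw [X.an_R] at h
    exact h

/-- crossing conditions with positivity of the source -/
def ChainP : S → List (Fin 3) → ℂ → ℂ → Prop
  | _, [], _, _ => True
  | s, i :: w, x, z => 0 < (X.T s).lam i x ∧ (X.T s).Cross i x z ∧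
      ChainP (X.σ s i) w (X.R s i x) (X.R s i z)

/-- crossing conditions -/
def ChainC : S → List (Fin 3) → ℂ → ℂ → Prop
  | _, [], _, _ => True
  | s, i :: w, x, z => (X.T s).Cross i x z ∧ ChainC (X.σ s i) w (X.R s i x) (X.R s i z)

lemma pos_next' {s : S} {i m : Fin 3} {x z : ℂ} (hx : 0 < (X.T s).lam i x)
    (hcr : (X.T s).Cross i x z) (hm : (X.T (X.σ s i)).lam m (X.R s i z) < 0) :
    0 < (X.T (X.σ s i)).lam m (X.R s i x) := by
  obtain ⟨hz, hb⟩ := hcr
  have hmi : m ≠ i := X.lam_R_neg hz hm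
  have h1 := X.bb_next (s := s) i m x z
  have h2 : 0 < (X.T s).bb i m x z := hb m hmi
  rw [← h1] at h2
  by_contra h3
  rw [not_lt] at h3
  linarith only [mul_nonneg (neg_nonneg.2 h3) (neg_pos.2 hz).le, mul_pos hx (neg_pos.2 hm), h2]

lemma chainP_of_vis (w : List (Fin 3)) : ∀ s x z, X.Vis s w x z →
    (∀ i, w.head? = some i → 0 < (X.T s).lam i x) → X.ChainP s w x z := by
  induction w with
  | nil => intro s x z _ _; trivial
  | cons i w ih =>
    intro s x z hv hpos
    obtain ⟨hcr, hv1⟩ := hv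
    have hx := hpos i rfl
    refine ⟨hx, hcr, ih _ _ _ hv1 ?_⟩
    intro m hm
    cases w with
    | nil => simp at hm
    | cons m' w' =>
      simp only [List.head?_cons, Option.some.injEq] at hm
      subst hm
      exact X.pos_next' hx hcr hv1.1.1

lemma chainC_append (v : List (Fin 3)) (i : Fin 3) : ∀ s p y, X.ChainC s v p y →
    (X.T (X.run s v)).Cross i (X.fold s v p) (X.fold s v y) → X.ChainC s (v ++ [i]) p y := by
  induction v with
  | nil => intro s p y _ h; exact ⟨h, trivial⟩
  | cons j v ih =>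
    intro s p y h1 h2
    exact ⟨h1.1, ih _ _ _ h1.2 h2⟩

lemma chainC_reverse (w : List (Fin 3)) : ∀ s x z, X.ChainP s w x z →
    X.ChainC (X.run s w) w.reverse (X.fold s w z) (X.fold s w x) := by
  induction w with
  | nil => intro s x z _; trivial
  | cons i w ih =>
    intro s x z h
    obtain ⟨hx, hcr, hc⟩ := h
    rw [List.reverse_cons]
    apply X.chainC_append _ _ _ _ _ (ih _ _ _ hc)
    have hκ := X.kap_pos s i
    show (X.T (X.run (X.run (X.σ s i) w) w.reverse)).Cross i
      (X.fold (X.run (X.σ s i) w) w.reverse (X.fold (X.σ s i) w (X.R s i z)))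
      (X.fold (X.run (X.σ s i) w) w.reverse (X.fold (X.σ s i) w (X.R s i x)))
    rw [fold_reverse, fold_reverse, run_reverse]
    refine ((X.T _).cross_iff _ _ _).2 ⟨?_, fun j hj => ?_⟩
    · rw [X.lam_R]
      have := mul_pos hκ hx
      linarith
    · have h1 := X.bb_R s i j z x
      have h2 := mul_pos hκ (hcr.2 j hj)
      simp only [Triangle.bb] at h1 ⊢
      linarith only [h1, h2]

/-- seen from the vertex `p` -/
def VisR (s : S) (v : List (Fin 3)) (p y : ℂ) : Prop :=
  X.ChainC s v p y ∧ X.fold s v y ∈ (X.T (X.run s v)).table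

lemma visR_unique (v : List (Fin 3)) : ∀ (v' : List (Fin 3)) (s : S) (p y : ℂ), X.VisR s v p y →
    X.VisR s v' p y → v = v' := by
  induction v with
  | nil =>
    intro v' s p y h h'
    cases v' with
    | nil => rfl
    | cons i v' =>
      exfalso
      have h1 := ((X.T s).mem_table_iff y).1 h.2 i
      have h2 := h'.1.1.1
      linarith
  | cons i v ih =>
    intro v' s p y h h'
    cases v' with
    | nil =>
      exfalso
      have h1 := ((X.T s).mem_table_iff y).1 h'.2 i
      have h2 := h.1.1.1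
      linarith
    | cons m v' =>
      have him : i = m := by
        by_contra hne
        have h1 := h.1.1.2 m (Ne.symm hne)
        have h2 := h'.1.1.2 i hne
        linarith
      subst him
      rw [ih v' (X.σ s i) (X.R s i p) (X.R s i y) ⟨h.1.2, h.2⟩ ⟨h'.1.2, h'.2⟩]

lemma measurableSet_chainC (w : List (Fin 3)) : ∀ s p, MeasurableSet {y | X.ChainC s w p y} := by
  induction w with
  | nil =>
    intro s p
    have : {y : ℂ | X.ChainC s [] p y} = univ := by
      ext y
      simp only [ChainC, ofPred_true, mem_univ]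
    rw [this]
    exact MeasurableSet.univ
  | cons i w ih =>
    intro s p
    have h1 : {y | X.ChainC s (i :: w) p y} =
        ({y | (X.T s).lam i y < 0} ∩ ⋂ j, ⋂ (_ : j ≠ i),
          {y | 0 < (X.T s).lam i p * (X.T s).lam j y - (X.T s).lam j p * (X.T s).lam i y}) ∩
        (X.R s i) ⁻¹' {y | X.ChainC (X.σ s i) w (X.R s i p) y} := by
      ext y
      simp only [ChainC, Triangle.Cross, mem_ofPred_eq, mem_inter_iff, mem_iInter, mem_preimage]
    rw [h1]
    apply MeasurableSet.inter
    · apply MeasurableSet.inter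
      · exact (isOpen_lt ((X.T s).continuous_lam i) continuous_const).measurableSet
      · apply MeasurableSet.iInter
        intro j
        apply MeasurableSet.iInter
        intro _
        apply (isOpen_lt continuous_const _).measurableSet
        exact (continuous_const.mul ((X.T s).continuous_lam j)).sub
          (continuous_const.mul ((X.T s).continuous_lam i))
    · exact (X.continuous_R s i).measurable (ih _ (X.R s i p))

lemma continuous_fold (w : List (Fin 3)) : ∀ s, Continuous (X.fold s w) := by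
  induction w with
  | nil => intro s; exact continuous_id
  | cons i w ih => intro s; exact (ih _).comp (X.continuous_R s i)

lemma measurePreserving_fold (w : List (Fin 3)) : ∀ s,
    MeasurePreserving (fun q : ℂ × ℂ => (X.fold s w q.1, X.rfold s w q.2))
      (volume.prod nu) (volume.prod nu) := by
  induction w with
  | nil => intro s; exact MeasurePreserving.id _
  | cons i w ih =>
    intro s
    exact (ih _).comp ((X.measurePreserving_R s i).prod (X.measurePreserving_D s i))

/-- the pieces seen from the vertex -/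
def pieceB (η r : ℝ) (k : Fin 3) (a : S × List (Fin 3)) : Set (ℂ × ℂ) :=
  {q | X.VisR a.1 a.2 ((X.T a.1).P k) q.1} ∩ (X.T a.1).nearV η r k

lemma measurableSet_pieceB (η r : ℝ) (k : Fin 3) (a : S × List (Fin 3)) :
    MeasurableSet (X.pieceB η r k a) := by
  apply MeasurableSet.inter _ ((X.T a.1).measurableSet_nearV η r k)
  have h : MeasurableSet {y | X.VisR a.1 a.2 ((X.T a.1).P k) y} :=
    (X.measurableSet_chainC a.2 a.1 ((X.T a.1).P k)).inter
      ((X.continuous_fold a.2 a.1).measurable (X.T _).isOpen_table.measurableSet)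
  exact measurable_fst h

lemma disjoint_pieceB (η r : ℝ) (k : Fin 3) (s : S) :
    Pairwise (Function.onFun Disjoint (fun v => X.pieceB η r k (s, v))) := by
  intro v v' hne
  rw [Function.onFun, Set.disjoint_left]
  intro q h1 h2
  exact hne (X.visR_unique v v' _ _ _ h1.1 h2.1)

/-- the pieces seen from the table -/
def pieceA (η r : ℝ) (k : Fin 3) (s : S) (w : List (Fin 3)) : Set (ℂ × ℂ) :=
  {q | q.1 ∈ (X.T s).table ∧ X.Vis s w q.1 (X.unf s w k) ∧ an η q.2 (X.unf s w k - q.1) < r}

lemma measure_pieceA_le (η r : ℝ) (k : Fin 3) (s : S) (w : List (Fin 3)) :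
    (volume.prod nu) (X.pieceA η r k s w) ≤
      (volume.prod nu) (X.pieceB η r k (X.run s w, w.reverse)) := by
  rw [← (X.measurePreserving_fold w s).measure_preimage
    (X.measurableSet_pieceB η r k (X.run s w, w.reverse)).nullMeasurableSet]
  apply measure_mono
  rintro ⟨x, u⟩ ⟨hx, hv, ha⟩
  have hx' := ((X.T s).mem_table_iff x).1 hx
  have h1 := X.chainC_reverse w s x (X.unf s w k) (X.chainP_of_vis w _ _ _ hv (fun i _ => hx' i))
  rw [fold_unf] at h1
  refine ⟨⟨h1, ?_⟩, ?_⟩
  · simp only [fold_reverse, run_reverse]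
    exact hx
  · have h2 := X.an_fold η w s u (X.unf s w k) x
    rw [fold_unf] at h2
    simp only [Triangle.nearV, mem_ofPred_eq]
    rw [h2]
    exact ha

/-- (B4) any constant will do -/
lemma measure_dis_lt [Fintype S] (X : Cx S) : ∃ C : ℝ, 0 < C ∧ ∀ s : S, ∀ η : ℝ, 0 < η →
    ∀ r : ℝ, 0 < r → ((volume.restrict (X.T s).table).prod nu) {p | X.dis η s p < r} ≤
      ENNReal.ofReal (C * r ^ 2) := by
  refine ⟨12 * (Fintype.card S : ℝ) + 1, by positivity, fun s η hη r hr => ?_⟩
  have hmeas : MeasurableSet {p : ℂ × ℂ | X.dis η s p < r} :=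
    measurableSet_lt (X.measurable_dis η s) measurable_const
  have h1 : ((volume.restrict (X.T s).table).prod nu) {p | X.dis η s p < r} =
      (volume.prod nu) ({p | X.dis η s p < r} ∩ (X.T s).table ×ˢ univ) := by
    conv_lhs => rw [← Measure.restrict_univ (μ := nu)]
    rw [Measure.prod_restrict, Measure.restrict_apply hmeas]
  have hsub : {p | X.dis η s p < r} ∩ (X.T s).table ×ˢ univ ⊆ ⋃ k, ⋃ w, X.pieceA η r k s w := by
    rintro ⟨x, u⟩ ⟨hD, hx, -⟩
    obtain ⟨w, z, hv, hlt⟩ := X.exists_vis_of_dis_lt s (x, u) hD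
    obtain ⟨k, rfl⟩ := X.exists_unf w _ _ _ hv
    simp only [mem_iUnion]
    exact ⟨k, w, hx, hv, hlt⟩
  have hinj : Function.Injective fun w : List (Fin 3) => (X.run s w, w.reverse) := by
    intro w w' h
    have h2 := congrArg Prod.snd h
    exact List.reverse_injective h2
  have hk : ∀ k, (volume.prod nu) (⋃ w, X.pieceA η r k s w) ≤
      (Fintype.card S : ENNReal) * ENNReal.ofReal (4 * r ^ 2) := by
    intro k
    calc (volume.prod nu) (⋃ w, X.pieceA η r k s w)
        ≤ ∑' w, (volume.prod nu) (X.pieceA η r k s w) := measure_iUnion_le _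
      _ ≤ ∑' w, (volume.prod nu) (X.pieceB η r k (X.run s w, w.reverse)) :=
          ENNReal.tsum_le_tsum fun w => X.measure_pieceA_le η r k s w
      _ ≤ ∑' a, (volume.prod nu) (X.pieceB η r k a) :=
          ENNReal.tsum_comp_le_tsum_of_injective hinj
            (fun a => (volume.prod nu) (X.pieceB η r k a))
      _ = ∑' s', ∑' v, (volume.prod nu) (X.pieceB η r k (s', v)) :=
          ENNReal.tsum_prod (f := fun s' v => (volume.prod nu) (X.pieceB η r k (s', v)))
      _ ≤ ∑' _ : S, ENNReal.ofReal (4 * r ^ 2) := by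
          refine ENNReal.tsum_le_tsum fun s' => ?_
          rw [← measure_iUnion (X.disjoint_pieceB η r k s')
            (fun v => X.measurableSet_pieceB η r k (s', v))]
          refine le_trans (measure_mono ?_) ((X.T s').measure_nearV hη hr k)
          intro q hq
          obtain ⟨v, hv⟩ := mem_iUnion.1 hq
          exact hv.2
      _ = (Fintype.card S : ENNReal) * ENNReal.ofReal (4 * r ^ 2) := by
          rw [tsum_fintype, Finset.sum_const, Finset.card_univ, nsmul_eq_mul]
  rw [h1]
  calc (volume.prod nu) ({p | X.dis η s p < r} ∩ (X.T s).table ×ˢ univ)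
      ≤ (volume.prod nu) (⋃ k, ⋃ w, X.pieceA η r k s w) := measure_mono hsub
    _ ≤ ∑' k, (volume.prod nu) (⋃ w, X.pieceA η r k s w) := measure_iUnion_le _
    _ ≤ ∑' _ : Fin 3, (Fintype.card S : ENNReal) * ENNReal.ofReal (4 * r ^ 2) :=
        ENNReal.tsum_le_tsum hk
    _ = ENNReal.ofReal (12 * (Fintype.card S : ℝ) * r ^ 2) := by
        rw [tsum_fintype, Finset.sum_const, Finset.card_univ, Fintype.card_fin]
        have e : (Fintype.card S : ENNReal) = ENNReal.ofReal (Fintype.card S : ℝ) := by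
          rw [ENNReal.ofReal_natCast]
        rw [e, ← ENNReal.ofReal_mul (by positivity), ← ENNReal.ofReal_nsmul]
        congr 1
        rw [nsmul_eq_mul]
        push_cast
        ring
    _ ≤ ENNReal.ofReal ((12 * (Fintype.card S : ℝ) + 1) * r ^ 2) := by
        apply ENNReal.ofReal_le_ofReal
        nlinarith only [sq_nonneg r]

/-- (B1), free flight -/
lemma dis_free {η : ℝ} (hη : 0 < η) {s : S} {x u : ℂ} (hu : ‖u‖ = 1) {t : ℝ}
    (hx : x ∈ (X.T s).table) (hxt : x + t • u ∈ (X.T s).table) :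
    |X.dis η s (x + t • u, u) - X.dis η s (x, u)| ≤ η * |t| := by
  have := X.dis_lip hη u hx hxt
  rwa [add_sub_cancel_left, an_self hu] at this

/-- (B1), one crossing -/
lemma dis_bounce {η : ℝ} (hη : 0 < η) {s : S} {x u : ℂ} (hu : ‖u‖ = 1) {t : ℝ} {i : Fin 3}
    (hx : x ∈ (X.T s).table) (hE : (X.T s).E i (x, u)) (ht : (X.T s).hitT i (x, u) < t)
    (hxt : X.R s i (x + t • u) ∈ (X.T (X.σ s i)).table) :
    |X.dis η (X.σ s i) (X.R s i (x + t • u), X.D s i u) - X.dis η s (x, u)| ≤ η * |t| := by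
  have h := (X.T s).cross_of_E hx hE ht
  have h' : (X.T s).Cross i x (X.R (X.σ s i) i (X.R s i (x + t • u))) := by rwa [X.R_R]
  have := X.dis_cross hη u hx hxt h'
  rwa [X.R_R, add_sub_cancel_left, an_self hu] at this

/-- the cut-off function -/
noncomputable def chi (N : ℕ) (δ η : ℝ) (s : S) (p : ℂ × ℂ) : ℝ := cN N δ (X.dis η s p)

/-- its weight -/
noncomputable def wt (N : ℕ) (δ η : ℝ) (s : S) (p : ℂ × ℂ) : ℝ := wN N δ (X.dis η s p)

lemma measurable_chi (N : ℕ) (δ η : ℝ) (s : S) : Measurable (X.chi N δ η s) :=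
  (measurable_cN N δ).comp (X.measurable_dis η s)

lemma measurable_wt (N : ℕ) (δ η : ℝ) (s : S) : Measurable (X.wt N δ η s) :=
  (measurable_wN N δ).comp (X.measurable_dis η s)

lemma chi_nonneg (N : ℕ) (δ η : ℝ) (s : S) (p : ℂ × ℂ) : 0 ≤ X.chi N δ η s p := cN_nonneg _ _ _

lemma chi_le_one (N : ℕ) (δ η : ℝ) (s : S) (p : ℂ × ℂ) : X.chi N δ η s p ≤ 1 := cN_le_one _ _ _

lemma wt_nonneg (N : ℕ) {δ : ℝ} (hδ : 0 < δ) (η : ℝ) (s : S) (p : ℂ × ℂ) :
    0 ≤ X.wt N δ η s p := wN_nonneg hδ _

lemma wt_le (N : ℕ) {δ : ℝ} (hδ : 0 < δ) (η : ℝ) (s : S) (p : ℂ × ℂ) :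
    X.wt N δ η s p ≤ (sj δ N)⁻¹ := wN_le hδ _

/-- the cut-off vanishes near the vertices -/
lemma chi_eq_zero (N : ℕ) {δ η : ℝ} (hδ : 0 < δ) (hη : 0 < η) (hη1 : η ≤ 1) {s : S} {x u : ℂ}
    (hu : ‖u‖ = 1) (k : Fin 3) (h : ‖x - (X.T s).P k‖ < sj δ N * η / 2) :
    X.chi N δ η s (x, u) = 0 := by
  apply cN_eq_zero hδ
  have h1 := X.dis_le hη s (x, u) k
  have h2 := an_le hη hu ((X.T s).P k - x)
  have h3 : ‖(X.T s).P k - x‖ = ‖x - (X.T s).P k‖ := norm_sub_rev _ _
  simp only at h1
  rw [h3] at h2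
  have h4 : ‖x - (X.T s).P k‖ / η + η * ‖x - (X.T s).P k‖ ≤ 2 * (‖x - (X.T s).P k‖ / η) := by
    have h5 : η * ‖x - (X.T s).P k‖ ≤ ‖x - (X.T s).P k‖ / η := by
      rw [le_div_iff₀ hη]
      have h6 : η * η ≤ 1 := by nlinarith only [hη1, hη]
      linarith only [mul_le_mul_of_nonneg_left h6 (norm_nonneg (x - (X.T s).P k))]
    linarith only [h5]
  have h6 : 2 * (‖x - (X.T s).P k‖ / η) ≤ sj δ N := by
    rw [← mul_div_assoc, div_le_iff₀ hη]; linarith only [h]
  linarith only [h6, h4, h2, h1]

/-- the difference of the cut-off at two phase points -/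
lemma chi_sub_le (N : ℕ) {δ η r : ℝ} (hδ : 0 < δ) {s s' : S} {p q : ℂ × ℂ}
    (h : |X.dis η s' q - X.dis η s p| ≤ r) (hr : r ≤ sj δ N / 2) :
    |X.chi N δ η s' q - X.chi N δ η s p| ≤ r * X.wt N δ η s p :=
  (cN_lip hδ (h.trans hr)).trans (mul_le_mul_of_nonneg_right h (wN_nonneg hδ _))

/-- the measure of the set where the cut-off is active -/
lemma exists_chi_const [Fintype S] (X : Cx S) : ∃ C : ℝ, 0 < C ∧ ∀ N : ℕ, 0 < N →
    ∀ δ : ℝ, 0 < δ → ∀ η : ℝ, 0 < η → ∀ s : S,
    (∫ p, X.wt N δ η s p ^ 2 ∂((volume.restrict (X.T s).table).prod nu)) ≤ C / N ∧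
    (((volume.restrict (X.T s).table).prod nu) {p | X.chi N δ η s p < 1}).toReal ≤ C * δ ^ 2 := by
  obtain ⟨C, hC, h⟩ := X.measure_dis_lt
  refine ⟨16 * C, by positivity, ?_⟩
  intro N hN δ hδ η hη s
  have hN' : (0:ℝ) < N := by exact_mod_cast hN
  have hfin : IsFiniteMeasure (volume.restrict (X.T s).table) :=
    ⟨by simpa only [MeasurableSet.univ, Measure.restrict_apply, univ_inter] using
      (X.T s).volume_table_lt_top⟩
  have htop : ∀ a : Set (ℂ × ℂ), ((volume.restrict (X.T s).table).prod nu) a ≠ ⊤ :=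
    fun a => measure_ne_top _ _
  have hreal : ∀ r : ℝ, 0 < r → (((volume.restrict (X.T s).table).prod nu)
      {p | X.dis η s p < r}).toReal ≤ C * r ^ 2 := by
    intro r hr
    exact ENNReal.toReal_le_of_le_ofReal (by positivity) (h s η hη r hr)
  constructor
  · classical
    have hm : ∀ r : ℝ, MeasurableSet {p : ℂ × ℂ | X.dis η s p < r} := fun r =>
      measurableSet_lt (X.measurable_dis η s) measurable_const
    have hint : ∀ j, Integrable (fun p : ℂ × ℂ => if X.dis η s p < 4 * sj δ j then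
        ((sj δ j)⁻¹) ^ 2 else 0) ((volume.restrict (X.T s).table).prod nu) := by
      intro j
      have : (fun p : ℂ × ℂ => if X.dis η s p < 4 * sj δ j then ((sj δ j)⁻¹) ^ 2 else 0) =
        {p : ℂ × ℂ | X.dis η s p < 4 * sj δ j}.indicator (fun _ => ((sj δ j)⁻¹) ^ 2) := by
        ext p; simp [indicator]
      rw [this]
      exact (integrable_const _).indicator (hm _)
    calc (∫ p, X.wt N δ η s p ^ 2 ∂((volume.restrict (X.T s).table).prod nu))
        ≤ ∫ p, (∑ j ∈ Finset.range N, if X.dis η s p < 4 * sj δ j then ((sj δ j)⁻¹) ^ 2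
            else 0) / N ^ 2 ∂((volume.restrict (X.T s).table).prod nu) := by
          apply integral_mono_of_nonneg
          · exact Eventually.of_forall fun p => sq_nonneg _
          · apply Integrable.div_const
            exact integrable_finsetSum _ fun j _ => hint j
          · exact Eventually.of_forall fun p => wN_sq hδ _
      _ = (∑ j ∈ Finset.range N, ∫ p, (if X.dis η s p < 4 * sj δ j then ((sj δ j)⁻¹) ^ 2
          else 0) ∂((volume.restrict (X.T s).table).prod nu)) / N ^ 2 := by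
          rw [integral_div, integral_finsetSum _ fun j _ => hint j]
      _ ≤ (∑ j ∈ Finset.range N, 16 * C) / N ^ 2 := by
          apply div_le_div_of_nonneg_right _ (by positivity)
          apply Finset.sum_le_sum
          intro j _
          have hs := sj_pos hδ j
          have : (fun p : ℂ × ℂ => if X.dis η s p < 4 * sj δ j then ((sj δ j)⁻¹) ^ 2 else 0) =
            {p : ℂ × ℂ | X.dis η s p < 4 * sj δ j}.indicator (fun _ => ((sj δ j)⁻¹) ^ 2) := by
            ext p; simp [indicator]
          rw [this, integral_indicator (hm _), setIntegral_const, smul_eq_mul]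
          have h1 := hreal (4 * sj δ j) (by positivity)
          calc _ ≤ (C * (4 * sj δ j) ^ 2) * ((sj δ j)⁻¹) ^ 2 := by
                apply mul_le_mul_of_nonneg_right h1 (by positivity)
            _ = 16 * C := by field_simp; ring
      _ = 16 * C / N := by
          simp only [Finset.sum_const, Finset.card_range, nsmul_eq_mul]
          field_simp
  · have h1 := hreal (2 * δ) (by positivity)
    calc _ ≤ (((volume.restrict (X.T s).table).prod nu) {p | X.dis η s p < 2 * δ}).toReal := by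
          apply ENNReal.toReal_mono (htop _)
          apply measure_mono
          intro p hp
          simp only [mem_ofPred_eq] at hp ⊢
          by_contra hcon
          rw [not_lt] at hcon
          have := cN_eq_one hN hδ hcon
          simp only [chi] at hp
          linarith only [hp, this]
      _ ≤ C * (2 * δ) ^ 2 := h1
      _ ≤ 16 * C * δ ^ 2 := by nlinarith only [mul_nonneg (sq_nonneg δ) hC.le]

/-- the cut-off restricted to unit directions -/
noncomputable def chi' (N : ℕ) (δ η : ℝ) (s : S) (p : ℂ × ℂ) : ℝ :=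
  {p : ℂ × ℂ | ‖p.2‖ = 1}.indicator (X.chi N δ η s) p

lemma chi'_eq {N : ℕ} {δ η : ℝ} {s : S} {x u : ℂ} (hu : ‖u‖ = 1) :
    X.chi' N δ η s (x, u) = X.chi N δ η s (x, u) := by
  apply indicator_of_mem
  exact hu

lemma measurable_chi' (N : ℕ) (δ η : ℝ) (s : S) : Measurable (X.chi' N δ η s) := by
  apply (X.measurable_chi N δ η s).indicator
  exact measurableSet_eq_fun (by fun_prop) measurable_const

lemma chi'_nonneg (N : ℕ) (δ η : ℝ) (s : S) (p : ℂ × ℂ) : 0 ≤ X.chi' N δ η s p :=
  indicator_nonneg (fun p _ => X.chi_nonneg N δ η s p) p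

lemma chi'_le_one (N : ℕ) (δ η : ℝ) (s : S) (p : ℂ × ℂ) : X.chi' N δ η s p ≤ 1 := by
  unfold chi'
  by_cases h : p ∈ {p : ℂ × ℂ | ‖p.2‖ = 1}
  · rw [indicator_of_mem h]; exact X.chi_le_one N δ η s p
  · rw [indicator_of_notMem h]; exact zero_le_one

lemma chi'_eq_zero (N : ℕ) {δ η : ℝ} (hδ : 0 < δ) (hη : 0 < η) (hη1 : η ≤ 1) {s : S} {x u : ℂ}
    (k : Fin 3) (h : ‖x - (X.T s).P k‖ < sj δ N * η / 2) :
    X.chi' N δ η s (x, u) = 0 := by
  by_cases hu : ‖u‖ = 1
  · rw [X.chi'_eq hu]; exact X.chi_eq_zero N hδ hη hη1 hu k h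
  · apply indicator_of_notMem
    exact hu

/-- comparison of the Euclidean and the anisotropic length -/
lemma an_le' {η : ℝ} (hη : 0 < η) (hη1 : η ≤ 1) {u v : ℂ} (hu : ‖u‖ = 1) {ε : ℝ}
    (hε : ‖v‖ ≤ ε) : an η u v ≤ 2 * ε / η := by
  refine (an_le hη hu v).trans ?_
  have h1 : η * ‖v‖ ≤ ‖v‖ / η := by
    rw [le_div_iff₀ hη]
    have h6 : η * η ≤ 1 := by nlinarith only [hη1, hη]
    linarith only [mul_le_mul_of_nonneg_left h6 (norm_nonneg v)]
  calc ‖v‖ / η + η * ‖v‖ ≤ ‖v‖ / η + ‖v‖ / η := by linarith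
    _ = 2 * ‖v‖ / η := by ring
    _ ≤ 2 * ε / η := by (clear * - hε hη; gcongr)

/-- Lipschitz property inside a tile, in the form used for the gradient estimate -/
lemma chi'_lip (N : ℕ) {δ η : ℝ} (hδ : 0 < δ) (hη : 0 < η) (hη1 : η ≤ 1) {s : S} {x y u : ℂ}
    (hu : ‖u‖ = 1) (hx : x ∈ (X.T s).table) (hy : y ∈ (X.T s).table) {ε : ℝ} (hε : ‖y - x‖ ≤ ε)
    (hε' : 4 * ε ≤ η * sj δ N) :
    |X.chi' N δ η s (y, u) - X.chi' N δ η s (x, u)| ≤ 2 * ε / η * X.wt N δ η s (x, u) := by
  rw [X.chi'_eq hu, X.chi'_eq hu]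
  apply X.chi_sub_le N hδ
  · exact (X.dis_lip hη u hx hy).trans (an_le' hη hη1 hu hε)
  · rw [div_le_iff₀ hη]; linarith only [hε']

/-- Lipschitz property across a side -/
lemma chi'_cross (N : ℕ) {δ η : ℝ} (hδ : 0 < δ) (hη : 0 < η) (hη1 : η ≤ 1) {s : S} {x y u : ℂ}
    (hu : ‖u‖ = 1) {i : Fin 3} (hx : x ∈ (X.T s).table) (hy : y ∈ (X.T (X.σ s i)).table)
    (h : (X.T s).Cross i x (X.R (X.σ s i) i y)) {ε : ℝ}
    (hε : ‖X.R (X.σ s i) i y - x‖ ≤ ε) (hε' : 4 * ε ≤ η * sj δ N) :
    |X.chi' N δ η (X.σ s i) (y, X.D s i u) - X.chi' N δ η s (x, u)| ≤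
      2 * ε / η * X.wt N δ η s (x, u) := by
  rw [X.chi'_eq hu, X.chi'_eq (by rw [X.norm_D]; exact hu)]
  apply X.chi_sub_le N hδ
  · exact (X.dis_cross hη u hx hy h).trans (an_le' hη hη1 hu hε)
  · rw [div_le_iff₀ hη]; linarith only [hε']

end Cx

end Vale.Agent.P099
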