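import Vale.Agent.P099.H504.Cx.Defs

set_option linter.all false

open MeasureTheory Set Filter Topology

open scoped ComplexConjugate

namespace Vale.Agent.P099

/-- the imaginary part of `∫ conj h dh` along the segment from `P` to `P + V` -/
noncomputable def sdI (h : ℂ → ℂ) (P V : ℂ) : ℝ :=
  (∫ t in (0 : ℝ)..1, conj (h (P + t • V)) * fderiv ℝ h (P + t • V) V).im

lemma sdI_congr {h g : ℂ → ℂ} (hh : ContDiff ℝ 1 h) (hg : ContDiff ℝ 1 g) {P V : ℂ}
    (hc : ∀ t ∈ Icc (0 : ℝ) 1, h (P + t • V) = g (P + t • V)) : sdI h P V = sdI g P V := by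
  unfold sdI
  congr 1
  rw [intervalIntegral.integral_of_le zero_le_one, intervalIntegral.integral_of_le zero_le_one,
    integral_Ioc_eq_integral_Ioo, integral_Ioc_eq_integral_Ioo]
  refine setIntegral_congr_fun measurableSet_Ioo fun t ht => ?_
  have hder : ∀ {h : ℂ → ℂ}, ContDiff ℝ 1 h →
      HasDerivAt (fun t : ℝ => h (P + t • V)) (fderiv ℝ h (P + t • V) V) t := by
    intro h hh
    have h1 : HasFDerivAt h (fderiv ℝ h (P + t • V)) (P + t • V) :=
      (hh.differentiable one_ne_zero _).hasFDerivAt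
    have h2 : HasDerivAt (fun t : ℝ => P + t • V) V t := by
      simpa using ((hasDerivAt_id t).smul_const V).const_add P
    exact h1.comp_hasDerivAt t h2
  have e1 : (fun t : ℝ => h (P + t • V)) =ᶠ[nhds t] fun t : ℝ => g (P + t • V) := by
    filter_upwards [Ioo_mem_nhds ht.1 ht.2] with t' ht'
    exact hc t' ⟨ht'.1.le, ht'.2.le⟩
  have e2 := e1.deriv_eq
  rw [(hder hh).deriv, (hder hg).deriv] at e2
  rw [e2, hc t ⟨ht.1.le, ht.2.le⟩]

lemma sdI_neg (h : ℂ → ℂ) (hh : ContDiff ℝ 1 h) (P V : ℂ) : sdI h (P + V) (-V) = - sdI h P V := by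
  unfold sdI
  rw [← Complex.neg_im, ← intervalIntegral.integral_neg]
  congr 1
  have h3 := intervalIntegral.integral_comp_sub_left (a := 0) (b := 1)
    (fun t : ℝ => - (conj (h (P + t • V)) * fderiv ℝ h (P + t • V) V)) 1
  rw [sub_zero, sub_self] at h3
  rw [← h3]
  apply intervalIntegral.integral_congr
  intro t _
  have e3 : P + V + t • (-V) = P + (1 - t) • V := by
    simp only [Complex.real_smul]
    push_cast
    ring
  simp only
  rw [e3, map_neg]
  ring

/-- The Jacobian identity on a triangle with its boundary terms. -/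
theorem jac_simp' {A B C : ℂ} {h : ℂ → ℂ} (hh : ContDiff ℝ 2 h) :
    2 * cr (B - A) (C - A) * ∫ p in simp2, (‖dz h (tri A (B - A) (C - A) p)‖ ^ 2
      - ‖dzb h (tri A (B - A) (C - A) p)‖ ^ 2) =
    sdI h B (C - B) - sdI h A (C - A) + sdI h A (B - A) := by
  set u := B - A with hu
  set v := C - A with hv
  set T := tri A u v with hT
  have hTc : Continuous T := continuous_tri A u v
  have hh1 : ContDiff ℝ 1 h := hh.of_le one_le_two
  have hD : Differentiable ℝ h := hh.differentiable two_ne_zero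
  have hfd : Continuous (fderiv ℝ h) := hh.continuous_fderiv two_ne_zero
  have hfd1 : ContDiff ℝ 1 (fderiv ℝ h) := hh.fderiv_right (m := 1) (by norm_num)
  have hfd2 : Continuous (fderiv ℝ (fderiv ℝ h)) := hfd1.continuous_fderiv one_ne_zero
  have hsymm : ∀ z a b, fderiv ℝ (fderiv ℝ h) z a b = fderiv ℝ (fderiv ℝ h) z b a := by
    intro z a b
    exact second_derivative_symmetric (f := h) (f' := fderiv ℝ h)
      (fun y => (hD y).hasFDerivAt) ((hfd1.differentiable one_ne_zero z).hasFDerivAt) a b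
  let F : ℝ × ℝ → ℂ := fun p => conj (h (T p)) * fderiv ℝ h (T p) v
  let G : ℝ × ℝ → ℂ := fun p => conj (h (T p)) * fderiv ℝ h (T p) u
  let Fs : ℝ × ℝ → ℂ := fun p => conj (fderiv ℝ h (T p) u) * fderiv ℝ h (T p) v
    + conj (h (T p)) * fderiv ℝ (fderiv ℝ h) (T p) u v
  let Gt : ℝ × ℝ → ℂ := fun p => conj (fderiv ℝ h (T p) v) * fderiv ℝ h (T p) u
    + conj (h (T p)) * fderiv ℝ (fderiv ℝ h) (T p) v u
  have hFc : Continuous F := (Complex.continuous_conj.comp (hh.continuous.comp hTc)).mul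
    ((hfd.comp hTc).clm_apply continuous_const)
  have hGc : Continuous G := (Complex.continuous_conj.comp (hh.continuous.comp hTc)).mul
    ((hfd.comp hTc).clm_apply continuous_const)
  have hFsc : Continuous Fs :=
    ((Complex.continuous_conj.comp ((hfd.comp hTc).clm_apply continuous_const)).mul
      ((hfd.comp hTc).clm_apply continuous_const)).add
    ((Complex.continuous_conj.comp (hh.continuous.comp hTc)).mul
      (((hfd2.comp hTc).clm_apply continuous_const).clm_apply continuous_const))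
  have hGtc : Continuous Gt :=
    ((Complex.continuous_conj.comp ((hfd.comp hTc).clm_apply continuous_const)).mul
      ((hfd.comp hTc).clm_apply continuous_const)).add
    ((Complex.continuous_conj.comp (hh.continuous.comp hTc)).mul
      (((hfd2.comp hTc).clm_apply continuous_const).clm_apply continuous_const))
  have hTs : ∀ s t : ℝ, HasDerivAt (fun s => T (s, t)) u s := by
    intro s t
    have h1 : HasDerivAt (fun s : ℝ => A + (s • u + t • v)) u s := by
      simpa using (((hasDerivAt_id s).smul_const u).add_const (t • v)).const_add A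
    exact h1
  have hTt : ∀ s t : ℝ, HasDerivAt (fun t => T (s, t)) v t := by
    intro s t
    have h1 : HasDerivAt (fun t : ℝ => A + (s • u + t • v)) v t := by
      simpa only [Complex.real_smul, hasDerivAt_const_add_iff, id_eq, one_smul] using
        (((hasDerivAt_id t).smul_const v).const_add (s • u)).const_add A
    exact h1
  have hhs : ∀ s t : ℝ, HasDerivAt (fun s => h (T (s, t))) (fderiv ℝ h (T (s, t)) u) s :=
    fun s t => (hD _).hasFDerivAt.comp_hasDerivAt s (hTs s t)
  have hht : ∀ s t : ℝ, HasDerivAt (fun t => h (T (s, t))) (fderiv ℝ h (T (s, t)) v) t :=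
    fun s t => (hD _).hasFDerivAt.comp_hasDerivAt t (hTt s t)
  have hds : ∀ (s t : ℝ) (w : ℂ), HasDerivAt (fun s => fderiv ℝ h (T (s, t)) w)
      (fderiv ℝ (fderiv ℝ h) (T (s, t)) u w) s := by
    intro s t w
    have h1 := (hfd1.differentiable one_ne_zero (T (s, t))).hasFDerivAt.comp_hasDerivAt s
      (hTs s t)
    exact h1.clm_apply (hasDerivAt_const s w) |>.congr_deriv (by simp)
  have hdt : ∀ (s t : ℝ) (w : ℂ), HasDerivAt (fun t => fderiv ℝ h (T (s, t)) w)
      (fderiv ℝ (fderiv ℝ h) (T (s, t)) v w) t := by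
    intro s t w
    have h1 := (hfd1.differentiable one_ne_zero (T (s, t))).hasFDerivAt.comp_hasDerivAt t
      (hTt s t)
    exact h1.clm_apply (hasDerivAt_const t w) |>.congr_deriv
      (by simp only [Function.comp_apply, map_zero, add_zero])
  have hcs : ∀ s t : ℝ, HasDerivAt (fun s => conj (h (T (s, t))))
      (conj (fderiv ℝ h (T (s, t)) u)) s := fun s t => (hhs s t).star
  have hct : ∀ s t : ℝ, HasDerivAt (fun t => conj (h (T (s, t))))
      (conj (fderiv ℝ h (T (s, t)) v)) t := fun s t => (hht s t).star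
  have hgreen := green_simp2 (E := ℂ) (F := F) (G := G) (Fs := Fs) (Gt := Gt) hFsc hGtc
    (fun s t => (hcs s t).mul (hds s t v)) (fun s t => (hct s t).mul (hdt s t u)) hFc hGc
  have hpt : ∀ p, Fs p - Gt p
      = ((2 * cr u v * (‖dz h (T p)‖ ^ 2 - ‖dzb h (T p)‖ ^ 2) : ℝ) : ℂ) * Complex.I := by
    intro p
    rw [← jac_point h (T p) u v]
    simp only [Fs, Gt]
    rw [hsymm (T p) u v]
    ring
  have hside1 : (∫ t in (0 : ℝ)..1, F (0, t)).im = sdI h A v := by
    have hTe : ∀ t : ℝ, T (0, t) = A + t • v := by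
      intro t
      simp [hT, tri]
    unfold sdI
    simp only [F, hTe]
  have hside2 : (∫ s in (0 : ℝ)..1, G (s, 0)).im = sdI h A u := by
    have hTe : ∀ t : ℝ, T (t, 0) = A + t • u := by
      intro t
      simp [hT, tri]
    unfold sdI
    simp only [G, hTe]
  have hside3 : (∫ t in (0 : ℝ)..1, (F (1 - t, t) - G (1 - t, t))).im = sdI h B (C - B) := by
    have hTe : ∀ t : ℝ, T (1 - t, t) = B + t • (C - B) := by
      intro t
      simp only [hT, tri, Complex.real_smul]
      rw [hu, hv]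
      push_cast
      ring
    have hw : C - B = v - u := by rw [hu, hv]; ring
    have hFG : ∀ t : ℝ, F (1 - t, t) - G (1 - t, t)
        = conj (h (B + t • (C - B))) * fderiv ℝ h (B + t • (C - B)) (C - B) := by
      intro t
      have e : fderiv ℝ h (B + t • (C - B)) (C - B)
          = fderiv ℝ h (B + t • (C - B)) v - fderiv ℝ h (B + t • (C - B)) u := by
        rw [← map_sub (fderiv ℝ h (B + t • (C - B))) v u, ← hw]
      simp only [F, G, hTe]
      rw [e]
      ring
    unfold sdI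
    simp only [hFG]
  have hlhs : ∫ p in simp2, (Fs p - Gt p)
      = ((2 * cr u v * ∫ p in simp2, (‖dz h (T p)‖ ^ 2 - ‖dzb h (T p)‖ ^ 2) : ℝ) : ℂ)
        * Complex.I := by
    simp only [hpt]
    rw [integral_mul_const, integral_complex_ofReal, integral_const_mul]
  have him := congrArg Complex.im hgreen
  rw [hlhs, Complex.add_im, Complex.sub_im, hside1, hside2, hside3, Complex.im_ofReal_mul,
    Complex.I_im, mul_one] at him
  exact him

namespace Triangle

variable (T : Triangle)

/-- energy identity with boundary terms -/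
theorem green2' (w : ℂ → ℂ) (hw : ContDiff ℝ 2 w) :
    2 * ∫ x in T.table, (‖dz w x‖ ^ 2 - ‖dzb w x‖ ^ 2) =
      (SignType.sign T.Del : ℝ) * ∑ i, sdI w (T.P (i + 1)) (T.d i) := by
  have hw1 : ContDiff ℝ 1 w := hw.of_le one_le_two
  have h1 := jac_simp' (A := T.P 0) (B := T.P 1) (C := T.P 2) hw
  have h5 : T.Del = cr (T.P 1 - T.P 0) (T.P 2 - T.P 0) := rfl
  rw [← h5] at h1
  have h4 : |T.Del| = (SignType.sign T.Del : ℝ) * T.Del := (sign_mul_self T.Del).symm
  rw [integral_table, Fin.sum_univ_three, smul_eq_mul, h4]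
  have i0 : (0 : Fin 3) + 1 = 1 := rfl
  have i1 : (1 : Fin 3) + 1 = 2 := rfl
  have i2 : (2 : Fin 3) + 1 = 0 := rfl
  rw [i0, i1, i2, d_zero, d_one, d_two]
  have e1 : sdI w (T.P 2) (T.P 0 - T.P 2) = - sdI w (T.P 0) (T.P 2 - T.P 0) := by
    have := sdI_neg w hw1 (T.P 0) (T.P 2 - T.P 0)
    rw [add_sub_cancel, neg_sub] at this
    exact this
  rw [e1]
  linear_combination (SignType.sign T.Del : ℝ) * h1

/-- `Re ∫ ∂_z h` with boundary terms -/
theorem green1' (h : ℂ → ℂ) (hh : ContDiff ℝ 1 h) :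
    2 * (∫ x in T.table, dz h x).re = (SignType.sign T.Del : ℝ) * ∑ i, ∫ t in (0:ℝ)..1,
      cr (h (T.P (i + 1) + t • T.d i)) (T.d i) := by
  have hp : ContDiff ℝ 1 (fun z => (h z).re) := Complex.reCLM.contDiff.comp hh
  have hq : ContDiff ℝ 1 (fun z => (h z).im) := Complex.imCLM.contDiff.comp hh
  have hfd : Continuous (fderiv ℝ h) := hh.continuous_fderiv one_ne_zero
  have hdz : Continuous (dz h) := by
    unfold dz
    exact (((hfd.clm_apply continuous_const)).sub
      (continuous_const.mul (hfd.clm_apply continuous_const))).div_const _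
  have hint : IntegrableOn (dz h) T.table := by
    rw [T.table_eq_image]
    exact integrableOn_tri hdz
  have hre : (∫ x in T.table, dz h x).re = ∫ x in T.table, (dz h x).re := by
    have := integral_re hint
    simpa only [RCLike.re_to_complex] using this.symm
  have hD : Differentiable ℝ h := hh.differentiable one_ne_zero
  have hpt : ∀ x, (dz h x).re
      = (1 / 2) * (fderiv ℝ (fun z => (h z).re) x 1 + fderiv ℝ (fun z => (h z).im) x Complex.I) := by
    intro x
    have h1 : fderiv ℝ (fun z => (h z).re) x = Complex.reCLM.comp (fderiv ℝ h x) :=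
      (Complex.reCLM.hasFDerivAt.comp x (hD x).hasFDerivAt).fderiv
    have h2 : fderiv ℝ (fun z => (h z).im) x = Complex.imCLM.comp (fderiv ℝ h x) :=
      (Complex.imCLM.hasFDerivAt.comp x (hD x).hasFDerivAt).fderiv
    rw [h1, h2]
    unfold dz
    simp only [Complex.div_ofNat_re, Complex.sub_re, Complex.mul_re, Complex.I_re, zero_mul,
      Complex.I_im, one_mul, zero_sub, sub_neg_eq_add, one_div, ContinuousLinearMap.comp_apply,
      Complex.reCLM_apply, Complex.imCLM_apply]
    ring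
  rw [hre]
  simp only [hpt]
  rw [integral_const_mul, div_thm T _ _ hp hq]
  simp only [Complex.re_add_im]
  ring

end Triangle

namespace Cx

variable {S : Type} (X : Cx S)

lemma Del_nb {s : S} {i : Fin 3} (h : X.σ s i ≠ s) :
    (SignType.sign (X.T (X.σ s i)).Del : ℝ) = - (SignType.sign (X.T s).Del : ℝ) := by
  have h0 := X.opp s i h
  have e : (X.T (X.σ s i)).lam i ((X.T s).P i) = (X.T s).Del / (X.T (X.σ s i)).Del := by
    have hi3 : ∀ i : Fin 3, i = 0 ∨ i = 1 ∨ i = 2 := by decide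
    unfold Triangle.lam Triangle.d Triangle.Del
    rcases hi3 i with rfl | rfl | rfl
    · have g1 := X.glue s 0 1 (by decide)
      have g2 := X.glue s 0 2 (by decide)
      congr 1
      show cr ((X.T (X.σ s 0)).P 2 - (X.T (X.σ s 0)).P 1) ((X.T s).P 0 - (X.T (X.σ s 0)).P 1) = _
      rw [g1, g2]
      unfold cr
      simp only [Complex.sub_re, Complex.sub_im]
      ring
    · have g1 := X.glue s 1 0 (by decide)
      have g2 := X.glue s 1 2 (by decide)
      congr 1
      show cr ((X.T (X.σ s 1)).P 0 - (X.T (X.σ s 1)).P 2) ((X.T s).P 1 - (X.T (X.σ s 1)).P 2) = _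
      rw [g1, g2]
      unfold cr
      simp only [Complex.sub_re, Complex.sub_im]
      ring
    · have g1 := X.glue s 2 0 (by decide)
      have g2 := X.glue s 2 1 (by decide)
      congr 1
      show cr ((X.T (X.σ s 2)).P 1 - (X.T (X.σ s 2)).P 0) ((X.T s).P 2 - (X.T (X.σ s 2)).P 0) = _
      rw [g1, g2]
  rw [e] at h0
  have n1 := (X.T (X.σ s i)).Del_ne
  rcases lt_or_gt_of_ne n1 with h1 | h1
  · have h2 : 0 < (X.T s).Del := by
      rcases lt_or_gt_of_ne (X.T s).Del_ne with h3 | h3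
      · exact absurd h0 (not_lt.2 (div_nonneg_of_nonpos h3.le h1.le))
      · exact h3
    rw [sign_neg h1, sign_pos h2]
    simp
  · have h2 : (X.T s).Del < 0 := by
      rcases lt_or_gt_of_ne (X.T s).Del_ne with h3 | h3
      · exact h3
      · exact absurd h0 (not_lt.2 (div_nonneg h3.le h1.le))
    rw [sign_pos h1, sign_neg h2]
    simp

/-- the shared side of two neighbours -/
lemma P_nb (s : S) (i : Fin 3) : (X.T (X.σ s i)).P (i + 1) = (X.T s).P (i + 1) :=
  X.glue s i (i + 1) (by revert i; decide)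

lemma P_nb' (s : S) (i : Fin 3) : (X.T (X.σ s i)).P (i + 2) = (X.T s).P (i + 2) :=
  X.glue s i (i + 2) (by revert i; decide)

lemma d_nb (s : S) (i : Fin 3) : (X.T (X.σ s i)).d i = (X.T s).d i := by
  unfold Triangle.d
  rw [X.P_nb, X.P_nb']

/-- terms on the sides cancel in pairs -/
lemma sum_sides [Fintype S] (F : S → Fin 3 → ℝ) (hwall : ∀ s i, X.σ s i = s → F s i = 0)
    (hglue : ∀ s i, X.σ s i ≠ s → F (X.σ s i) i = - F s i) : ∑ s, ∑ i, F s i = 0 := by
  rw [← Finset.sum_product']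
  refine Finset.sum_involution (fun p _ => (X.σ p.1 p.2, p.2)) ?_ ?_ ?_ ?_
  · rintro ⟨s, i⟩ _
    by_cases h : X.σ s i = s
    · simp [h, hwall s i h]
    · simp [hglue s i h]
  · rintro ⟨s, i⟩ _ h0 h1
    apply h0
    have : X.σ s i = s := congrArg Prod.fst h1
    exact hwall s i this
  · rintro ⟨s, i⟩ _
    simp
  · rintro ⟨s, i⟩ _
    simp [X.invol]

/-- energy identity on the complex -/
theorem green2 [Fintype S] (w : S → ℂ → ℂ) (hw : ∀ s, ContDiff ℝ 2 (w s))
    (hb : ∀ s i, X.σ s i = s → ∃ ω : ℂ, ∀ y ∈ segment ℝ ((X.T s).P (i + 1)) ((X.T s).P (i + 2)),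
      w s y = ω * (starRingEnd ℂ) (w s y))
    (hg : ∀ s i, X.σ s i ≠ s → ∀ y ∈ segment ℝ ((X.T s).P (i + 1)) ((X.T s).P (i + 2)),
      w (X.σ s i) y = w s y) :
    ∑ s, ∫ x in (X.T s).table, (‖dz (w s) x‖ ^ 2 - ‖dzb (w s) x‖ ^ 2) = 0 := by
  have h0 : ∀ s, 2 * ∫ x in (X.T s).table, (‖dz (w s) x‖ ^ 2 - ‖dzb (w s) x‖ ^ 2) =
      ∑ i, (SignType.sign (X.T s).Del : ℝ) * sdI (w s) ((X.T s).P (i + 1)) ((X.T s).d i) := by
    intro s
    rw [(X.T s).green2' (w s) (hw s), Finset.mul_sum]
  have h1 : ∑ s, ∑ i, (SignType.sign (X.T s).Del : ℝ) *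
      sdI (w s) ((X.T s).P (i + 1)) ((X.T s).d i) = 0 := by
    refine X.sum_sides _ ?_ ?_
    · intro s i h
      obtain ⟨ω, hω⟩ := hb s i h
      obtain ⟨c, hc⟩ := exists_line ω
      have := side_real (h := w s) ((hw s).of_le one_le_two) ((X.T s).P (i + 1)) ((X.T s).d i) c
        (fun t ht => hc _ (hω _ (Triangle.mem_seg ht)))
      unfold sdI
      rw [this, mul_zero]
    · intro s i h
      rw [X.Del_nb h, X.P_nb, X.d_nb]
      have e1 : sdI (w (X.σ s i)) ((X.T s).P (i + 1)) ((X.T s).d i) =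
          sdI (w s) ((X.T s).P (i + 1)) ((X.T s).d i) :=
        sdI_congr ((hw (X.σ s i)).of_le one_le_two) ((hw s).of_le one_le_two)
          (fun t ht => hg s i h _ (Triangle.mem_seg ht))
      rw [e1]
      ring
  have h2 : 2 * ∑ s, ∫ x in (X.T s).table, (‖dz (w s) x‖ ^ 2 - ‖dzb (w s) x‖ ^ 2) = 0 := by
    rw [Finset.mul_sum, ← h1]
    exact Finset.sum_congr rfl fun s _ => h0 s
  linarith

/-- `Re ∫ ∂_z h = 0` on the complex -/
theorem green1 [Fintype S] (h : S → ℂ → ℂ) (hh : ∀ s, ContDiff ℝ 1 (h s))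
    (hb : ∀ s i, X.σ s i = s → ∀ y ∈ segment ℝ ((X.T s).P (i + 1)) ((X.T s).P (i + 2)),
      h s y = (X.T s).d i / (starRingEnd ℂ) ((X.T s).d i) * (starRingEnd ℂ) (h s y))
    (hg : ∀ s i, X.σ s i ≠ s → ∀ y ∈ segment ℝ ((X.T s).P (i + 1)) ((X.T s).P (i + 2)),
      h (X.σ s i) y = h s y) :
    ∑ s, (∫ x in (X.T s).table, dz (h s) x).re = 0 := by
  have h0 : ∀ s, 2 * (∫ x in (X.T s).table, dz (h s) x).re =
      ∑ i, (SignType.sign (X.T s).Del : ℝ) * ∫ t in (0:ℝ)..1,
        cr (h s ((X.T s).P (i + 1) + t • (X.T s).d i)) ((X.T s).d i) := by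
    intro s
    rw [(X.T s).green1' (h s) (hh s), Finset.mul_sum]
  have h1 : ∑ s, ∑ i, (SignType.sign (X.T s).Del : ℝ) * ∫ t in (0:ℝ)..1,
        cr (h s ((X.T s).P (i + 1) + t • (X.T s).d i)) ((X.T s).d i) = 0 := by
    refine X.sum_sides _ ?_ ?_
    · intro s i hσ
      have h1 : ∀ t ∈ uIcc (0 : ℝ) 1, cr (h s ((X.T s).P (i + 1) + t • (X.T s).d i))
          ((X.T s).d i) = (fun _ => (0 : ℝ)) t := by
        intro t ht
        rw [uIcc_of_le zero_le_one] at ht
        exact Triangle.cr_eq_zero_of_refl ((X.T s).d_ne i) (hb s i hσ _ (Triangle.mem_seg ht))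
      rw [intervalIntegral.integral_congr h1]
      simp
    · intro s i hσ
      rw [X.Del_nb hσ, X.P_nb, X.d_nb]
      have h1 : ∀ t ∈ uIcc (0 : ℝ) 1,
          cr (h (X.σ s i) ((X.T s).P (i + 1) + t • (X.T s).d i)) ((X.T s).d i) =
          cr (h s ((X.T s).P (i + 1) + t • (X.T s).d i)) ((X.T s).d i) := by
        intro t ht
        rw [uIcc_of_le zero_le_one] at ht
        have e2 : h (X.σ s i) ((X.T s).P (i + 1) + t • (X.T s).d i) =
          h s ((X.T s).P (i + 1) + t • (X.T s).d i) := hg s i hσ _ (Triangle.mem_seg ht)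
        rw [e2]
      rw [intervalIntegral.integral_congr h1]
      ring
  have h2 : 2 * ∑ s, (∫ x in (X.T s).table, dz (h s) x).re = 0 := by
    rw [Finset.mul_sum, ← h1]
    exact Finset.sum_congr rfl fun s _ => h0 s
  linarith

end Cx

end Vale.Agent.P099
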