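import Vale.Agent.P099.H504.Cx.C9

set_option linter.all false

open MeasureTheory Set Filter Topology

namespace Vale.Agent.P099

variable {Ω : Type} [MeasurableSpace Ω]

namespace Cx

variable {S : Type} (X : Cx S)

/-- the derivative of `H` orthogonally to the motion vanishes -/
theorem weakY [Fintype S] {m : Measure Ω} [IsProbabilityMeasure m] {Ψ : ℝ → Ω → Ω}
    (hΨ : PFlow m Ψ) {H : S → ℂ → ℂ × Ω → ℝ} (hH : ∀ a, Bdd (H a)) (hF : X.FreeInv m Ψ H)
    (hB : X.BounceInv m Ψ H) (a : S)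
    (φ : ℂ → ℝ) (hφ : ContDiff ℝ (⊤ : ℕ∞) φ) (hφc : HasCompactSupport φ)
    (hφs : tsupport φ ⊆ (X.T a).table) :
    ∀ᵐ ω ∂(nu.prod m), ∫ x in (X.T a).table, H a x ω * fderiv ℝ φ x (Complex.I * ω.1) = 0 := by
  obtain ⟨C, hC⟩ := (hH a).2
  obtain ⟨D, hD0, hD⟩ := Triangle.wm_bound_K hφ hφc
  have hfin : Fact (volume (X.T a).table < ⊤) := ⟨(X.T a).volume_table_lt_top⟩
  set g : ℂ × Ω → ℝ := fun ω => ∫ x in (X.T a).table, H a x ω * fderiv ℝ φ x (Complex.I * ω.1) with hg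
  have mg : Measurable g := by
    have h1 : Measurable (fun z : (ℂ × Ω) × ℂ => H a z.2 z.1 * fderiv ℝ φ z.2 (Complex.I * z.1.1)) := by
      have h0 : Measurable (fun z : (ℂ × Ω) × ℂ => ((z.2, z.1) : ℂ × (ℂ × Ω))) := by fun_prop
      have h0' : Measurable (fun z : (ℂ × Ω) × ℂ => ((z.2, z.1.1) : ℂ × ℂ)) := by fun_prop
      exact ((hH a).1.comp h0).mul ((Triangle.wm_measurable_K hφ).comp h0')
    exact (h1.stronglyMeasurable.integral_prod_right'
      (ν := (volume : Measure ℂ).restrict (X.T a).table)).measurable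
  have key : ∀ ω : ℂ × Ω, ∀ τ : ℝ, 0 < τ →
      ∫ x in (X.T a).table, Uav Ψ τ (H a) x ω * fderiv ℝ φ x (Complex.I * ω.1) =
        τ⁻¹ * ∫ s in (0:ℝ)..τ, g (ω.1, Ψ s ω.2) := by
    intro ω τ hτ
    rw [intervalIntegral.integral_of_le hτ.le]
    simp only [hg]
    have hsw : ∫ s in Ioc 0 τ, ∫ x in (X.T a).table,
        H a x (ω.1, Ψ s ω.2) * fderiv ℝ φ x (Complex.I * ω.1) =
        ∫ x in (X.T a).table, ∫ s in Ioc 0 τ,
        H a x (ω.1, Ψ s ω.2) * fderiv ℝ φ x (Complex.I * ω.1) := by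
      apply integral_integral_swap
      have h1 : Measurable (fun z : ℝ × ℂ => H a z.2 (ω.1, Ψ z.1 ω.2) *
          fderiv ℝ φ z.2 (Complex.I * ω.1)) := by
        have h0 : Measurable (fun z : ℝ × ℂ => (((z.2, (ω.1, ω.2)), z.1) :
          (ℂ × (ℂ × Ω)) × ℝ)) := by fun_prop
        have h0' : Measurable (fun z : ℝ × ℂ => ((z.2, ω.1) : ℂ × ℂ)) := by fun_prop
        exact ((bdd_meas_comp hΨ (hH a)).comp h0).mul ((Triangle.wm_measurable_K hφ).comp h0')
      refine Integrable.of_bound (C := C * (D * ‖ω.1‖)) h1.aestronglyMeasurable ?_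
      refine Filter.Eventually.of_forall (fun z => ?_)
      simp only [Function.uncurry, Real.norm_eq_abs, abs_mul]
      exact mul_le_mul (hC _ _) (hD _ _) (abs_nonneg _) (le_trans (abs_nonneg _) (hC z.2 ω))
    rw [hsw, ← integral_const_mul]
    apply integral_congr_ae
    refine Filter.Eventually.of_forall (fun x => ?_)
    simp only [Uav, intervalIntegral.integral_of_le hτ.le]
    rw [integral_mul_const]
    ring
  -- vanishing of the averages for all times
  have h1 : ∀ᵐ ω ∂(nu.prod m), ∀ τ : ℚ, 0 < (τ : ℝ) → ∫ s in (0:ℝ)..τ, g (ω.1, Ψ s ω.2) = 0 := by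
    rw [ae_all_iff]
    intro τ
    by_cases hτ : 0 < (τ : ℝ)
    · have hr := X.rigid m (fun s => Uav Ψ τ (H s)) (fun s => Vav Ψ τ (H s))
        (fun s => bdd_Uav hΨ (hH s) hτ) (fun s => bdd_Vav hΨ (hH s) hτ)
        (X.freeDer_av hΨ hH hF) (X.bounceDer_av hΨ hH hF hB hτ)
        (fun s s' => skew_av2 hΨ (hH s) (hH s') hτ) a φ hφ hφc hφs
      filter_upwards [hr] with ω hω _
      rw [key ω τ hτ] at hω
      rcases mul_eq_zero.mp hω with h | h
      · exact absurd h (inv_ne_zero hτ.ne')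
      · exact h
    · exact Filter.Eventually.of_forall (fun ω h => absurd h hτ)
  have mgΨ : Measurable (fun z : (ℂ × Ω) × ℝ => g (z.1.1, Ψ z.2 z.1.2)) := by
    refine mg.comp (Measurable.prodMk (by fun_prop) ?_)
    exact hΨ.meas.comp (Measurable.prodMk measurable_snd (measurable_snd.comp measurable_fst))
  have gb : ∀ ω, |g ω| ≤ C * (D * ‖ω.1‖) * (volume.real (X.T a).table) := by
    intro ω
    have := norm_setIntegral_le_of_norm_le_const (μ := volume) (s := (X.T a).table)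
      (f := fun x => H a x ω * fderiv ℝ φ x (Complex.I * ω.1)) (C := C * (D * ‖ω.1‖))
      (X.T a).volume_table_lt_top (fun x _ => by
        rw [Real.norm_eq_abs, abs_mul]
        exact mul_le_mul (hC _ _) (hD _ _) (abs_nonneg _) (le_trans (abs_nonneg _) (hC x ω)))
    exact this
  have h2 : ∀ᵐ ω ∂(nu.prod m), ∀ᵐ s : ℝ, 0 < s → g (ω.1, Ψ s ω.2) = 0 := by
    filter_upwards [h1] with ω hω
    set f : ℝ → ℝ := fun s => g (ω.1, Ψ s ω.2) with hf
    have mf : Measurable f := by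
      have h0 : Measurable (fun s : ℝ => ((ω, s) : (ℂ × Ω) × ℝ)) := by fun_prop
      exact mgΨ.comp h0
    have bf : ∀ s, |f s| ≤ C * (D * ‖ω.1‖) * (volume.real (X.T a).table) := fun s => gb _
    have hi : ∀ a b : ℝ, IntervalIntegrable f volume a b := Triangle.locInt_of_bdd mf bf
    have hcont : Continuous (fun τ : ℝ => ∫ s in (0:ℝ)..τ, f s) :=
      intervalIntegral.continuous_primitive hi 0
    have hzero : ∀ τ : ℝ, 0 < τ → ∫ s in (0:ℝ)..τ, f s = 0 := by
      intro τ hτ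
      have hcl : IsClosed {τ : ℝ | ∫ s in (0:ℝ)..τ, f s = 0} :=
        isClosed_eq hcont continuous_const
      have hmem : τ ∈ closure {τ : ℝ | 0 < τ ∧ ∃ r : ℚ, (r : ℝ) = τ} := by
        rw [Metric.mem_closure_iff]
        intro ε hε
        obtain ⟨r, hr1, hr2⟩ := exists_rat_btwn (show τ < τ + ε by linarith only [hε])
        refine ⟨r, ⟨lt_trans hτ hr1, r, rfl⟩, ?_⟩
        rw [Real.dist_eq, abs_sub_comm, abs_of_pos (by linarith)]
        linarith
      have hsub : {τ : ℝ | 0 < τ ∧ ∃ r : ℚ, (r : ℝ) = τ} ⊆ {τ : ℝ | ∫ s in (0:ℝ)..τ, f s = 0} := by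
        rintro _ ⟨h0, r, rfl⟩
        exact hω r h0
      exact (closure_minimal hsub hcl) hmem
    have hloc : LocallyIntegrable f volume := by
      intro x
      refine ⟨Ioo (x - 1) (x + 1), Ioo_mem_nhds (by linarith) (by linarith), ?_⟩
      have : Fact (volume (Ioo (x - 1) (x + 1)) < ⊤) := ⟨measure_Ioo_lt_top⟩
      exact Integrable.of_bound mf.aestronglyMeasurable _ (Filter.Eventually.of_forall bf)
    filter_upwards [LocallyIntegrable.ae_hasDerivAt_integral hloc] with s hs hpos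
    have hd := hs 0
    have hd0 : HasDerivAt (fun τ : ℝ => ∫ t in (0:ℝ)..τ, f t) 0 s := by
      have heq : (fun τ : ℝ => ∫ t in (0:ℝ)..τ, f t) =ᶠ[𝓝 s] fun _ => 0 := by
        filter_upwards [lt_mem_nhds hpos] with τ hτ
        exact hzero τ hτ
      exact (hasDerivAt_const s (0:ℝ)).congr_of_eventuallyEq heq
    exact hd.unique hd0
  have hS : MeasurableSet {z : (ℂ × Ω) × ℝ | 0 < z.2 → g (z.1.1, Ψ z.2 z.1.2) = 0} := by
    have e : {z : (ℂ × Ω) × ℝ | 0 < z.2 → g (z.1.1, Ψ z.2 z.1.2) = 0} =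
        {z | 0 < z.2}ᶜ ∪ {z | g (z.1.1, Ψ z.2 z.1.2) = 0} := by
      ext z
      simp only [mem_ofPred_eq, mem_union, mem_compl_iff]
      (clear * -; tauto)
    rw [e]
    exact (measurableSet_lt measurable_const measurable_snd).compl.union
      (measurableSet_eq_fun mgΨ measurable_const)
  have h3 : ∀ᵐ s : ℝ, ∀ᵐ ω ∂(nu.prod m), 0 < s → g (ω.1, Ψ s ω.2) = 0 :=
    (Measure.ae_ae_comm (p := fun (ω : ℂ × Ω) (s : ℝ) => 0 < s → g (ω.1, Ψ s ω.2) = 0) hS).mp h2
  obtain ⟨s, hs0, hs⟩ : ∃ s : ℝ, 0 < s ∧ ∀ᵐ ω ∂(nu.prod m), g (ω.1, Ψ s ω.2) = 0 := by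
    by_contra hcon
    rw [not_exists] at hcon
    have hsub : Ioi (0:ℝ) ⊆ {s : ℝ | ¬ ∀ᵐ ω ∂(nu.prod m), 0 < s → g (ω.1, Ψ s ω.2) = 0} := by
      intro s hs hh
      apply hcon s
      refine ⟨hs, ?_⟩
      filter_upwards [hh] with ω hω
      exact hω hs
    have := measure_mono_null hsub (ae_iff.mp h3)
    simp at this
  have hmp : MeasurePreserving (Prod.map id (Ψ s)) (nu.prod m) (nu.prod m) :=
    (MeasurePreserving.id _).prod (hΨ.mp s)
  have h4 : ∀ᵐ ω ∂((nu.prod m).map (Prod.map id (Ψ s))), g ω = 0 := by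
    rw [ae_map_iff hmp.measurable.aemeasurable (measurableSet_eq_fun mg measurable_const)]
    exact hs
  rwa [hmp.map_eq] at h4

/-- On every tile an invariant function is, in the coordinates adapted to the motion, a function of
the direction and of the parameter. -/
theorem exists_F [Fintype S] {m : Measure Ω} [IsProbabilityMeasure m] {Ψ : ℝ → Ω → Ω}
    (hΨ : PFlow m Ψ) {H : S → ℂ → ℂ × Ω → ℝ} (hH : ∀ a, Bdd (H a)) (hF : X.FreeInv m Ψ H)
    (hB : X.BounceInv m Ψ H) (O : ℂ) (a : S) :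
    ∃ F : ℂ × Ω → ℝ, Measurable F ∧ (∃ C, ∀ ω, |F ω| ≤ C) ∧
      ∀ᵐ p ∂((volume.restrict (X.T a).table).prod (nu.prod m)),
        H a p.1 (p.2.1, Ψ (dt (p.1 - O) p.2.1) p.2.2) = F p.2 :=
  (X.T a).exists_F hΨ (hH a) (hF a) (X.weakY hΨ hH hF hB a) O

end Cx

end Vale.Agent.P099
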