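import Vale.Agent.P099.H504.Cx.C10

set_option linter.all false

open MeasureTheory Set Filter Topology

namespace Vale.Agent.P099

variable {Ω : Type} [MeasurableSpace Ω]

open WM4

namespace Cx

variable {S : Type} (X : Cx S)

/-- there are many states with a crossing of the side `i` -/
lemma exists_time (s : S) (i : Fin 3) : ∃ t : ℝ, 0 < t ∧ ∀ u : ℂ, ‖u‖ = 1 → (X.T s).ell i u < 0 →
    ∃ U : Set ℂ, IsOpen U ∧ U.Nonempty ∧ U ⊆ (X.T s).table ∧ ∀ x ∈ U,
      (X.T s).E i (x, u) ∧ (X.T s).hitT i (x, u) < t ∧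
        X.R s i (x + t • u) ∈ (X.T (X.σ s i)).table := by
  obtain ⟨T, hT⟩ : ∃ T, T = X.T s := ⟨_, rfl⟩
  obtain ⟨T', hT'⟩ : ∃ T', T' = X.T (X.σ s i) := ⟨_, rfl⟩
  rw [← hT, ← hT']
  have hL := T.Lp_pos
  have hL' := T'.Lp_pos
  obtain ⟨ε, hε0, hεS⟩ : ∃ ε : ℝ, 0 < ε ∧ ε * (T.Lp + T'.Lp) < 1 / 4 := by
    refine ⟨1 / (8 * (T.Lp + T'.Lp)), by positivity, ?_⟩
    rw [div_mul_eq_mul_div, div_lt_iff₀ (by positivity)]
    linarith
  have hε : ε * T.Lp < 1 / 4 := lt_of_le_of_lt (by gcongr; linarith) hεS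
  have hε' : ε * T'.Lp < 1 / 4 := lt_of_le_of_lt (by gcongr; linarith) hεS
  refine ⟨2 * ε, by positivity, fun u hu hell => ?_⟩
  have hell' : T.ell i u ≠ 0 := hell.ne
  -- base point: midpoint of the side
  set M : ℂ := (1 / 2 : ℝ) • T.P (i + 1) + (1 / 2 : ℝ) • T.P (i + 2) with hM
  have hlamM : ∀ j, T.lam j M = 1 / 2 * (if j = i + 1 then 1 else 0) +
      1 / 2 * (if j = i + 2 then 1 else 0) := by
    intro j
    rw [hM, T.lam_comb j (by norm_num), T.lam_P, T.lam_P]
  have hlamMi : T.lam i M = 0 := by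
    rw [hlamM]
    have h1 : ∀ i : Fin 3, i ≠ i + 1 := by decide
    have h2 : ∀ i : Fin 3, i ≠ i + 2 := by decide
    rw [if_neg (h1 i), if_neg (h2 i)]; norm_num
  have hlamMj : ∀ j, j ≠ i → T.lam j M = 1 / 2 := by
    intro j hj
    rw [hlamM]
    have h1 : ∀ i j : Fin 3, j ≠ i → j = i + 1 ∨ j = i + 2 := by decide
    have h2 : ∀ i : Fin 3, i + 1 ≠ i + 2 := by decide
    rcases h1 i j hj with h | h
    · rw [h, if_pos rfl, if_neg (h2 i)]; norm_num
    · rw [h, if_neg (h2 i).symm, if_pos rfl]; norm_num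
  have hRM : X.R s i M = M := X.R_of_lam_eq_zero (by rw [← hT]; exact hlamMi)
  have hlamM' : ∀ j, j ≠ i → T'.lam j M = 1 / 2 := by
    intro j hj
    have := X.lam_R_of_zero (s := s) hj (x := M) (by rw [← hT]; exact hlamMi)
    rw [hRM, ← hT, ← hT'] at this
    rw [this, hlamMj j hj]
  have hlamMi' : T'.lam i M = 0 := by
    have := X.lam_R s i M
    rw [hRM, ← hT, ← hT', hlamMi, mul_zero] at this
    exact this
  have hbd : ∀ (j : Fin 3) (v : ℂ), ‖v‖ = 1 → |ε * T.ell j v| < 1 / 4 := by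
    intro j v hv
    have := T.abs_ell_le j v
    rw [hv, mul_one] at this
    rw [abs_mul, abs_of_pos hε0]
    exact (mul_le_mul_of_nonneg_left this hε0.le).trans_lt hε
  have hbd' : ∀ (j : Fin 3) (v : ℂ), ‖v‖ = 1 → |ε * T'.ell j v| < 1 / 4 := by
    intro j v hv
    have := T'.abs_ell_le j v
    rw [hv, mul_one] at this
    rw [abs_mul, abs_of_pos hε0]
    exact (mul_le_mul_of_nonneg_left this hε0.le).trans_lt hε'
  refine ⟨{x | x ∈ T.table ∧ (∀ j, j ≠ i → 0 < T.lam j (x + T.hitT i (x, u) • u)) ∧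
    T.hitT i (x, u) < 2 * ε ∧ X.R s i (x + (2 * ε) • u) ∈ T'.table}, ?_, ?_, ?_, ?_⟩
  · have hc : Continuous fun x => T.hitT i (x, u) := by
      show Continuous fun x => - T.lam i x / T.ell i u
      exact (continuous_lam T i).neg.div_const _
    refine T.isOpen_table.inter (IsOpen.inter ?_ (IsOpen.inter ?_ ?_))
    · have : {x | ∀ j, j ≠ i → 0 < T.lam j (x + T.hitT i (x, u) • u)} =
          ⋂ j, {x | j ≠ i → 0 < T.lam j (x + T.hitT i (x, u) • u)} := by
        ext x; simp only [ne_eq, Complex.real_smul, mem_ofPred_eq, mem_iInter]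
      rw [show (fun x => ∀ j, j ≠ i → 0 < T.lam j (x + T.hitT i (x, u) • u)) =
        {x | ∀ j, j ≠ i → 0 < T.lam j (x + T.hitT i (x, u) • u)} from rfl, this]
      refine isOpen_iInter_of_finite fun j => ?_
      by_cases hj : j = i
      · have : {x : ℂ | j ≠ i → 0 < T.lam j (x + T.hitT i (x, u) • u)} = univ := by
          ext x; simp [hj]
        rw [this]; exact isOpen_univ
      · have : {x : ℂ | j ≠ i → 0 < T.lam j (x + T.hitT i (x, u) • u)} =
            {x | 0 < T.lam j (x + T.hitT i (x, u) • u)} := by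
          ext x; simp only [ne_eq, hj, not_false_eq_true, Complex.real_smul, forall_const, mem_ofPred_eq]
        rw [this]
        exact isOpen_lt continuous_const
          ((continuous_lam T j).comp (continuous_id.add (hc.smul continuous_const)))
    · exact isOpen_lt hc continuous_const
    · exact T'.isOpen_table.preimage ((X.continuous_R s i).comp
        (continuous_id.add continuous_const))
  · have hx0 : T.hitT i (M + (-ε) • u, u) = ε := by
      unfold Triangle.hitT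
      rw [T.lam_add_smul, hlamMi]
      field_simp
      ring
    refine ⟨M + (-ε) • u, ?_, ?_, ?_, ?_⟩
    · rw [T.mem_table_iff]
      intro j
      rw [T.lam_add_smul]
      by_cases hj : j = i
      · rw [hj, hlamMi]
        have : 0 < -ε * T.ell i u := mul_pos_of_neg_of_neg (by linarith only [hε0]) hell
        linarith only [this]
      · rw [hlamMj j hj]
        have := abs_lt.1 (hbd j u hu)
        linarith only [this]
    · intro j hj
      rw [hx0]
      have : M + (-ε) • u + ε • u = M := by module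
      rw [this, hlamMj j hj]; norm_num
    · rw [hx0]; linarith only [hε0]
    · have e1 : M + (-ε) • u + (2 * ε) • u = M + ε • u := by module
      rw [e1, X.R_add, hRM, X.D_smul, T'.mem_table_iff]
      intro j
      rw [T'.lam_add_smul]
      by_cases hj : j = i
      · have hk := X.kap_pos s i
        rw [hj, hlamMi', hT', X.ell_D, ← hT]
        have : 0 < ε * (X.kap s i * -T.ell i u) :=
          mul_pos hε0 (mul_pos hk (by linarith only [hell]))
        linarith only [this]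
      · rw [hlamM' j hj]
        have := abs_lt.1 (hbd' j (X.D s i u) (by rw [X.norm_D, hu]))
        linarith only [this]
  · intro x hx; exact hx.1
  · rintro x ⟨h1, h2, h3, h4⟩
    exact ⟨⟨hell, h2⟩, h3, h4⟩

/-- the key computation of times -/
lemma time_eq (s : S) (i : Fin 3) (O x u : ℂ) (hu : ‖u‖ = 1) (t : ℝ) :
    dt (X.R s i (x + t • u) - O) (X.D s i u) + dt (X.R s i O - O) u = t + dt (x - O) u := by
  by_cases h : X.σ s i = s
  · rw [X.R_wall h, X.D_wall h]
    exact (X.T s).time_eq i O x u hu t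
  · rw [X.R_glue h, X.R_glue h, X.D_glue h]
    have h2 : dt u u = 1 := by
      unfold dt
      have := Complex.normSq_eq_norm_sq u
      rw [hu, Complex.normSq_apply] at this
      linarith
    have h3 : dt (x + t • u - O) u = dt (x - O) u + t * dt u u := by
      unfold dt
      simp only [Complex.add_re, Complex.add_im, Complex.sub_re, Complex.sub_im,
        Complex.real_smul, Complex.re_ofReal_mul, Complex.im_ofReal_mul]
      ring
    rw [h3, h2, sub_self]
    simp [dt]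
    ring

/-- the reflected time shift -/
lemma shift_D (s : S) (i : Fin 3) (O u : ℂ) :
    dt (X.R (X.σ s i) i O - O) (X.D s i u) = - dt (X.R s i O - O) u := by
  by_cases h : X.σ s i = s
  · have h' : X.σ (X.σ s i) i = X.σ s i := by rw [h, h]
    rw [X.R_wall h, X.D_wall h, X.R_wall h', h]
    exact (X.T s).shift_refl i O u
  · rw [X.R_glue (X.wall_symm h), X.R_glue h, sub_self]
    simp [dt]

/-- the crossing relation for directions pointing to the side -/
theorem F_cross_neg {m : Measure Ω} [IsProbabilityMeasure m] {Ψ : ℝ → Ω → Ω} (hΨ : PFlow m Ψ)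
    {H : S → ℂ → ℂ × Ω → ℝ} (hH : ∀ s, Bdd (H s)) (hB : X.BounceInv m Ψ H) (O : ℂ)
    {F : S → ℂ × Ω → ℝ}
    (hF : ∀ s, ∀ᵐ p ∂((volume.restrict (X.T s).table).prod (nu.prod m)),
        H s p.1 (p.2.1, Ψ (dt (p.1 - O) p.2.1) p.2.2) = F s p.2) (s : S) (i : Fin 3) :
    ∀ᵐ ω ∂(nu.prod m), (X.T s).ell i ω.1 < 0 →
      F (X.σ s i) (X.D s i ω.1, Ψ (dt (X.R s i O - O) ω.1) ω.2) = F s ω := by
  obtain ⟨t, ht0, ht⟩ := X.exists_time s i
  have hHm := (hH (X.σ s i)).1
  -- measurability of shifts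
  have mdt : ∀ w : ℂ, Measurable fun u : ℂ => dt w u := fun w =>
    measurable_dt.comp (measurable_const.prodMk measurable_id)
  have hJ : MeasurePreserving (fun ω : ℂ × Ω => (X.D s i ω.1, Ψ (dt (X.R s i O - O) ω.1) ω.2))
      (nu.prod m) (nu.prod m) :=
    mp_shear hΨ (X.measurePreserving_D s i) (mdt _)
  -- (a)
  have a1 := hJ.quasiMeasurePreserving.ae (ae_swap (hF (X.σ s i)))
  have a2 : ∀ᵐ ω ∂(nu.prod m), ∀ᵐ y ∂(volume : Measure ℂ),
      X.R s i (y + t • ω.1) ∈ (X.T (X.σ s i)).table →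
      H (X.σ s i) (X.R s i (y + t • ω.1)) (X.D s i ω.1,
        Ψ (dt (X.R s i (y + t • ω.1) - O) (X.D s i ω.1)) (Ψ (dt (X.R s i O - O) ω.1) ω.2)) =
        F (X.σ s i) (X.D s i ω.1, Ψ (dt (X.R s i O - O) ω.1) ω.2) := by
    filter_upwards [a1] with ω h1
    rw [ae_restrict_iff' (X.T (X.σ s i)).isOpen_table.measurableSet] at h1
    have hq : MeasurePreserving (fun y : ℂ => X.R s i (y + t • ω.1)) volume volume :=
      (X.measurePreserving_R s i).comp (measurePreserving_add_right volume _)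
    exact hq.quasiMeasurePreserving.ae h1
  -- (b), (c)
  have hSh : MeasurePreserving (fun p : ℂ × (ℂ × Ω) =>
      (p.1, (p.2.1, Ψ (dt (p.1 - O) p.2.1) p.2.2)))
      ((volume.restrict (X.T s).table).prod (nu.prod m))
      ((volume.restrict (X.T s).table).prod (nu.prod m)) := by
    refine MeasurePreserving.skew_product
      (g := fun x (ω : ℂ × Ω) => (ω.1, Ψ (dt (x - O) ω.1) ω.2)) (MeasurePreserving.id _) ?_ ?_
    · have h1 : Measurable fun p : ℂ × (ℂ × Ω) => dt (p.1 - O) p.2.1 :=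
        measurable_dt.comp ((measurable_fst.sub_const O).prodMk (measurable_fst.comp measurable_snd))
      exact (measurable_fst.comp measurable_snd).prodMk
        (hΨ.meas.comp (h1.prodMk (measurable_snd.comp measurable_snd)))
    · exact ae_of_all _ fun x => (mp_shear hΨ (MeasurePreserving.id nu) (mdt (x - O))).map_eq
  have b1 := hSh.quasiMeasurePreserving.ae (hB s t ht0 i)
  have c1 : ∀ᵐ ω ∂(nu.prod m), ∀ᵐ x ∂(volume.restrict (X.T s).table),
      (X.T s).E i (x, ω.1) → (X.T s).hitT i (x, ω.1) < t →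
      X.R s i (x + t • ω.1) ∈ (X.T (X.σ s i)).table →
      H (X.σ s i) (X.R s i (x + t • ω.1)) (X.D s i ω.1, Ψ t (Ψ (dt (x - O) ω.1) ω.2)) =
        F s ω := by
    have h := ae_swap ((hF s).and b1)
    filter_upwards [h] with ω h1
    filter_upwards [h1] with x h2 h3 h4 h5
    have h6 := h2.2 h3 h4 h5
    rw [← h2.1]
    exact h6
  -- (d)
  have d1 : ∀ᵐ ω ∂(nu.prod m), ∀ᵐ x ∂(volume.restrict (X.T s).table),
      H (X.σ s i) (X.R s i (x + t • ω.1)) (X.D s i ω.1, Ψ t (Ψ (dt (x - O) ω.1) ω.2)) =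
      H (X.σ s i) (X.R s i (x + t • ω.1)) (X.D s i ω.1,
        Ψ (dt (X.R s i (x + t • ω.1) - O) (X.D s i ω.1)) (Ψ (dt (X.R s i O - O) ω.1) ω.2)) := by
    have hmR : Measurable fun p : ℂ × (ℂ × Ω) => X.R s i (p.1 + t • p.2.1) :=
      (X.continuous_R s i).measurable.comp
        (measurable_fst.add ((measurable_fst.comp measurable_snd).const_smul t))
    have hmr : Measurable fun p : ℂ × (ℂ × Ω) => X.D s i p.2.1 :=
      (X.continuous_D s i).measurable.comp (measurable_fst.comp measurable_snd)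
    have hmd : Measurable fun p : ℂ × (ℂ × Ω) => dt (p.1 - O) p.2.1 :=
      measurable_dt.comp ((measurable_fst.sub_const O).prodMk (measurable_fst.comp measurable_snd))
    have hme : Measurable fun p : ℂ × (ℂ × Ω) =>
        dt (X.R s i (p.1 + t • p.2.1) - O) (X.D s i p.2.1) :=
      measurable_dt.comp ((hmR.sub_const O).prodMk hmr)
    have hmf : Measurable fun p : ℂ × (ℂ × Ω) => dt (X.R s i O - O) p.2.1 :=
      (mdt _).comp (measurable_fst.comp measurable_snd)
    have hm1 : Measurable fun p : ℂ × (ℂ × Ω) => H (X.σ s i) (X.R s i (p.1 + t • p.2.1))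
        (X.D s i p.2.1, Ψ t (Ψ (dt (p.1 - O) p.2.1) p.2.2)) :=
      hHm.comp (hmR.prodMk (hmr.prodMk (hΨ.meas.comp (measurable_const.prodMk
        (hΨ.meas.comp (hmd.prodMk (measurable_snd.comp measurable_snd)))))))
    have hm2 : Measurable fun p : ℂ × (ℂ × Ω) => H (X.σ s i) (X.R s i (p.1 + t • p.2.1))
        (X.D s i p.2.1, Ψ (dt (X.R s i (p.1 + t • p.2.1) - O) (X.D s i p.2.1))
          (Ψ (dt (X.R s i O - O) p.2.1) p.2.2)) :=
      hHm.comp (hmR.prodMk (hmr.prodMk (hΨ.meas.comp (hme.prodMk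
        (hΨ.meas.comp (hmf.prodMk (measurable_snd.comp measurable_snd)))))))
    have hms := measurableSet_eq_fun hm1 hm2
    have hall : ∀ᵐ p ∂((volume.restrict (X.T s).table).prod (nu.prod m)),
        p ∈ {p : ℂ × (ℂ × Ω) | H (X.σ s i) (X.R s i (p.1 + t • p.2.1))
        (X.D s i p.2.1, Ψ t (Ψ (dt (p.1 - O) p.2.1) p.2.2)) =
        H (X.σ s i) (X.R s i (p.1 + t • p.2.1))
        (X.D s i p.2.1, Ψ (dt (X.R s i (p.1 + t • p.2.1) - O) (X.D s i p.2.1))
          (Ψ (dt (X.R s i O - O) p.2.1) p.2.2))} := by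
      rw [Measure.ae_prod_mem_iff_ae_ae_mem hms]
      refine ae_of_all _ fun x => ?_
      have hms' : MeasurableSet {ω : ℂ × Ω | (x, ω) ∈ {p : ℂ × (ℂ × Ω) |
        H (X.σ s i) (X.R s i (p.1 + t • p.2.1))
        (X.D s i p.2.1, Ψ t (Ψ (dt (p.1 - O) p.2.1) p.2.2)) =
        H (X.σ s i) (X.R s i (p.1 + t • p.2.1))
        (X.D s i p.2.1, Ψ (dt (X.R s i (p.1 + t • p.2.1) - O) (X.D s i p.2.1))
          (Ψ (dt (X.R s i O - O) p.2.1) p.2.2))}} := measurable_prodMk_left hms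
      refine (Measure.ae_prod_mem_iff_ae_ae_mem hms').2 ?_
      filter_upwards [ae_norm] with u hu
      filter_upwards [hΨ.add t (dt (x - O) u),
        hΨ.add (dt (X.R s i (x + t • u) - O) (X.D s i u))
        (dt (X.R s i O - O) u)] with q h1 h2
      show H (X.σ s i) (X.R s i (x + t • u)) (X.D s i u, Ψ t (Ψ (dt (x - O) u) q)) =
        H (X.σ s i) (X.R s i (x + t • u)) (X.D s i u,
          Ψ (dt (X.R s i (x + t • u) - O) (X.D s i u)) (Ψ (dt (X.R s i O - O) u) q))
      rw [← h1, ← h2, X.time_eq s i O x u hu t]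
    exact (ae_swap hall :)
  -- conclusion
  have hn : ∀ᵐ ω ∂(nu.prod m), ‖ω.1‖ = 1 := Measure.quasiMeasurePreserving_fst.ae ae_norm
  filter_upwards [a2, c1, d1, hn] with ω ha hc hd hω hell
  obtain ⟨U, hUo, hUne, hUT, hU⟩ := ht ω.1 hω hell
  have hpos : volume U ≠ 0 := (hUo.measure_pos _ hUne).ne'
  have hne : (ae (volume.restrict U)).NeBot := by
    rw [ae_neBot]
    intro h
    exact hpos (Measure.restrict_eq_zero.1 h)
  have ha' : ∀ᵐ y ∂(volume.restrict U), X.R s i (y + t • ω.1) ∈ (X.T (X.σ s i)).table →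
      H (X.σ s i) (X.R s i (y + t • ω.1)) (X.D s i ω.1,
        Ψ (dt (X.R s i (y + t • ω.1) - O) (X.D s i ω.1)) (Ψ (dt (X.R s i O - O) ω.1) ω.2)) =
        F (X.σ s i) (X.D s i ω.1, Ψ (dt (X.R s i O - O) ω.1) ω.2) := ae_restrict_of_ae ha
  have hc' := ae_restrict_of_ae_restrict_of_subset hUT hc
  have hd' := ae_restrict_of_ae_restrict_of_subset hUT hd
  obtain ⟨x, h1, h2, h3, h4⟩ := (ha'.and (hc'.and (hd'.and
    (ae_restrict_mem hUo.measurableSet)))).exists
  obtain ⟨g1, g2, g3⟩ := hU x h4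
  rw [← h1 g3, ← h3, h2 g1 g2 g3]

/-- the crossing relations -/
theorem F_cross {m : Measure Ω} [IsProbabilityMeasure m] {Ψ : ℝ → Ω → Ω} (hΨ : PFlow m Ψ)
    {H : S → ℂ → ℂ × Ω → ℝ} (hH : ∀ s, Bdd (H s)) (hB : X.BounceInv m Ψ H) (O : ℂ)
    {F : S → ℂ × Ω → ℝ} (hFm : ∀ s, Measurable (F s))
    (hF : ∀ s, ∀ᵐ p ∂((volume.restrict (X.T s).table).prod (nu.prod m)),
        H s p.1 (p.2.1, Ψ (dt (p.1 - O) p.2.1) p.2.2) = F s p.2) (s : S) (i : Fin 3) :
    ∀ᵐ ω ∂(nu.prod m), F (X.σ s i) (X.D s i ω.1, Ψ (dt (X.R s i O - O) ω.1) ω.2) = F s ω := by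
  have mdt : ∀ w : ℂ, Measurable fun u : ℂ => dt w u := fun w =>
    measurable_dt.comp (measurable_const.prodMk measurable_id)
  have hJ : MeasurePreserving (fun ω : ℂ × Ω => (X.D s i ω.1, Ψ (dt (X.R s i O - O) ω.1) ω.2))
      (nu.prod m) (nu.prod m) :=
    mp_shear hΨ (X.measurePreserving_D s i) (mdt _)
  have h1 := X.F_cross_neg hΨ hH hB O hF s i
  have h2 := hJ.quasiMeasurePreserving.ae (X.F_cross_neg hΨ hH hB O hF (X.σ s i) i)
  have h3 : ∀ᵐ ω ∂(nu.prod m), (X.T s).ell i ω.1 ≠ 0 :=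
    Measure.quasiMeasurePreserving_fst.ae (ae_ell_ne (X.T s) i)
  -- going back
  have h4 : ∀ᵐ ω ∂(nu.prod m),
      F s (ω.1, Ψ (-dt (X.R s i O - O) ω.1) (Ψ (dt (X.R s i O - O) ω.1) ω.2)) = F s ω := by
    have hmf : Measurable fun p : ℂ × Ω => dt (X.R s i O - O) p.1 := (mdt _).comp measurable_fst
    have hm1 : Measurable fun ω : ℂ × Ω =>
        F s (ω.1, Ψ (-dt (X.R s i O - O) ω.1) (Ψ (dt (X.R s i O - O) ω.1) ω.2)) :=
      (hFm s).comp (measurable_fst.prodMk (hΨ.meas.comp (hmf.neg.prodMk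
        (hΨ.meas.comp (hmf.prodMk measurable_snd)))))
    have hms := measurableSet_eq_fun hm1 (hFm s)
    refine (Measure.ae_prod_mem_iff_ae_ae_mem hms).2 ?_
    refine ae_of_all _ fun u => ?_
    filter_upwards [hΨ.add (-dt (X.R s i O - O) u) (dt (X.R s i O - O) u), hΨ.zero] with q h5 h6
    show F s (u, Ψ (-dt (X.R s i O - O) u) (Ψ (dt (X.R s i O - O) u) q)) = F s (u, q)
    rw [← h5, neg_add_cancel, h6]
  filter_upwards [h1, h2, h3, h4] with ω g1 g2 g3 g4
  rcases lt_or_gt_of_ne g3 with h | h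
  · exact g1 h
  · have g5 := g2 (by
      show (X.T (X.σ s i)).ell i (X.D s i ω.1) < 0
      rw [X.ell_D]
      have := mul_pos (X.kap_pos s i) h
      linarith)
    simp only [X.D_D, X.shift_D] at g5
    rw [X.invol, g4] at g5
    exact g5.symm

/-- `Ψ 0` does nothing -/
lemma ae_zero {m : Measure Ω} [IsProbabilityMeasure m] {Ψ : ℝ → Ω → Ω} (hΨ : PFlow m Ψ)
    {G : ℂ × Ω → ℝ} (hG : Measurable G) {g : ℂ → ℂ} (hg : Measurable g) :
    ∀ᵐ ω ∂(nu.prod m), G (g ω.1, Ψ 0 ω.2) = G (g ω.1, ω.2) := by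
  have hm1 : Measurable fun ω : ℂ × Ω => G (g ω.1, Ψ 0 ω.2) :=
    hG.comp ((hg.comp measurable_fst).prodMk
      (hΨ.meas.comp (measurable_const.prodMk measurable_snd)))
  have hm2 : Measurable fun ω : ℂ × Ω => G (g ω.1, ω.2) :=
    hG.comp ((hg.comp measurable_fst).prodMk measurable_snd)
  refine (Measure.ae_prod_mem_iff_ae_ae_mem (measurableSet_eq_fun hm1 hm2)).2 ?_
  refine ae_of_all _ fun u => ?_
  filter_upwards [hΨ.zero] with q hq
  show G (g u, Ψ 0 q) = G (g u, q)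
  rw [hq]

/-- in a connected complex the functions of all the tiles are the same -/
theorem F_same {m : Measure Ω} [IsProbabilityMeasure m] {Ψ : ℝ → Ω → Ω} (hΨ : PFlow m Ψ)
    {H : S → ℂ → ℂ × Ω → ℝ} (hH : ∀ s, Bdd (H s)) (hB : X.BounceInv m Ψ H) (O : ℂ)
    {F : S → ℂ × Ω → ℝ} (hFm : ∀ s, Measurable (F s))
    (hF : ∀ s, ∀ᵐ p ∂((volume.restrict (X.T s).table).prod (nu.prod m)),
        H s p.1 (p.2.1, Ψ (dt (p.1 - O) p.2.1) p.2.2) = F s p.2)
    {s s' : S} (hs : Relation.ReflTransGen (fun a b => ∃ i, b = X.σ a i) s s') :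
    ∀ᵐ ω ∂(nu.prod m), F s' ω = F s ω := by
  induction hs with
  | refl => exact Eventually.of_forall fun _ => rfl
  | @tail b c _ hbc ih =>
    obtain ⟨i, rfl⟩ := hbc
    by_cases h : X.σ b i = b
    · rw [h]; exact ih
    · have h1 := X.F_cross hΨ hH hB O hFm hF b i
      have h2 := ae_zero (m := m) hΨ (hFm (X.σ b i)) (g := fun u => u) measurable_id
      filter_upwards [ih, h1, h2] with ω g1 g2 g3
      rw [X.D_glue h, X.R_glue h, sub_self] at g2
      have hz : dt 0 ω.1 = 0 := by simp [dt]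
      rw [hz] at g2
      rw [← g1, ← g2, g3]

/-- the relation at a wall -/
theorem F_wall {m : Measure Ω} [IsProbabilityMeasure m] {Ψ : ℝ → Ω → Ω} (hΨ : PFlow m Ψ)
    {H : S → ℂ → ℂ × Ω → ℝ} (hH : ∀ s, Bdd (H s)) (hB : X.BounceInv m Ψ H) (O : ℂ)
    {F : S → ℂ × Ω → ℝ} (hFm : ∀ s, Measurable (F s))
    (hF : ∀ s, ∀ᵐ p ∂((volume.restrict (X.T s).table).prod (nu.prod m)),
        H s p.1 (p.2.1, Ψ (dt (p.1 - O) p.2.1) p.2.2) = F s p.2) {s : S} {i : Fin 3}
    (hw : X.σ s i = s) :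
    ∀ᵐ ω ∂(nu.prod m),
      F s ((X.T s).refl i ω.1, Ψ (dt ((X.T s).R i O - O) ω.1) ω.2) = F s ω := by
  have h := X.F_cross hΨ hH hB O hFm hF s i
  rw [X.D_wall hw, X.R_wall hw, hw] at h
  exact h

end Cx

end Vale.Agent.P099
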