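import Vale.Agent.P099.H504.Cx.C11

set_option linter.all false

open MeasureTheory Set Filter Topology

namespace Vale.Agent.P099

variable {Ω : Type} [MeasurableSpace Ω]

open WM4

namespace Cx

variable {S : Type} (X : Cx S)

/-- the walls of the complex: the reflections in two walls generate a rotation of infinite order,
and a third wall does not pass through the common point `O` of the lines of the first two -/
def Irr : Prop :=
  ∃ (O ζ : ℂ) (s1 s2 s3 : S) (i1 i2 i3 : Fin 3),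
    X.σ s1 i1 = s1 ∧ X.σ s2 i2 = s2 ∧ X.σ s3 i3 = s3 ∧
    (X.T s1).lam i1 O = 0 ∧ (X.T s2).lam i2 O = 0 ∧ (X.T s3).lam i3 O ≠ 0 ∧
    ‖ζ‖ = 1 ∧ (∀ n : ℤ, n ≠ 0 → ζ ^ n ≠ 1) ∧
    ∀ u, (X.T s1).refl i1 ((X.T s2).refl i2 u) = ζ * u

/-- the complex is connected -/
def Conn : Prop :=
  ∀ s s', Relation.ReflTransGen (fun a b => ∃ i, b = X.σ a i) s s'

/-- Invariant functions of the product of the billiard flow with any measure preserving flow depend
only on the second factor, up to a function invariant under the second flow. -/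
theorem relative [Fintype S] {m : Measure Ω} [IsProbabilityMeasure m] {Ψ : ℝ → Ω → Ω}
    (hΨ : PFlow m Ψ) (hX : X.Irr) (hc : X.Conn)
    {H : S → ℂ → ℂ × Ω → ℝ} (hH : ∀ s, Bdd (H s)) (hF : X.FreeInv m Ψ H)
    (hB : X.BounceInv m Ψ H) :
    ∃ f : Ω → ℝ, Measurable f ∧ (∃ C, ∀ q, |f q| ≤ C) ∧ (∀ s, ∀ᵐ q ∂m, f (Ψ s q) = f q) ∧
      ∀ a, ∀ᵐ p ∂((volume.restrict (X.T a).table).prod (nu.prod m)), H a p.1 p.2 = f p.2.2 := by
  obtain ⟨O, ζ, s1, s2, s3, i1, i2, i3, w1, w2, w3, o1, o2, o3, hζ1, hζ2, hζ3⟩ := hX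
  choose F hFm hFb hFH using fun a => X.exists_F hΨ hH hF hB O a
  have hsame : ∀ a, ∀ᵐ ω ∂(nu.prod m), F a ω = F s1 ω := fun a =>
    X.F_same hΨ hH hB O hFm hFH (hc s1 a)
  have mdt : ∀ w : ℂ, Measurable fun u : ℂ => dt w u := fun w =>
    measurable_dt.comp (measurable_const.prodMk measurable_id)
  have hz : ∀ u, dt 0 u = 0 := by intro u; simp [dt]
  -- the function of the tile `s1` at the walls
  have hwall : ∀ {a : S} {i : Fin 3}, X.σ a i = a → ∀ᵐ ω ∂(nu.prod m),
      F s1 ((X.T a).refl i ω.1, Ψ (dt ((X.T a).R i O - O) ω.1) ω.2) = F s1 ω := by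
    intro a i hw
    have h1 := X.F_wall hΨ hH hB O hFm hFH hw
    have hJ : MeasurePreserving
        (fun ω : ℂ × Ω => ((X.T a).refl i ω.1, Ψ (dt ((X.T a).R i O - O) ω.1) ω.2))
        (nu.prod m) (nu.prod m) :=
      mp_shear hΨ ((X.T a).measurePreserving_refl i) (mdt _)
    filter_upwards [h1, hJ.quasiMeasurePreserving.ae (hsame a), hsame a] with ω g1 g2 g3
    rw [← g2, g1, g3]
  -- the two walls through `O`
  have hside : ∀ {a : S} {i : Fin 3}, X.σ a i = a → (X.T a).lam i O = 0 →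
      ∀ᵐ ω ∂(nu.prod m), F s1 ((X.T a).refl i ω.1, ω.2) = F s1 ω := by
    intro a i hw ho
    have h1 := hwall hw
    rw [(X.T a).R_of_lam_eq_zero ho, sub_self] at h1
    simp only [hz] at h1
    have h2 := ae_zero (m := m) hΨ (hFm s1) (g := (X.T a).refl i)
      ((X.T a).continuous_refl i).measurable
    filter_upwards [h1, h2] with ω h3 h4
    rw [← h4, h3]
  have hrot : ∀ᵐ ω ∂(nu.prod m), F s1 (ζ * ω.1, ω.2) = F s1 ω := by
    have h1 := hside w1 o1
    have h2 := hside w2 o2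
    have hmp : MeasurePreserving (fun ω : ℂ × Ω => ((X.T s2).refl i2 ω.1, ω.2))
        (nu.prod m) (nu.prod m) :=
      ((X.T s2).measurePreserving_refl i2).prod (MeasurePreserving.id m)
    filter_upwards [hmp.quasiMeasurePreserving.ae h1, h2] with ω h3 h4
    rw [← hζ3, h3, h4]
  obtain ⟨f, hfm, hfb, hff⟩ := const_of_rot' hζ1 hζ2 (F s1) (hFm s1) (hFb s1) hrot
  -- the third wall
  have hne : (X.T s3).R i3 O - O ≠ 0 := by
    intro h
    have h1 : (X.T s3).lam i3 ((X.T s3).R i3 O) = (X.T s3).lam i3 O := by rw [sub_eq_zero.1 h]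
    rw [(X.T s3).lam_R] at h1
    exact o3 (by linarith)
  have hthird : ∀ᵐ ω ∂(nu.prod m), f (Ψ (dt ((X.T s3).R i3 O - O) ω.1) ω.2) = f ω.2 := by
    have h1 := hwall w3
    have hJ : MeasurePreserving
        (fun ω : ℂ × Ω => ((X.T s3).refl i3 ω.1, Ψ (dt ((X.T s3).R i3 O - O) ω.1) ω.2))
        (nu.prod m) (nu.prod m) :=
      mp_shear hΨ ((X.T s3).measurePreserving_refl i3) (mdt _)
    filter_upwards [h1, hJ.quasiMeasurePreserving.ae hff, hff] with ω h2 h3 h4
    rw [← h3, h2, h4]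
  have hinv := inv_all hΨ hfm hne hthird
  refine ⟨f, hfm, hfb, hinv, fun a => ?_⟩
  -- straightening back
  obtain ⟨T, hT⟩ : ∃ T, T = X.T a := ⟨_, rfl⟩
  have hHa : Bdd (H a) := hH a
  have hFHa := hFH a
  rw [← hT] at hFHa ⊢
  have hSh : MeasurePreserving (fun p : ℂ × (ℂ × Ω) =>
      (p.1, (p.2.1, Ψ (-dt (p.1 - O) p.2.1) p.2.2)))
      ((volume.restrict T.table).prod (nu.prod m)) ((volume.restrict T.table).prod (nu.prod m)) := by
    refine MeasurePreserving.skew_product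
      (g := fun x (ω : ℂ × Ω) => (ω.1, Ψ (-dt (x - O) ω.1) ω.2)) (MeasurePreserving.id _) ?_ ?_
    · have h1 : Measurable fun p : ℂ × (ℂ × Ω) => dt (p.1 - O) p.2.1 :=
        measurable_dt.comp ((measurable_fst.sub_const _).prodMk
          (measurable_fst.comp measurable_snd))
      exact (measurable_fst.comp measurable_snd).prodMk
        (hΨ.meas.comp (h1.neg.prodMk (measurable_snd.comp measurable_snd)))
    · exact ae_of_all _ fun x =>
        (mp_shear hΨ (MeasurePreserving.id nu) (mdt (x - O)).neg).map_eq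
  have hff' : ∀ᵐ p ∂((volume.restrict T.table).prod (nu.prod m)), F a p.2 = f p.2.2 := by
    have h0 : ∀ᵐ ω ∂(nu.prod m), F a ω = f ω.2 := by
      filter_upwards [hsame a, hff] with ω g1 g2
      rw [g1, g2]
    exact Measure.quasiMeasurePreserving_snd.ae h0
  have h1 := hSh.quasiMeasurePreserving.ae (hFHa.and hff')
  have hmd : Measurable fun p : ℂ × (ℂ × Ω) => dt (p.1 - O) p.2.1 :=
    measurable_dt.comp ((measurable_fst.sub_const _).prodMk (measurable_fst.comp measurable_snd))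
  have hmP : Measurable fun p : ℂ × (ℂ × Ω) => Ψ (-dt (p.1 - O) p.2.1) p.2.2 :=
    hΨ.meas.comp (hmd.neg.prodMk (measurable_snd.comp measurable_snd))
  have h2 : ∀ᵐ p ∂((volume.restrict T.table).prod (nu.prod m)),
      H a p.1 (p.2.1, Ψ (dt (p.1 - O) p.2.1) (Ψ (-dt (p.1 - O) p.2.1) p.2.2)) =
        H a p.1 p.2 := by
    have hm1 : Measurable fun p : ℂ × (ℂ × Ω) =>
        H a p.1 (p.2.1, Ψ (dt (p.1 - O) p.2.1) (Ψ (-dt (p.1 - O) p.2.1) p.2.2)) :=
      hHa.1.comp (measurable_fst.prodMk ((measurable_fst.comp measurable_snd).prodMk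
        (hΨ.meas.comp (hmd.prodMk hmP))))
    have hms := measurableSet_eq_fun hm1 hHa.1
    refine (Measure.ae_prod_mem_iff_ae_ae_mem hms).2 (ae_of_all _ fun x => ?_)
    refine (Measure.ae_prod_mem_iff_ae_ae_mem (measurable_prodMk_left hms)).2
      (ae_of_all _ fun u => ?_)
    filter_upwards [hΨ.add (dt (x - O) u) (-dt (x - O) u), hΨ.zero] with q h3 h4
    show H a x (u, Ψ (dt (x - O) u) (Ψ (-dt (x - O) u) q)) = H a x (u, q)
    rw [← h3, add_neg_cancel, h4]
  have h3 : ∀ᵐ p ∂((volume.restrict T.table).prod (nu.prod m)),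
      f (Ψ (-dt (p.1 - O) p.2.1) p.2.2) = f p.2.2 := by
    have hms := measurableSet_eq_fun (hfm.comp hmP) (hfm.comp (measurable_snd.comp
      (measurable_snd (α := ℂ) (β := ℂ × Ω))))
    refine (Measure.ae_prod_mem_iff_ae_ae_mem hms).2 (ae_of_all _ fun x => ?_)
    refine (Measure.ae_prod_mem_iff_ae_ae_mem (measurable_prodMk_left hms)).2
      (ae_of_all _ fun u => ?_)
    exact hinv (-dt (x - O) u)
  filter_upwards [h1, h2, h3] with p g1 g2 g3
  rw [← g2, g1.1, g1.2, g3]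

end Cx

end Vale.Agent.P099
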