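import Vale.Agent.P099.H504.Cx.C1

set_option linter.all false

open MeasureTheory Set Filter Topology

namespace Vale.Agent.P099

variable {Ω : Type} [MeasurableSpace Ω]

namespace Cx

variable {S : Type} (X : Cx S)

/-- compatibility of the mollifications on both sides of the sides -/
def Sym (ε : ℝ) (f : S → ℂ → ℂ × Ω → ℝ) : Prop :=
  ∀ s i, ∀ y ∈ segment ℝ ((X.T s).P (i + 1)) ((X.T s).P (i + 2)), ∀ ω : ℂ × Ω,
    mol ε (f (X.σ s i)) y (X.D s i ω.1, ω.2) = mol ε (f s) y ω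

section norms

variable [Fintype S] (m : Measure Ω)

/-- squared `L²` norm over all the tiles -/
noncomputable def nrm (F : S → ℂ → ℂ × Ω → ℂ) : ℝ := ∑ s, (X.T s).nrm m (F s)

/-- squared `L²` norm over the tiles times parameter -/
noncomputable def nrmq (F : S → ℂ → Ω → ℂ) : ℝ := ∑ s, (X.T s).nrmq m (F s)

end norms

lemma md_bdry_wall {ε : ℝ} {f : S → ℂ → ℂ × Ω → ℝ} (hε : 0 < ε) (hf : ∀ s, Bdd (f s))
    (hfs : X.Sym ε f) (k : ℤ) (q : Ω) {s : S} {i : Fin 3} (hσ : X.σ s i = s) (y : ℂ)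
    (hy : y ∈ segment ℝ ((X.T s).P (i + 1)) ((X.T s).P (i + 2))) :
    md k (fun x ω => (mol ε (f s) x ω : ℂ)) y q =
      ((X.T s).d i / (starRingEnd ℂ) ((X.T s).d i)) ^ (-k) *
        (starRingEnd ℂ) (md k (fun x ω => (mol ε (f s) x ω : ℂ)) y q) := by
  have hmeas : Measurable (fun u : ℂ => (mol ε (f s) y (u, q) : ℂ) * u ^ (-k)) := by
    have h2 := (bm_cv (continuous_rhoC ε) (hcs_rhoC hε) (hf s)).meas_u y q
    simp only [← mol_eq_cv] at h2
    exact h2.mul (measurable_zpow' k)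
  have hmp := (X.T s).measurePreserving_refl i
  calc md k (fun x ω => (mol ε (f s) x ω : ℂ)) y q
      = ∫ u, (mol ε (f s) y (u, q) : ℂ) * u ^ (-k) ∂(nu.map ((X.T s).refl i)) := by
        rw [hmp.map_eq]; rfl
    _ = ∫ u, (mol ε (f s) y ((X.T s).refl i u, q) : ℂ) * ((X.T s).refl i u) ^ (-k) ∂nu :=
        integral_map hmp.measurable.aemeasurable hmeas.aestronglyMeasurable
    _ = ∫ u, ((X.T s).d i / (starRingEnd ℂ) ((X.T s).d i)) ^ (-k) *
          (starRingEnd ℂ) ((mol ε (f s) y (u, q) : ℂ) * u ^ (-k)) ∂nu := by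
        congr 1
        ext u
        have h1 := hfs s i y hy (u, q)
        simp only [hσ, X.D_wall hσ] at h1
        rw [h1, (X.T s).refl_eq i u, mul_zpow, map_mul, map_zpow₀, Complex.conj_ofReal]
        ring
    _ = ((X.T s).d i / (starRingEnd ℂ) ((X.T s).d i)) ^ (-k) *
        (starRingEnd ℂ) (md k (fun x ω => (mol ε (f s) x ω : ℂ)) y q) := by
        rw [integral_const_mul, integral_conj]
        rfl

lemma md_bdry_glue {ε : ℝ} {f : S → ℂ → ℂ × Ω → ℝ}
    (hfs : X.Sym ε f) (k : ℤ) (q : Ω) {s : S} {i : Fin 3} (hσ : X.σ s i ≠ s) (y : ℂ)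
    (hy : y ∈ segment ℝ ((X.T s).P (i + 1)) ((X.T s).P (i + 2))) :
    md k (fun x ω => (mol ε (f (X.σ s i)) x ω : ℂ)) y q =
      md k (fun x ω => (mol ε (f s) x ω : ℂ)) y q := by
  unfold md
  congr 1
  ext u
  have h1 := hfs s i y hy (u, q)
  simp only [X.D_glue hσ] at h1
  simp only [h1]

section final

variable [Fintype S] (m : Measure Ω) [IsProbabilityMeasure m]

/-- the class of a family of functions in the Hilbert space -/
noncomputable def clsX {F : S → ℂ → Ω → ℂ} (hF : ∀ s, BMq (F s)) :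
    PiLp 2 (fun s => Lp ℂ 2 (lm (X.T s) m)) :=
  WithLp.toLp 2 (fun s => cls (X.T s) m (hF s))

lemma inner_clsX {F G : S → ℂ → Ω → ℂ} (hF : ∀ s, BMq (F s)) (hG : ∀ s, BMq (G s)) :
    inner ℂ (X.clsX m hF) (X.clsX m hG) =
      ∑ s, inner ℂ (cls (X.T s) m (hF s)) (cls (X.T s) m (hG s)) := by
  unfold clsX
  rw [PiLp.inner_apply]

lemma norm_clsX_sq {F : S → ℂ → Ω → ℂ} (hF : ∀ s, BMq (F s)) :
    ‖X.clsX m hF‖ ^ 2 = X.nrmq m F := by
  unfold clsX nrmq
  rw [PiLp.norm_sq_eq_of_L2]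
  refine Finset.sum_congr rfl fun s _ => ?_
  exact norm_cls_sq (X.T s) m (hF s)

lemma clsX_add {F G : S → ℂ → Ω → ℂ} (hF : ∀ s, BMq (F s)) (hG : ∀ s, BMq (G s)) :
    X.clsX m (fun s => (hF s).add (hG s)) = X.clsX m hF + X.clsX m hG := by
  unfold clsX
  rw [← WithLp.toLp_add]
  congr 1

lemma clsX_sub {F G : S → ℂ → Ω → ℂ} (hF : ∀ s, BMq (F s)) (hG : ∀ s, BMq (G s)) :
    X.clsX m (fun s => (hF s).sub (hG s)) = X.clsX m hF - X.clsX m hG := by
  unfold clsX
  rw [← WithLp.toLp_sub]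
  congr 1

lemma clsX_congr {F G : S → ℂ → Ω → ℂ} (hF : ∀ s, BMq (F s)) (hG : ∀ s, BMq (G s))
    (h : ∀ s x q, F s x q = G s x q) : X.clsX m hF = X.clsX m hG := by
  have : F = G := by ext s x q; exact h s x q
  subst this
  rfl

lemma nrmq_grd_eq {ε : ℝ} (hε : 0 < ε) {f : S → ℂ → ℂ × Ω → ℝ} (hf : ∀ s, Bdd (f s))
    (hfs : X.Sym ε f) (k : ℤ) : X.nrmq m (fun s => md k (grd ε (f s))) =
      X.nrmq m (fun s => md k (fun x ω => (starRingEnd ℂ) (grd ε (f s) x ω))) := by
  have hA := fun s => bm_md (bm_grd hε (hf s)) k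
  have hB := fun s => bm_md (bm_cgrd hε (hf s)) k
  unfold nrmq
  have e1 : ∀ s, (X.T s).nrmq m (md k (grd ε (f s))) -
      (X.T s).nrmq m (md k (fun x ω => (starRingEnd ℂ) (grd ε (f s) x ω))) =
      ∫ q, (∫ x in (X.T s).table, (‖md k (grd ε (f s)) x q‖ ^ 2 -
        ‖md k (fun x ω => (starRingEnd ℂ) (grd ε (f s) x ω)) x q‖ ^ 2)) ∂m := by
    intro s
    rw [nrmq_eq_integral (X.T s) m (hA s), nrmq_eq_integral (X.T s) m (hB s),
      integral_prod_symm _ ((hA s).integrable_sq (X.T s) m),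
      integral_prod_symm _ ((hB s).integrable_sq (X.T s) m),
      ← integral_sub ((hA s).integrable_sq (X.T s) m).integral_prod_right
        ((hB s).integrable_sq (X.T s) m).integral_prod_right]
    congr 1
    ext q
    exact (integral_sub ((hA s).integrable_sq_x (X.T s) q) ((hB s).integrable_sq_x (X.T s) q)).symm
  rw [← sub_eq_zero, ← Finset.sum_sub_distrib]
  simp only [e1]
  rw [← integral_finsetSum]
  · have e2 : ∀ q : Ω, ∑ s, ∫ x in (X.T s).table, (‖md k (grd ε (f s)) x q‖ ^ 2 -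
        ‖md k (fun x ω => (starRingEnd ℂ) (grd ε (f s) x ω)) x q‖ ^ 2) = 0 := by
      intro q
      have h := X.green2 (fun s x => md k (fun x ω => (mol ε (f s) x ω : ℂ)) x q)
        (fun s => contDiff_infty.1 (md_mol_contDiff hε (hf s) k q) 2)
        (fun s i hσ => ⟨_, fun y hy => X.md_bdry_wall hε hf hfs k q hσ y hy⟩)
        (fun s i hσ y hy => X.md_bdry_glue hfs k q hσ y hy)
      have h1 : ∀ s x, dz (fun x => md k (fun x ω => (mol ε (f s) x ω : ℂ)) x q) x =
          md k (grd ε (f s)) x q := fun s x => dz_md_mol hε (hf s) k q x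
      have h2 : ∀ s x, dzb (fun x => md k (fun x ω => (mol ε (f s) x ω : ℂ)) x q) x =
          md k (fun x ω => (starRingEnd ℂ) (grd ε (f s) x ω)) x q :=
        fun s x => dzb_md_mol hε (hf s) k q x
      simp only [h1, h2] at h
      exact h
    simp only [e2, integral_zero]
  · intro s _
    have hi := ((hA s).integrable_sq (X.T s) m).sub ((hB s).integrable_sq (X.T s) m)
    exact hi.integral_prod_right

lemma skew_id {ε : ℝ} (hε : 0 < ε) {f h : S → ℂ → ℂ × Ω → ℝ} (hf : ∀ s, Bdd (f s))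
    (hh : ∀ s, Bdd (h s)) (hfs : X.Sym ε f) (hhs : X.Sym ε h)
    (hskew : ∀ s y y' u u', ∫ q, h s y (u, q) * f s y' (u', q) ∂m =
      - ∫ q, f s y (u, q) * h s y' (u', q) ∂m) (k : ℤ) :
    (inner ℂ (X.clsX m (fun s => bm_md (bm_grd hε (hf s)) (k - 1)))
      (X.clsX m (fun s => bm_md (bm_mol hε (hh s)) k))).re =
      (inner ℂ (X.clsX m (fun s => bm_md (bm_mol hε (hh s)) (k - 1)))
        (X.clsX m (fun s => bm_md (bm_cgrd hε (hf s)) k))).re := by
  rw [inner_clsX, inner_clsX, Complex.re_sum, Complex.re_sum]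
  -- the three functions
  have hT1 : ∀ s, BMq (fun x q => md (k - 1) (grd ε (f s)) x q *
      (starRingEnd ℂ) (md k (fun x ω => (mol ε (h s) x ω : ℂ)) x q)) := fun s =>
    (bm_md (bm_grd hε (hf s)) (k - 1)).mul (bm_md (bm_mol hε (hh s)) k).conj
  have hT2 : ∀ s, BMq (fun x q => md (k - 1) (fun x ω => (mol ε (f s) x ω : ℂ)) x q *
      (starRingEnd ℂ) (md k (fun x ω => (starRingEnd ℂ) (grd ε (h s) x ω)) x q)) := fun s =>
    (bm_md (bm_mol hε (hf s)) (k - 1)).mul (bm_md (bm_cgrd hε (hh s)) k).conj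
  have hT3 : ∀ s, BMq (fun x q => md (k - 1) (fun x ω => (mol ε (h s) x ω : ℂ)) x q *
      (starRingEnd ℂ) (md k (fun x ω => (starRingEnd ℂ) (grd ε (f s) x ω)) x q)) := fun s =>
    (bm_md (bm_mol hε (hh s)) (k - 1)).mul (bm_md (bm_cgrd hε (hf s)) k).conj
  -- Green's formula
  have hgreen : ∀ q, ∑ s, (∫ x in (X.T s).table, (md (k - 1) (grd ε (f s)) x q *
      (starRingEnd ℂ) (md k (fun x ω => (mol ε (h s) x ω : ℂ)) x q) +
      md (k - 1) (fun x ω => (mol ε (f s) x ω : ℂ)) x q *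
      (starRingEnd ℂ) (md k (fun x ω => (starRingEnd ℂ) (grd ε (h s) x ω)) x q))).re = 0 := by
    intro q
    have hw := fun s => md_mol_contDiff hε (hf s) (k - 1) q
    have hw' := fun s => md_mol_contDiff hε (hh s) k q
    have hcd : ∀ s, ContDiff ℝ 1 (fun x => md (k - 1) (fun x ω => (mol ε (f s) x ω : ℂ)) x q *
        (starRingEnd ℂ) (md k (fun x ω => (mol ε (h s) x ω : ℂ)) x q)) := by
      intro s
      apply ContDiff.mul (contDiff_infty.1 (hw s) 1)
      exact (Complex.conjCLE.toContinuousLinearMap).contDiff.comp (contDiff_infty.1 (hw' s) 1)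
    have hgr := X.green1 (fun s x => md (k - 1) (fun x ω => (mol ε (f s) x ω : ℂ)) x q *
        (starRingEnd ℂ) (md k (fun x ω => (mol ε (h s) x ω : ℂ)) x q)) hcd (by
      intro s i hσ y hy
      have b1 := X.md_bdry_wall hε hf hfs (k - 1) q hσ y hy
      have b2 := X.md_bdry_wall hε hh hhs k q hσ y hy
      set c : ℂ := (X.T s).d i / (starRingEnd ℂ) ((X.T s).d i) with hc
      have hd : (X.T s).d i ≠ 0 := (X.T s).d_ne i
      have hd' : (starRingEnd ℂ) ((X.T s).d i) ≠ 0 := by simpa using hd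
      have hc0 : c ≠ 0 := div_ne_zero hd hd'
      have hcc : (starRingEnd ℂ) c = c⁻¹ := by
        rw [hc, map_div₀, Complex.conj_conj, inv_div]
      have b3 : (starRingEnd ℂ) (md k (fun x ω => (mol ε (h s) x ω : ℂ)) y q) =
          c ^ k * md k (fun x ω => (mol ε (h s) x ω : ℂ)) y q := by
        conv_lhs => rw [b2]
        rw [map_mul, map_zpow₀, hcc, Complex.conj_conj, inv_zpow', neg_neg]
      rw [map_mul, Complex.conj_conj]
      conv_lhs => rw [b1, b3]
      have e1 : c ^ (-(k - 1)) * c ^ k = c := by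
        rw [← zpow_add₀ hc0]
        have : -(k - 1) + k = 1 := by ring
        rw [this, zpow_one]
      calc c ^ (-(k - 1)) * (starRingEnd ℂ) (md (k - 1) (fun x ω => (mol ε (f s) x ω : ℂ)) y q) *
            (c ^ k * md k (fun x ω => (mol ε (h s) x ω : ℂ)) y q)
          = (c ^ (-(k - 1)) * c ^ k) *
            ((starRingEnd ℂ) (md (k - 1) (fun x ω => (mol ε (f s) x ω : ℂ)) y q) *
              md k (fun x ω => (mol ε (h s) x ω : ℂ)) y q) := by ring
        _ = _ := by rw [e1]) (by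
      intro s i hσ y hy
      rw [X.md_bdry_glue hfs (k - 1) q hσ y hy, X.md_bdry_glue hhs k q hσ y hy])
    have hdz : ∀ s x, dz (fun x => md (k - 1) (fun x ω => (mol ε (f s) x ω : ℂ)) x q *
        (starRingEnd ℂ) (md k (fun x ω => (mol ε (h s) x ω : ℂ)) x q)) x =
        md (k - 1) (grd ε (f s)) x q *
      (starRingEnd ℂ) (md k (fun x ω => (mol ε (h s) x ω : ℂ)) x q) +
      md (k - 1) (fun x ω => (mol ε (f s) x ω : ℂ)) x q *
      (starRingEnd ℂ) (md k (fun x ω => (starRingEnd ℂ) (grd ε (h s) x ω)) x q) := by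
      intro s x
      rw [dz_mul_conj ((contDiff_infty.1 (hw s) 1).differentiable one_ne_zero x)
        ((contDiff_infty.1 (hw' s) 1).differentiable one_ne_zero x),
        dz_md_mol hε (hf s) (k - 1) q x, dzb_md_mol hε (hh s) k q x]
    simp only [hdz] at hgr
    exact hgr
  have h12 : ∑ s, (∫ p, (md (k - 1) (grd ε (f s)) p.1 p.2 *
      (starRingEnd ℂ) (md k (fun x ω => (mol ε (h s) x ω : ℂ)) p.1 p.2) +
      md (k - 1) (fun x ω => (mol ε (f s) x ω : ℂ)) p.1 p.2 *
      (starRingEnd ℂ) (md k (fun x ω => (starRingEnd ℂ) (grd ε (h s) x ω)) p.1 p.2))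
        ∂(lm (X.T s) m)).re = 0 := by
    have hT12 := fun s => (hT1 s).add (hT2 s)
    have hint := fun s => (hT12 s).integrable (X.T s) m
    have h1 : ∀ s, (∫ p, (md (k - 1) (grd ε (f s)) p.1 p.2 *
      (starRingEnd ℂ) (md k (fun x ω => (mol ε (h s) x ω : ℂ)) p.1 p.2) +
      md (k - 1) (fun x ω => (mol ε (f s) x ω : ℂ)) p.1 p.2 *
      (starRingEnd ℂ) (md k (fun x ω => (starRingEnd ℂ) (grd ε (h s) x ω)) p.1 p.2))
        ∂(lm (X.T s) m)).re =
      ∫ q, (∫ x in (X.T s).table, (md (k - 1) (grd ε (f s)) x q *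
      (starRingEnd ℂ) (md k (fun x ω => (mol ε (h s) x ω : ℂ)) x q) +
      md (k - 1) (fun x ω => (mol ε (f s) x ω : ℂ)) x q *
      (starRingEnd ℂ) (md k (fun x ω => (starRingEnd ℂ) (grd ε (h s) x ω)) x q))).re ∂m := by
      intro s
      have h0 := congrArg Complex.re (integral_prod_symm _ (hint s))
      exact h0.trans (Complex.reCLM.integral_comp_comm (hint s).integral_prod_right).symm
    simp only [h1]
    rw [← integral_finsetSum]
    · simp only [hgreen, integral_zero]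
    · intro s _
      exact Complex.reCLM.integrable_comp (hint s).integral_prod_right
  have h3 : ∀ s, ∫ p, md (k - 1) (fun x ω => (mol ε (f s) x ω : ℂ)) p.1 p.2 *
      (starRingEnd ℂ) (md k (fun x ω => (starRingEnd ℂ) (grd ε (h s) x ω)) p.1 p.2)
        ∂(lm (X.T s) m) =
      - ∫ p, md (k - 1) (fun x ω => (mol ε (h s) x ω : ℂ)) p.1 p.2 *
      (starRingEnd ℂ) (md k (fun x ω => (starRingEnd ℂ) (grd ε (f s) x ω)) p.1 p.2)
        ∂(lm (X.T s) m) := by
    intro s
    have e2 := integral_prod _ ((hT2 s).integrable (X.T s) m)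
    have e3 := integral_prod _ ((hT3 s).integrable (X.T s) m)
    rw [show (∫ p, md (k - 1) (fun x ω => (mol ε (f s) x ω : ℂ)) p.1 p.2 *
      (starRingEnd ℂ) (md k (fun x ω => (starRingEnd ℂ) (grd ε (h s) x ω)) p.1 p.2)
        ∂(lm (X.T s) m)) = _
      from e2, show (∫ p, md (k - 1) (fun x ω => (mol ε (h s) x ω : ℂ)) p.1 p.2 *
      (starRingEnd ℂ) (md k (fun x ω => (starRingEnd ℂ) (grd ε (f s) x ω)) p.1 p.2)
        ∂(lm (X.T s) m)) = _
      from e3, ← integral_neg]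
    congr 1
    ext x
    have hs := skew_md m (continuous_rhoC ε) (hcs_rhoC hε) (continuous_kap ε) (hcs_kap hε)
      (hf s) (hh s) (hskew s) (k - 1) (-k) x
    have c1 : ∀ (f' : ℂ → ℂ × Ω → ℝ) q,
        (starRingEnd ℂ) (md k (fun x ω => (starRingEnd ℂ) (grd ε f' x ω)) x q) =
        md (-k) (cv (Vale.Agent.P099.kap ε) f') x q := by
      intro f' q
      rw [conj_md]
      simp only [Complex.conj_conj]
      rfl
    simp only [c1, mol_eq_cv]
    exact hs
  have h4 : ∀ s, (∫ p, (md (k - 1) (grd ε (f s)) p.1 p.2 *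
      (starRingEnd ℂ) (md k (fun x ω => (mol ε (h s) x ω : ℂ)) p.1 p.2) +
      md (k - 1) (fun x ω => (mol ε (f s) x ω : ℂ)) p.1 p.2 *
      (starRingEnd ℂ) (md k (fun x ω => (starRingEnd ℂ) (grd ε (h s) x ω)) p.1 p.2))
        ∂(lm (X.T s) m)).re =
      (inner ℂ (cls (X.T s) m (bm_md (bm_grd hε (hf s)) (k - 1)))
        (cls (X.T s) m (bm_md (bm_mol hε (hh s)) k))).re -
      (inner ℂ (cls (X.T s) m (bm_md (bm_mol hε (hh s)) (k - 1)))
        (cls (X.T s) m (bm_md (bm_cgrd hε (hf s)) k))).re := by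
    intro s
    rw [re_inner_cls, re_inner_cls, integral_add ((hT1 s).integrable (X.T s) m)
      ((hT2 s).integrable (X.T s) m), Complex.add_re, h3, Complex.neg_re]
    ring
  simp only [h4] at h12
  rw [Finset.sum_sub_distrib] at h12
  linarith only [h12]

/-- The energy estimate on the complex. -/
theorem energy {ε : ℝ} (hε : 0 < ε) (f h : S → ℂ → ℂ × Ω → ℝ)
    (hf : ∀ s, BddSupp (f s)) (hh : ∀ s, BddSupp (h s)) (hfs : X.Sym ε f) (hhs : X.Sym ε h)
    (hskew : ∀ s y y' u u', ∫ q, h s y (u, q) * f s y' (u', q) ∂m =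
      - ∫ q, f s y (u, q) * h s y' (u', q) ∂m)
    (a v e : ℝ) (ha : 0 ≤ a) (hv : 0 ≤ v) (he : 0 ≤ e)
    (hA : X.nrm m (fun s => grd ε (f s)) ≤ a ^ 2)
    (hV : X.nrm m (fun s x ω => (mol ε (h s) x ω : ℂ)) ≤ v ^ 2)
    (hE : X.nrm m (fun s x ω => ((Xd ε (f s) x ω - mol ε (h s) x ω : ℝ) : ℂ)) ≤ e ^ 2)
    (k : ℤ) (n : ℕ) (hn : |k| ≤ n) :
    X.nrmq m (fun s x q => md (k - 1) (grd ε (f s)) x q -
        md (k + 1) (fun x ω => (starRingEnd ℂ) (grd ε (f s) x ω)) x q) ≤
      X.nrmq m (fun s => md (n + 1) (fun x ω => (mol ε (h s) x ω : ℂ))) +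
      X.nrmq m (fun s => md (-n - 1) (fun x ω => (mol ε (h s) x ω : ℂ))) +
      100 * (n + 1) * (e * a + e * v + e ^ 2) := by
  have hf := fun s => (hf s).1
  have hh := fun s => (hh s).1
  have bessel : ∀ {F : S → ℂ → ℂ × Ω → ℂ} (hF : ∀ s, BM (F s)) (K : Finset ℤ),
      ∑ k ∈ K, X.nrmq m (fun s => md k (F s)) ≤ X.nrm m F := by
    intro F hF K
    unfold nrmq nrm
    rw [Finset.sum_comm]
    exact Finset.sum_le_sum fun s _ => bessel_md (X.T s) m (hF s) K
  have hres := hilbert_energy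
    (fun k => X.clsX m (fun s => bm_md (bm_grd hε (hf s)) k))
    (fun k => X.clsX m (fun s => bm_md (bm_cgrd hε (hf s)) k))
    (fun k => X.clsX m (fun s => bm_md (bm_mol hε (hh s)) k))
    (fun k => X.clsX m (fun s => bm_md (bm_gt hε (hf s) (hh s)) k))
    (by
      intro k
      have h1 := X.nrmq_grd_eq m hε hf hfs k
      rw [← norm_clsX_sq X m (fun s => bm_md (bm_grd hε (hf s)) k),
        ← norm_clsX_sq X m (fun s => bm_md (bm_cgrd hε (hf s)) k)] at h1
      exact (pow_left_inj₀ (norm_nonneg _) (norm_nonneg _) two_ne_zero).1 h1)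
    (by
      intro k
      rw [← clsX_add, ← clsX_add]
      apply clsX_congr
      intro s x q
      exact md_gt hε (hf s) (hh s) k x q)
    (fun k => X.skew_id m hε hf hh hfs hhs hskew k)
    a v e ha hv he
    (fun K => by
      simp only [norm_clsX_sq]
      exact (bessel (fun s => bm_grd hε (hf s)) K).trans hA)
    (fun K => by
      simp only [norm_clsX_sq]
      exact (bessel (fun s => bm_mol hε (hh s)) K).trans hV)
    (fun K => by
      simp only [norm_clsX_sq]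
      refine (bessel (fun s => bm_gt hε (hf s) (hh s)) K).trans ?_
      refine le_trans (le_of_eq ?_) hE
      unfold nrm
      exact Finset.sum_congr rfl fun s _ => nrm_gt (X.T s) m)
    k n hn
  simp only [← clsX_sub, norm_clsX_sq] at hres
  exact hres

end final

end Cx

end Vale.Agent.P099
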