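import Vale.Agent.P099.H504.Cx.C2

set_option linter.all false

open MeasureTheory Set Filter Topology

namespace Vale.Agent.P099

variable {Ω : Type} [MeasurableSpace Ω]

/-- a uniform positive constant for finitely many conditions -/
lemma unif_const {S : Type} [Fintype S] {P : S → ℝ → Prop}
    (hmono : ∀ s a b, 0 < b → b ≤ a → P s a → P s b) (h : ∀ s, ∃ κ : ℝ, 0 < κ ∧ P s κ) :
    ∃ κ : ℝ, 0 < κ ∧ ∀ s, P s κ := by
  choose κ h1 h2 using h
  have hpos : 0 < 1 + ∑ s, (κ s)⁻¹ := by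
    have : 0 ≤ ∑ s, (κ s)⁻¹ := Finset.sum_nonneg fun s _ => (inv_pos.2 (h1 s)).le
    linarith
  refine ⟨(1 + ∑ s, (κ s)⁻¹)⁻¹, inv_pos.2 hpos, fun s => ?_⟩
  refine hmono s (κ s) _ (inv_pos.2 hpos) ?_ (h2 s)
  rw [inv_le_comm₀ hpos (h1 s)]
  have : (κ s)⁻¹ ≤ ∑ s, (κ s)⁻¹ :=
    Finset.single_le_sum (f := fun s => (κ s)⁻¹) (fun s _ => (inv_pos.2 (h1 s)).le)
      (Finset.mem_univ s)
  linarith

/-- a uniform upper bound for finitely many conditions -/
lemma unif_bound {S : Type} [Fintype S] {P : S → ℝ → Prop}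
    (hmono : ∀ s a b, a ≤ b → P s a → P s b) (h : ∀ s, ∃ C : ℝ, P s C) :
    ∃ C : ℝ, 0 < C ∧ ∀ s, P s C := by
  choose C h2 using h
  have hpos : 0 < 1 + ∑ s, |C s| := by
    have : 0 ≤ ∑ s, |C s| := Finset.sum_nonneg fun s _ => abs_nonneg _
    linarith
  refine ⟨1 + ∑ s, |C s|, hpos, fun s => hmono s (C s) _ ?_ (h2 s)⟩
  have : |C s| ≤ ∑ s, |C s| :=
    Finset.single_le_sum (f := fun s => |C s|) (fun s _ => abs_nonneg _) (Finset.mem_univ s)
  linarith [le_abs_self (C s)]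

namespace Cx

variable {S : Type} (X : Cx S)

/-- extension of a family of functions across the sides of the tiles -/
noncomputable def ext (f : S → ℂ → ℂ × Ω → ℝ) (s : S) (y : ℂ) (ω : ℂ × Ω) : ℝ :=
  (X.T s).table.indicator (fun y => f s y ω) y +
    ∑ i, (X.R s i ⁻¹' (X.T (X.σ s i)).table).indicator
      (fun y => f (X.σ s i) (X.R s i y) (X.D s i ω.1, ω.2)) y

/-- close to a point of the closed tile, away from the vertices, only one side matters -/
def LocAt (s : S) (i : Fin 3) (y : ℂ) : Prop :=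
  (∀ j, j ≠ i → 0 < (X.T s).lam j y) ∧
    ((X.T s).lam i y ≤ 0 → ∀ j, j ≠ i → 0 < (X.T (X.σ s i)).lam j (X.R s i y))

lemma exists_locAt_tile (s : S) : ∃ κ : ℝ, 0 < κ ∧ ∀ r0 : ℝ, 0 < r0 → ∀ ε : ℝ, 0 < ε →
    ε ≤ κ * r0 → ∀ x : ℂ, (∀ i, 0 ≤ (X.T s).lam i x) → (∀ m, r0 / 2 ≤ ‖x - (X.T s).P m‖) →
      ∃ i, ∀ y, ‖y - x‖ < 2 * ε → X.LocAt s i y := by
  obtain ⟨κ0, hκ0, h0⟩ := (X.T s).exists_locAt
  set T := X.T s with hT
  have hL := T.Lp_pos
  have hdm := T.dm_pos
  -- a bound for the coefficients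
  set A : ℝ := ∑ i, ∑ j, |(X.T (X.σ s i)).lam j (T.P i)| with hA
  have hA0 : 0 ≤ A := Finset.sum_nonneg fun i _ => Finset.sum_nonneg fun j _ => abs_nonneg _
  have hAle : ∀ i j, |(X.T (X.σ s i)).lam j (T.P i)| ≤ A := by
    intro i j
    have h1 : |(X.T (X.σ s i)).lam j (T.P i)| ≤ ∑ j, |(X.T (X.σ s i)).lam j (T.P i)| :=
      Finset.single_le_sum (f := fun j => |(X.T (X.σ s i)).lam j (T.P i)|)
        (fun j _ => abs_nonneg _) (Finset.mem_univ j)
    have h2 : ∑ j, |(X.T (X.σ s i)).lam j (T.P i)| ≤ A :=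
      Finset.single_le_sum (f := fun i => ∑ j, |(X.T (X.σ s i)).lam j (T.P i)|)
        (fun i _ => Finset.sum_nonneg fun j _ => abs_nonneg _) (Finset.mem_univ i)
    exact h1.trans h2
  set K : ℝ := 1 + T.Lp * A * T.dm with hK
  have hK1 : 1 ≤ K := by
    have : 0 ≤ T.Lp * A * T.dm := by positivity
    linarith
  refine ⟨κ0 / K, by positivity, ?_⟩
  intro r0 hr0 ε hε hεκ x hx hm
  obtain ⟨i, hi⟩ := h0 r0 hr0 (K * ε) (by positivity) (by
    have h1 : K * ε ≤ K * (κ0 / K * r0) := by gcongr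
    have h2 : K * (κ0 / K * r0) = κ0 * r0 := by field_simp
    linarith) x hx hm
  refine ⟨i, fun y hy => ?_⟩
  have hy' : ‖y - x‖ < 2 * (K * ε) := by
    have : ε ≤ K * ε := by nlinarith
    linarith
  refine ⟨(hi y hy').1, fun hiy j hj => ?_⟩
  by_cases hσ : X.σ s i = s
  · rw [X.R_wall hσ, hσ]
    exact (hi y hy').2 hiy j hj
  · rw [X.R_glue hσ, X.lam_nb hj y]
    obtain ⟨k, hki, hkj, -⟩ := Triangle.third_cases hj
    set a : ℝ := (X.T (X.σ s i)).lam j ((X.T s).P i) with ha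
    have hz := (hi (y + (a * T.lam i y) • (T.P j - T.P k)) ?_).1 j hj
    · rw [T.lam_add, T.ell_smul] at hz
      have he : T.ell j (T.P j - T.P k) = 1 := by
        have h1 := T.lam_add j (T.P k) (T.P j - T.P k)
        rw [add_sub_cancel, T.lam_P, T.lam_P, if_pos rfl, if_neg (Ne.symm hkj)] at h1
        linarith
      rw [he, mul_one] at hz
      exact hz
    · have hPP : ‖T.P j - T.P k‖ ≤ T.dm := by
        apply T.norm_sub_le_dm
        · intro i; rw [T.lam_P]; split_ifs <;> simp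
        · intro i; rw [T.lam_P]; split_ifs <;> simp
      have hlam : |T.lam i y| ≤ T.Lp * ‖y - x‖ := by
        have h1 := T.abs_lam_sub_le i x y
        have h2 := hx i
        rw [abs_of_nonpos hiy]
        have h3 := (abs_le.1 h1).1
        linarith
      have h4 : ‖(a * T.lam i y) • (T.P j - T.P k)‖ ≤ (A * (T.Lp * ‖y - x‖)) * T.dm := by
        rw [norm_smul, Real.norm_eq_abs, abs_mul]
        gcongr
        exact hAle i j
      calc ‖y + (a * T.lam i y) • (T.P j - T.P k) - x‖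
          = ‖(y - x) + (a * T.lam i y) • (T.P j - T.P k)‖ := by congr 1; ring
        _ ≤ ‖y - x‖ + (A * (T.Lp * ‖y - x‖)) * T.dm := (norm_add_le _ _).trans (by gcongr)
        _ = K * ‖y - x‖ := by rw [hK]; ring
        _ < K * (2 * ε) := by gcongr
        _ = 2 * (K * ε) := by ring

lemma exists_locAt [Fintype S] : ∃ κ : ℝ, 0 < κ ∧ ∀ s, ∀ r0 : ℝ, 0 < r0 → ∀ ε : ℝ, 0 < ε →
    ε ≤ κ * r0 → ∀ x : ℂ, (∀ i, 0 ≤ (X.T s).lam i x) → (∀ m, r0 / 2 ≤ ‖x - (X.T s).P m‖) →
      ∃ i, ∀ y, ‖y - x‖ < 2 * ε → X.LocAt s i y := by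
  refine unif_const (P := fun s κ => ∀ r0 : ℝ, 0 < r0 → ∀ ε : ℝ, 0 < ε →
    ε ≤ κ * r0 → ∀ x : ℂ, (∀ i, 0 ≤ (X.T s).lam i x) → (∀ m, r0 / 2 ≤ ‖x - (X.T s).P m‖) →
      ∃ i, ∀ y, ‖y - x‖ < 2 * ε → X.LocAt s i y) ?_ (fun s => X.exists_locAt_tile s)
  intro s a b hb hba h r0 hr0 ε hε hεκ
  exact h r0 hr0 ε hε (hεκ.trans (by gcongr))

/-! ### the extension near a point -/

variable {X}

lemma R_not_mem {s : S} {i : Fin 3} {y : ℂ} (h : 0 ≤ (X.T s).lam i y) :
    X.R s i y ∉ (X.T (X.σ s i)).table := by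
  apply Triangle.not_mem_table_of_nonpos (i := i)
  rw [X.lam_R]
  have := X.kap_pos s i
  nlinarith

lemma LocAt.mem_table {s : S} {i : Fin 3} {y : ℂ} (h : X.LocAt s i y)
    (hi : 0 < (X.T s).lam i y) : y ∈ (X.T s).table := by
  rw [(X.T s).mem_table_iff]
  intro j
  by_cases hj : j = i
  · rw [hj]; exact hi
  · exact h.1 j hj

lemma LocAt.R_mem_table {s : S} {i : Fin 3} {y : ℂ} (h : X.LocAt s i y)
    (hi : (X.T s).lam i y < 0) : X.R s i y ∈ (X.T (X.σ s i)).table := by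
  rw [(X.T (X.σ s i)).mem_table_iff]
  intro j
  by_cases hj : j = i
  · rw [hj, X.lam_R]
    have := X.kap_pos s i
    nlinarith
  · exact h.2 hi.le j hj

lemma ext_of_pos {f : S → ℂ → ℂ × Ω → ℝ} {s : S} {y : ℂ} (h : y ∈ (X.T s).table) (ω : ℂ × Ω) :
    X.ext f s y ω = f s y ω := by
  unfold ext
  rw [indicator_of_mem h, Finset.sum_eq_zero, add_zero]
  intro j _
  apply indicator_of_notMem
  exact R_not_mem (((X.T s).mem_table_iff y).mp h j).le

lemma LocAt.ext_of_neg {f : S → ℂ → ℂ × Ω → ℝ} {s : S} {i : Fin 3} {y : ℂ} (h : X.LocAt s i y)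
    (hi : (X.T s).lam i y < 0) (ω : ℂ × Ω) :
    X.ext f s y ω = f (X.σ s i) (X.R s i y) (X.D s i ω.1, ω.2) := by
  unfold ext
  rw [indicator_of_notMem (Triangle.not_mem_table_of_nonpos hi.le), zero_add,
    Finset.sum_eq_single i]
  · rw [indicator_of_mem]
    exact h.R_mem_table hi
  · intro j _ hj
    apply indicator_of_notMem
    exact R_not_mem (h.1 j hj).le
  · intro hi'
    exact absurd (Finset.mem_univ i) hi'

lemma LocAt.ext_of_zero {f : S → ℂ → ℂ × Ω → ℝ} {s : S} {i : Fin 3} {y : ℂ} (h : X.LocAt s i y)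
    (hi : (X.T s).lam i y = 0) (ω : ℂ × Ω) :
    X.ext f s y ω = 0 := by
  unfold ext
  rw [indicator_of_notMem (Triangle.not_mem_table_of_nonpos hi.le), zero_add, Finset.sum_eq_zero]
  intro j _
  apply indicator_of_notMem
  by_cases hj : j = i
  · exact R_not_mem (by rw [hj, hi])
  · exact R_not_mem (h.1 j hj).le

variable (X)

lemma ext_eq_zero_near {r0 : ℝ} {s : S} (hr1 : (X.T s).Lp * r0 ≤ 1) {f : S → ℂ → ℂ × Ω → ℝ}
    (hf : ∀ s m, ∀ x ∈ (X.T s).table, ‖x - (X.T s).P m‖ < r0 → ∀ ω, f s x ω = 0) {m : Fin 3}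
    {y : ℂ} (hy : ‖y - (X.T s).P m‖ < r0) (ω : ℂ × Ω) : X.ext f s y ω = 0 := by
  unfold ext
  have h1 : (X.T s).table.indicator (fun y => f s y ω) y = 0 := by
    by_cases h : y ∈ (X.T s).table
    · rw [indicator_of_mem h]
      exact hf s m y h hy ω
    · exact indicator_of_notMem h _
  rw [h1, zero_add]
  apply Finset.sum_eq_zero
  intro j _
  by_cases h : X.R s j y ∈ (X.T (X.σ s j)).table
  · rw [indicator_of_mem (by exact h)]
    by_cases hj : m = j
    · exfalso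
      subst hj
      refine R_not_mem (X := X) ?_ h
      have h3 := (X.T s).abs_lam_sub_le m ((X.T s).P m) y
      rw [(X.T s).lam_P, if_pos rfl] at h3
      have h4 : (X.T s).Lp * ‖y - (X.T s).P m‖ < (X.T s).Lp * r0 := by
        have := (X.T s).Lp_pos
        (clear * - hy this; gcongr)
      have h5 := (abs_le.mp h3).1
      linarith only [hr1, h4, h5]
    · apply hf _ m _ h
      rw [← X.R_P' hj, X.norm_R_sub_R]
      exact hy
  · exact indicator_of_notMem (s := X.R s j ⁻¹' (X.T (X.σ s j)).table) (by exact h) _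

/-- symmetry of the extension near the side -/
lemma LocAt.ext_R {X : Cx S} {f : S → ℂ → ℂ × Ω → ℝ} {s : S} {i : Fin 3} {z : ℂ}
    (h : X.LocAt s i z) (h' : X.LocAt (X.σ s i) i (X.R s i z)) (ω : ℂ × Ω) :
    X.ext f (X.σ s i) (X.R s i z) (X.D s i ω.1, ω.2) = X.ext f s z ω := by
  have hk := X.kap_pos s i
  rcases lt_trichotomy ((X.T s).lam i z) 0 with h0 | h0 | h0
  · rw [h.ext_of_neg h0, ext_of_pos (h.R_mem_table h0)]
  · rw [h.ext_of_zero h0, h'.ext_of_zero (by rw [X.lam_R, h0, mul_zero])]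
  · rw [ext_of_pos (h.mem_table h0), h'.ext_of_neg (by rw [X.lam_R]; nlinarith), X.R_R]
    simp only [X.D_D, X.invol]

lemma mem_seg_lam {s : S} {i : Fin 3} {y : ℂ}
    (hy : y ∈ segment ℝ ((X.T s).P (i + 1)) ((X.T s).P (i + 2))) :
    (X.T s).lam i y = 0 ∧ ∀ j, 0 ≤ (X.T s).lam j y := (X.T s).mem_segment_lam hy

lemma exists_Lq [Fintype S] : ∃ L : ℝ, 0 < L ∧ ∀ s, (X.T s).Lp ≤ L := by
  refine unif_bound (P := fun s C => (X.T s).Lp ≤ C) (fun s a b hab h => h.trans hab)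
    fun s => ⟨_, le_refl _⟩

/-- (c) -/
lemma sym_ext [Fintype S] : ∃ κ r1 : ℝ, 0 < κ ∧ 0 < r1 ∧ ∀ r0 : ℝ, 0 < r0 → r0 ≤ r1 →
    ∀ ε : ℝ, 0 < ε → ε ≤ κ * r0 →
    ∀ f : S → ℂ → ℂ × Ω → ℝ,
      (∀ s m, ∀ x ∈ (X.T s).table, ‖x - (X.T s).P m‖ < r0 → ∀ ω, f s x ω = 0) →
    X.Sym ε (X.ext f) := by
  obtain ⟨κ, hκ, hloc⟩ := X.exists_locAt
  obtain ⟨L, hL, hLp⟩ := X.exists_Lq
  refine ⟨min κ (1 / 4), 1 / L, by positivity, by positivity, ?_⟩
  intro r0 hr0 hr1' ε hε hεκ f hf s i y hy ω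
  have hr1 : ∀ s, (X.T s).Lp * r0 ≤ 1 := by
    intro s
    have h1 : (X.T s).Lp * r0 ≤ L * r0 := by
      have := hLp s
      gcongr
    have h2 : L * r0 ≤ L * (1 / L) := by gcongr
    have h3 : L * (1 / L) = 1 := by field_simp
    linarith
  have hεκ1 : ε ≤ κ * r0 := hεκ.trans (by gcongr; exact min_le_left _ _)
  have hεκ2 : ε ≤ 1 / 4 * r0 := hεκ.trans (by gcongr; exact min_le_right _ _)
  obtain ⟨hyi, hyj⟩ := X.mem_seg_lam hy
  have hRy : X.R s i y = y := X.R_of_lam_eq_zero hyi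
  have hopp : ∀ s, (X.T s).lam i y = 0 → r0 / 2 ≤ ‖y - (X.T s).P i‖ := by
    intro s h0
    by_contra hlt
    push Not at hlt
    have h3 := (X.T s).abs_lam_sub_le i ((X.T s).P i) y
    rw [(X.T s).lam_P, if_pos rfl, h0] at h3
    have h4 : (X.T s).Lp * ‖y - (X.T s).P i‖ < (X.T s).Lp * r0 := by
      have := (X.T s).Lp_pos
      have : ‖y - (X.T s).P i‖ < r0 := by linarith
      gcongr
    have h5 := hr1 s
    norm_num at h3
    linarith
  have hyi' : (X.T (X.σ s i)).lam i y = 0 := by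
    have := X.lam_R s i y
    rw [hRy, hyi, mul_zero] at this
    exact this
  have hyj' : ∀ j, 0 ≤ (X.T (X.σ s i)).lam j y := by
    intro j
    by_cases hj : j = i
    · rw [hj, hyi']
    · have := X.lam_R_of_zero hj hyi
      rw [hRy] at this
      rw [this]
      exact hyj j
  unfold mol
  have hme : MeasurableEmbedding (X.R s i) :=
    MeasurableEquiv.measurableEmbedding
      ⟨⟨X.R s i, X.R (X.σ s i) i, X.R_R s i, fun x => by
        have := X.R_R (X.σ s i) i x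
        rw [X.invol] at this
        exact this⟩, (X.continuous_R s i).measurable, (X.continuous_R (X.σ s i) i).measurable⟩
  rw [← (X.measurePreserving_R s i).integral_comp hme]
  congr 1
  funext z
  have h1 : ‖y - X.R s i z‖ = ‖y - z‖ := by
    conv_lhs => rw [← hRy]
    exact X.norm_R_sub_R s i y z
  rw [rho_radial ε h1]
  by_cases hz : ε ≤ ‖y - z‖
  · rw [rho_eq_zero hε hz, zero_mul, zero_mul]
  · push Not at hz
    congr 1
    by_cases hm : ∀ m, r0 / 2 ≤ ‖y - (X.T s).P m‖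
    · have hm' : ∀ m, r0 / 2 ≤ ‖y - (X.T (X.σ s i)).P m‖ := by
        intro m
        by_cases hmi : m = i
        · rw [hmi]
          exact hopp _ hyi'
        · rw [X.glue s i m hmi]
          exact hm m
      obtain ⟨i', hi'⟩ := hloc s r0 hr0 ε hε hεκ1 y hyj hm
      have hii : i' = i := by
        by_contra hne
        have := (hi' y (by simp; positivity)).1 i (Ne.symm hne)
        linarith only [hyi, this]
      obtain ⟨i'', hi''⟩ := hloc (X.σ s i) r0 hr0 ε hε hεκ1 y hyj' hm'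
      have hii' : i'' = i := by
        by_contra hne
        have := (hi'' y (by simp; positivity)).1 i (Ne.symm hne)
        linarith only [hyi', this]
      rw [hii] at hi'
      rw [hii'] at hi''
      apply LocAt.ext_R
      · apply hi'
        rw [norm_sub_rev]
        linarith only [hε, hz]
      · apply hi''
        rw [norm_sub_rev, h1]
        linarith only [hε, hz]
    · push Not at hm
      obtain ⟨m, hm⟩ := hm
      have hmi : m ≠ i := by
        intro h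
        rw [h] at hm
        have := hopp s hyi
        linarith
      rw [X.ext_eq_zero_near (hr1 _) hf (m := m), X.ext_eq_zero_near (hr1 _) hf (m := m)]
      · calc ‖z - (X.T s).P m‖ = ‖(y - (X.T s).P m) - (y - z)‖ := by congr 1; ring
          _ ≤ ‖y - (X.T s).P m‖ + ‖y - z‖ := norm_sub_le _ _
          _ < r0 := by linarith only [hm, hz, hεκ2, hε]
      · rw [X.glue s i m hmi]
        calc ‖X.R s i z - (X.T s).P m‖ = ‖(y - (X.T s).P m) - (y - X.R s i z)‖ := by
              congr 1; ring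
          _ ≤ ‖y - (X.T s).P m‖ + ‖y - X.R s i z‖ := norm_sub_le _ _
          _ < r0 := by rw [h1]; linarith only [hm, hz, hεκ2, hε]

/-- in the mirror image, away from the other two sides -/
lemma ext_of_R {X : Cx S} (f : S → ℂ → ℂ × Ω → ℝ) {s : S} {y : ℂ} {i : Fin 3}
    (hy : X.R s i y ∈ (X.T (X.σ s i)).table)
    (h : ∀ j, j ≠ i → 0 < (X.T s).lam j y) (ω : ℂ × Ω) :
    X.ext f s y ω = f (X.σ s i) (X.R s i y) (X.D s i ω.1, ω.2) := by
  have h1 := ((X.T (X.σ s i)).mem_table_iff _).mp hy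
  have h0 : (X.T s).lam i y < 0 := by
    by_contra hcon
    push Not at hcon
    exact R_not_mem (X := X) hcon hy
  exact LocAt.ext_of_neg (i := i) ⟨h, fun _ j _ => h1 j⟩ h0 ω

/-- Local structure: near a point of a closed tile one only sees a vertex or at most one side. -/
lemma exists_loc [Fintype S] : ∃ κ r1 : ℝ, 0 < κ ∧ κ ≤ 1 / 4 ∧ 0 < r1 ∧
    (∀ (f : S → ℂ → ℂ × Ω → ℝ) (r0 : ℝ), r0 < r1 →
      (∀ s x ω, x ∈ (X.T s).table → (∃ k, ‖x - (X.T s).P k‖ < r0) → f s x ω = 0) →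
      ∀ s y ω, (∃ k, ‖y - (X.T s).P k‖ < r0) → X.ext f s y ω = 0) ∧
    (∀ (f : S → ℂ → ℂ × Ω → ℝ) (r0 ε : ℝ), 0 < r0 → r0 < r1 → 0 < ε → ε ≤ κ * r0 →
      (∀ s x ω, x ∈ (X.T s).table → (∃ k, ‖x - (X.T s).P k‖ < r0) → f s x ω = 0) →
      X.Sym ε (X.ext f)) ∧
    ∀ r0 ε : ℝ, 0 < r0 → r0 < r1 → 0 < ε → ε ≤ κ * r0 → ∀ s x, (∀ i, 0 ≤ (X.T s).lam i x) →
      (∃ k, ∀ y, ‖y - x‖ < 2 * ε → ‖y - (X.T s).P k‖ < r0) ∨
      (∃ i, ∀ y, ‖y - x‖ < 2 * ε → X.LocAt s i y) := by
  obtain ⟨κ1, hκ1, hloc⟩ := X.exists_locAt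
  obtain ⟨κ2, r2, hκ2, hr2, hsym⟩ := X.sym_ext (Ω := Ω)
  obtain ⟨L, hL, hLp⟩ := X.exists_Lq
  refine ⟨min (1 / 4) (min κ1 κ2), min r2 (1 / L), by positivity, min_le_left _ _, by positivity,
    ?_, ?_, ?_⟩
  · intro f r0 hr0 hf s y ω ⟨k, hk⟩
    apply X.ext_eq_zero_near (r0 := r0) _ (fun s m x hx hxm ω => hf s x ω hx ⟨m, hxm⟩) hk
    have h1 := hr0.le.trans (min_le_right _ _)
    have hr00 : 0 < r0 := lt_of_le_of_lt (norm_nonneg _) hk
    have h2 : (X.T s).Lp * r0 ≤ L * (1 / L) := by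
      have := hLp s
      have := (X.T s).Lp_pos
      gcongr
    have h3 : L * (1 / L) = 1 := by field_simp
    linarith
  · intro f r0 ε hr0 hr1 hε hεκ hf
    apply hsym r0 hr0 (hr1.le.trans (min_le_left _ _)) ε hε _ f
      (fun s m x hx hxm ω => hf s x ω hx ⟨m, hxm⟩)
    refine hεκ.trans ?_
    gcongr
    exact (min_le_right _ _).trans (min_le_right _ _)
  · intro r0 ε hr0 hr1 hε hεκ s x hx
    have h1 : ε ≤ κ1 * r0 := by
      refine hεκ.trans ?_
      gcongr
      exact (min_le_right _ _).trans (min_le_left _ _)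
    have h2 : ε ≤ 1 / 4 * r0 := by
      refine hεκ.trans ?_
      gcongr
      exact min_le_left _ _
    by_cases hm : ∀ m, r0 / 2 ≤ ‖x - (X.T s).P m‖
    · exact Or.inr (hloc s r0 hr0 ε hε h1 x hx hm)
    · push Not at hm
      obtain ⟨k, hk⟩ := hm
      refine Or.inl ⟨k, fun y hy => ?_⟩
      calc ‖y - (X.T s).P k‖ = ‖(y - x) + (x - (X.T s).P k)‖ := by congr 1; ring
        _ ≤ ‖y - x‖ + ‖x - (X.T s).P k‖ := norm_add_le _ _
        _ < r0 := by linarith only [hy, hk, h2]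

/-! ### boundedness and measurability of the extension -/

lemma exists_table_bound' (s : S) : ∃ r : ℝ, 0 < r ∧ (∀ y ∈ (X.T s).table, ‖y‖ < r) ∧
    ∀ i, ∀ y, X.R s i y ∈ (X.T (X.σ s i)).table → ‖y‖ < r := by
  obtain ⟨r, hr, hrt⟩ := (X.T s).exists_table_bound
  choose r' hr' hrt' using fun i => (X.T (X.σ s i)).exists_table_bound
  refine ⟨r + ∑ i, (r' i + ‖X.R s i 0‖), by
      have : 0 ≤ ∑ i, (r' i + ‖X.R s i 0‖) :=
        Finset.sum_nonneg fun i _ => add_nonneg (hr' i).le (norm_nonneg _)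
      linarith, fun y hy => by
      have h1 := hrt y hy
      have : 0 ≤ ∑ i, (r' i + ‖X.R s i 0‖) :=
        Finset.sum_nonneg fun i _ => add_nonneg (hr' i).le (norm_nonneg _)
      linarith, fun i y hy => ?_⟩
  have h1 := hrt' i _ hy
  have h2 : ‖y‖ = ‖X.R s i y - X.R s i 0‖ := by rw [X.norm_R_sub_R, sub_zero]
  have h3 := norm_sub_le (X.R s i y) (X.R s i 0)
  have h4 : r' i + ‖X.R s i 0‖ ≤ ∑ i, (r' i + ‖X.R s i 0‖) :=
    Finset.single_le_sum (f := fun i => r' i + ‖X.R s i 0‖)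
      (fun i _ => add_nonneg (hr' i).le (norm_nonneg _)) (Finset.mem_univ i)
  linarith only [hr, h1, h2, h3, h4]

lemma measurable_ext {f : S → ℂ → ℂ × Ω → ℝ}
    (hf : ∀ s, Measurable (fun p : ℂ × (ℂ × Ω) => f s p.1 p.2)) (s : S) :
    Measurable (fun p : ℂ × (ℂ × Ω) => X.ext f s p.1 p.2) := by
  have hmt : ∀ s, MeasurableSet (X.T s).table := fun s => (X.T s).isOpen_table.measurableSet
  have h1 : Measurable (fun p : ℂ × (ℂ × Ω) => (X.T s).table.indicator (fun y => f s y p.2) p.1) := by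
    have : (fun p : ℂ × (ℂ × Ω) => (X.T s).table.indicator (fun y => f s y p.2) p.1) =
        (Prod.fst ⁻¹' (X.T s).table).indicator (fun p : ℂ × (ℂ × Ω) => f s p.1 p.2) := by
      funext p
      simp only [indicator, mem_preimage]
      rfl
    rw [this]
    exact (hf s).indicator (measurable_fst (hmt s))
  have h2 : ∀ i, Measurable (fun p : ℂ × (ℂ × Ω) =>
      (X.R s i ⁻¹' (X.T (X.σ s i)).table).indicator
        (fun y => f (X.σ s i) (X.R s i y) (X.D s i p.2.1, p.2.2)) p.1) := by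
    intro i
    have hR : Measurable (X.R s i) := (X.continuous_R s i).measurable
    have hr : Measurable (X.D s i) := (X.continuous_D s i).measurable
    have : (fun p : ℂ × (ℂ × Ω) =>
      (X.R s i ⁻¹' (X.T (X.σ s i)).table).indicator
        (fun y => f (X.σ s i) (X.R s i y) (X.D s i p.2.1, p.2.2)) p.1) =
        (Prod.fst ⁻¹' (X.R s i ⁻¹' (X.T (X.σ s i)).table)).indicator
          (fun p : ℂ × (ℂ × Ω) => f (X.σ s i) (X.R s i p.1) (X.D s i p.2.1, p.2.2)) := by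
      funext p
      simp only [indicator, mem_preimage]
      rfl
    rw [this]
    apply Measurable.indicator
    · have h3 : Measurable (fun p : ℂ × (ℂ × Ω) =>
          ((X.R s i p.1, (X.D s i p.2.1, p.2.2)) : ℂ × (ℂ × Ω))) := by
        refine (hR.comp measurable_fst).prodMk ?_
        exact (hr.comp (measurable_fst.comp measurable_snd)).prodMk
          (measurable_snd.comp measurable_snd)
      exact (hf _).comp h3
    · exact measurable_fst (hR (hmt _))
  unfold ext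
  exact h1.add (Finset.measurable_sum _ fun i _ => h2 i)

lemma abs_ext_le {f : S → ℂ → ℂ × Ω → ℝ} {C : ℝ} (hC : ∀ s y ω, |f s y ω| ≤ C) (s : S) (y : ℂ)
    (ω : ℂ × Ω) : |X.ext f s y ω| ≤ 4 * C := by
  have hC0 : 0 ≤ C := (abs_nonneg _).trans (hC s y ω)
  unfold ext
  have h1 : |(X.T s).table.indicator (fun y => f s y ω) y| ≤ C := by
    unfold indicator
    split_ifs
    · exact hC s y ω
    · simpa using hC0
  have h2 : ∀ i, |(X.R s i ⁻¹' (X.T (X.σ s i)).table).indicator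
      (fun y => f (X.σ s i) (X.R s i y) (X.D s i ω.1, ω.2)) y| ≤ C := by
    intro i
    unfold indicator
    split_ifs
    · exact hC _ _ _
    · simpa using hC0
  calc _ ≤ |(X.T s).table.indicator (fun y => f s y ω) y| +
      |∑ i, (X.R s i ⁻¹' (X.T (X.σ s i)).table).indicator
        (fun y => f (X.σ s i) (X.R s i y) (X.D s i ω.1, ω.2)) y| :=
        abs_add_le _ _
    _ ≤ C + ∑ i, |(X.R s i ⁻¹' (X.T (X.σ s i)).table).indicator
        (fun y => f (X.σ s i) (X.R s i y) (X.D s i ω.1, ω.2)) y| := by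
        gcongr
        exact Finset.abs_sum_le_sum_abs _ _
    _ ≤ C + ∑ _i : Fin 3, C := by
        have := Finset.sum_le_sum (s := Finset.univ) (fun i _ => h2 i)
        linarith only [this]
    _ = 4 * C := by simp; ring

/-- (d) -/
lemma bddSupp_ext {f : S → ℂ → ℂ × Ω → ℝ} (hf : ∀ s, Bdd (f s)) (s : S) :
    BddSupp (X.ext f s) := by
  have hm := fun s => (hf s).1
  choose C hC using fun s => (hf s).2
  obtain ⟨r, hr, hr1, hr2⟩ := X.exists_table_bound' s
  refine ⟨⟨X.measurable_ext hm s, |C s| + ∑ i, |C (X.σ s i)|, fun y ω => ?_⟩, r,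
    fun y ω hy => ?_⟩
  · unfold ext
    have h1 : |(X.T s).table.indicator (fun y => f s y ω) y| ≤ |C s| := by
      unfold indicator
      split_ifs
      · exact (hC s y ω).trans (le_abs_self _)
      · simp
    have h2 : ∀ i, |(X.R s i ⁻¹' (X.T (X.σ s i)).table).indicator
        (fun y => f (X.σ s i) (X.R s i y) (X.D s i ω.1, ω.2)) y| ≤ |C (X.σ s i)| := by
      intro i
      unfold indicator
      split_ifs
      · exact (hC _ _ _).trans (le_abs_self _)
      · simp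
    refine (abs_add_le _ _).trans (add_le_add h1 ?_)
    exact (Finset.abs_sum_le_sum_abs _ _).trans (Finset.sum_le_sum fun i _ => h2 i)
  · unfold ext
    rw [indicator_of_notMem, Finset.sum_eq_zero, add_zero]
    · intro i _
      apply indicator_of_notMem
      intro h
      have := hr2 i y h
      linarith
    · intro h
      have := hr1 y h
      linarith

end Cx

end Vale.Agent.P099
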