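import Vale.Agent.P099.H504.Cx.C3

set_option linter.all false

open MeasureTheory Set Filter Topology

namespace Vale.Agent.P099

variable {Ω : Type} [MeasurableSpace Ω]

namespace Cx

variable {S : Type} (X : Cx S)

lemma measurableSet_R_table (s : S) (i : Fin 3) :
    MeasurableSet (X.R s i ⁻¹' (X.T (X.σ s i)).table) :=
  ((X.T (X.σ s i)).isOpen_table.preimage (X.continuous_R s i)).measurableSet

lemma isBounded_R_table (s : S) (i : Fin 3) :
    Bornology.IsBounded (X.R s i ⁻¹' (X.T (X.σ s i)).table) := by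
  obtain ⟨r, hr⟩ := (X.T (X.σ s i)).isBounded_table.subset_ball (X.R s i 0)
  refine (Metric.isBounded_ball (x := (0 : ℂ)) (r := r)).subset fun y hy => ?_
  have h1 := hr hy
  rw [Metric.mem_ball, dist_eq_norm, X.norm_R_sub_R] at h1
  rw [Metric.mem_ball, dist_eq_norm]
  exact h1

/-- `f` in the reflected coordinates -/
lemma bdd_cross {f : ℂ → ℂ × Ω → ℝ} (hf : Bdd f) (s : S) (i : Fin 3) :
    Bdd (fun y ω => f (X.R s i y) (X.D s i ω.1, ω.2)) := by
  obtain ⟨h1, C, hC⟩ := hf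
  refine ⟨?_, C, fun y ω => hC _ _⟩
  exact h1.comp (((X.continuous_R s i).measurable.comp measurable_fst).prodMk
    (((X.continuous_D s i).measurable.comp (measurable_fst.comp measurable_snd)).prodMk
      (measurable_snd.comp measurable_snd)))

lemma bdd_D {f : ℂ → ℂ × Ω → ℝ} (hf : Bdd f) (s : S) (i : Fin 3) :
    Bdd (fun y ω => f y (X.D s i ω.1, ω.2)) := by
  obtain ⟨h1, C, hC⟩ := hf
  refine ⟨?_, C, fun y ω => hC _ _⟩
  exact h1.comp (measurable_fst.prodMk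
    (((X.continuous_D s i).measurable.comp (measurable_fst.comp measurable_snd)).prodMk
      (measurable_snd.comp measurable_snd)))

lemma ext_eq (f : S → ℂ → ℂ × Ω → ℝ) (s : S) (y : ℂ) (ω : ℂ × Ω) :
    X.ext f s y ω = (X.T s).table.indicator (fun y => f s y ω) y +
      (X.R s 0 ⁻¹' (X.T (X.σ s 0)).table).indicator
        (fun y => f (X.σ s 0) (X.R s 0 y) (X.D s 0 ω.1, ω.2)) y +
      (X.R s 1 ⁻¹' (X.T (X.σ s 1)).table).indicator
        (fun y => f (X.σ s 1) (X.R s 1 y) (X.D s 1 ω.1, ω.2)) y +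
      (X.R s 2 ⁻¹' (X.T (X.σ s 2)).table).indicator
        (fun y => f (X.σ s 2) (X.R s 2 y) (X.D s 2 ω.1, ω.2)) y := by
  unfold ext
  rw [Fin.sum_univ_three]
  ring

lemma ext_of_mem_table (f : S → ℂ → ℂ × Ω → ℝ) {s : S} {y : ℂ} (hy : y ∈ (X.T s).table)
    (ω : ℂ × Ω) : X.ext f s y ω = f s y ω := ext_of_pos hy ω

lemma ext_sub (f g : S → ℂ → ℂ × Ω → ℝ) (s : S) :
    X.ext (fun s x ω => f s x ω - g s x ω) s = fun x ω => X.ext f s x ω - X.ext g s x ω := by
  funext y ω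
  rw [X.ext_eq, X.ext_eq, X.ext_eq]
  have h : ∀ (S : Set ℂ) (a b : ℂ → ℝ), S.indicator (fun y => a y - b y) y =
      S.indicator a y - S.indicator b y := by
    intro S a b
    by_cases hy : y ∈ S
    · simp only [indicator_of_mem hy]
    · simp only [indicator_of_notMem hy, sub_zero]
  rw [h, h, h, h]
  ring

lemma ext_add (f g : S → ℂ → ℂ × Ω → ℝ) (s : S) :
    X.ext (fun s x ω => f s x ω + g s x ω) s = fun x ω => X.ext f s x ω + X.ext g s x ω := by
  funext y ω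
  rw [X.ext_eq, X.ext_eq, X.ext_eq]
  have h : ∀ (S : Set ℂ) (a b : ℂ → ℝ), S.indicator (fun y => a y + b y) y =
      S.indicator a y + S.indicator b y := by
    intro S a b
    by_cases hy : y ∈ S
    · simp only [indicator_of_mem hy]
    · simp only [indicator_of_notMem hy, add_zero]
  rw [h, h, h, h]
  ring

lemma bdd_ext {f : S → ℂ → ℂ × Ω → ℝ} (hf : ∀ s, Bdd (f s)) (s : S) : BddSupp (X.ext f s) :=
  X.bddSupp_ext hf s

variable (m : Measure Ω)

lemma measurePreserving_DProd [IsProbabilityMeasure m] (s : S) (i : Fin 3) :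
    MeasurePreserving (fun ω : ℂ × Ω => (X.D s i ω.1, ω.2)) (nu.prod m) (nu.prod m) :=
  (X.measurePreserving_D s i).prod (MeasurePreserving.id m)

/-- the extension is bounded in `L²` -/
lemma int_ext_sq_le_tile [IsProbabilityMeasure m] {f : S → ℂ → ℂ × Ω → ℝ}
    (hf : ∀ s, Bdd (f s)) (s : S) :
    ∫ ω, (∫ y, X.ext f s y ω ^ 2) ∂(nu.prod m) ≤
      4 * ((X.T s).nrm m (fun x ω => (f s x ω : ℂ)) +
        ∑ i, (X.T (X.σ s i)).nrm m (fun x ω => (f (X.σ s i) x ω : ℂ))) := by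
  have e0 : ∀ s ω, ∫ y, (X.T s).table.indicator (fun y => f s y ω) y ^ 2 =
      ∫ y in (X.T s).table, f s y ω ^ 2 := by
    intro s ω
    rw [← integral_indicator (X.T s).measurableSet_table]
    refine integral_congr_ae (Eventually.of_forall fun y => ?_)
    by_cases hy : y ∈ (X.T s).table
    · simp only [indicator_of_mem hy]
    · simp only [indicator_of_notMem hy]
      simp
  have ei : ∀ (i : Fin 3) (ω : ℂ × Ω), ∫ y, (X.R s i ⁻¹' (X.T (X.σ s i)).table).indicator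
      (fun y => f (X.σ s i) (X.R s i y) (X.D s i ω.1, ω.2)) y ^ 2 =
      ∫ y in (X.T (X.σ s i)).table, f (X.σ s i) y (X.D s i ω.1, ω.2) ^ 2 := by
    intro i ω
    rw [← e0 (X.σ s i) (X.D s i ω.1, ω.2)]
    rw [← integral_comp_mp (X.measurePreserving_R s i) (g := fun y =>
      (X.T (X.σ s i)).table.indicator (fun y => f (X.σ s i) y (X.D s i ω.1, ω.2)) y ^ 2)
      ((((hf _).section _).indicator (X.T _).measurableSet_table).pow_const 2)]
    rfl
  have si : ∀ i : Fin 3, ∫ ω : ℂ × Ω,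
      (∫ y in (X.T (X.σ s i)).table, f (X.σ s i) y (X.D s i ω.1, ω.2) ^ 2) ∂(nu.prod m) =
      (X.T (X.σ s i)).nrm m (fun x ω => (f (X.σ s i) x ω : ℂ)) := by
    intro i
    rw [(X.T (X.σ s i)).nrm_eq_swap m (hf _)]
    exact integral_comp_mp (X.measurePreserving_DProd m s i) (g := fun ω : ℂ × Ω =>
      ∫ x in (X.T (X.σ s i)).table, f (X.σ s i) x ω ^ 2)
      ((X.T (X.σ s i)).measurable_tabInt m (hf _))
  have s0 : ∫ ω, (∫ y in (X.T s).table, f s y ω ^ 2) ∂(nu.prod m) =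
      (X.T s).nrm m (fun x ω => (f s x ω : ℂ)) := ((X.T s).nrm_eq_swap m (hf s)).symm
  -- integrability of the pieces
  have b0 := (hf s).bddSupp_indicator (X.T s).measurableSet_table (X.T s).isBounded_table
  have bi : ∀ i, BddSupp (fun y (ω : ℂ × Ω) => (X.R s i ⁻¹' (X.T (X.σ s i)).table).indicator
      (fun y => f (X.σ s i) (X.R s i y) (X.D s i ω.1, ω.2)) y) := fun i =>
    (X.bdd_cross (hf (X.σ s i)) s i).bddSupp_indicator (X.measurableSet_R_table s i)
      (X.isBounded_R_table s i)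
  have q0 := fun ω => (b0.sq).integrable ω
  have qi := fun i ω => ((bi i).sq).integrable ω
  have hpt : ∀ ω : ℂ × Ω, ∫ y, X.ext f s y ω ^ 2 ≤ 4 * ((∫ y in (X.T s).table, f s y ω ^ 2) +
      (∫ y in (X.T (X.σ s 0)).table, f (X.σ s 0) y (X.D s 0 ω.1, ω.2) ^ 2) +
      (∫ y in (X.T (X.σ s 1)).table, f (X.σ s 1) y (X.D s 1 ω.1, ω.2) ^ 2) +
      (∫ y in (X.T (X.σ s 2)).table, f (X.σ s 2) y (X.D s 2 ω.1, ω.2) ^ 2)) := by
    intro ω
    rw [← e0 s ω, ← ei 0 ω, ← ei 1 ω, ← ei 2 ω]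
    rw [← integral_add4 (q0 ω) (qi 0 ω) (qi 1 ω) (qi 2 ω), ← integral_const_mul]
    refine integral_mono ((X.bdd_ext hf s).sq.integrable ω)
      ((integrable_add4 (q0 ω) (qi 0 ω) (qi 1 ω) (qi 2 ω)).const_mul 4) fun y => ?_
    simp only
    rw [X.ext_eq]
    set a := (X.T s).table.indicator (fun y => f s y ω) y
    set b := (X.R s 0 ⁻¹' (X.T (X.σ s 0)).table).indicator
        (fun y => f (X.σ s 0) (X.R s 0 y) (X.D s 0 ω.1, ω.2)) y
    set c := (X.R s 1 ⁻¹' (X.T (X.σ s 1)).table).indicator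
        (fun y => f (X.σ s 1) (X.R s 1 y) (X.D s 1 ω.1, ω.2)) y
    set d := (X.R s 2 ⁻¹' (X.T (X.σ s 2)).table).indicator
        (fun y => f (X.σ s 2) (X.R s 2 y) (X.D s 2 ω.1, ω.2)) y
    linarith only [sq_nonneg (c - d), sq_nonneg (b - d), sq_nonneg (b - c), sq_nonneg (a - d), sq_nonneg (a - c), sq_nonneg (a - b)]
  have r0 := (X.T s).integrable_tabInt m (hf s)
  have ri := fun i => (X.T (X.σ s i)).integrable_tabInt m (X.bdd_D (hf (X.σ s i)) s i)
  calc ∫ ω, (∫ y, X.ext f s y ω ^ 2) ∂(nu.prod m) ≤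
      ∫ ω : ℂ × Ω, 4 * ((∫ y in (X.T s).table, f s y ω ^ 2) +
      (∫ y in (X.T (X.σ s 0)).table, f (X.σ s 0) y (X.D s 0 ω.1, ω.2) ^ 2) +
      (∫ y in (X.T (X.σ s 1)).table, f (X.σ s 1) y (X.D s 1 ω.1, ω.2) ^ 2) +
      (∫ y in (X.T (X.σ s 2)).table, f (X.σ s 2) y (X.D s 2 ω.1, ω.2) ^ 2)) ∂(nu.prod m) := by
        refine integral_mono_of_nonneg (Eventually.of_forall fun ω =>
          integral_nonneg fun y => sq_nonneg _)
          ((integrable_add4 r0 (ri 0) (ri 1) (ri 2)).const_mul 4)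
          (Eventually.of_forall hpt)
    _ = _ := by
        rw [integral_const_mul, integral_add4 r0 (ri 0) (ri 1) (ri 2), si 0, si 1, si 2, s0,
          Fin.sum_univ_three]
        ring

lemma sum_nb [Fintype S] (F : S → ℝ) (i : Fin 3) : ∑ s, F (X.σ s i) = ∑ s, F s :=
  Fintype.sum_equiv ⟨fun s => X.σ s i, fun s => X.σ s i, fun s => X.invol s i,
    fun s => X.invol s i⟩ _ _ fun s => rfl

lemma nrm_nonneg [Fintype S] (F : S → ℂ → ℂ × Ω → ℂ) : 0 ≤ X.nrm m F :=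
  Finset.sum_nonneg fun s _ => (X.T s).nrm_nonneg m _

/-- the extension is bounded in `L²` -/
lemma int_ext_sq_le [Fintype S] [IsProbabilityMeasure m] {f : S → ℂ → ℂ × Ω → ℝ}
    (hf : ∀ s, Bdd (f s)) :
    ∑ s, ∫ ω, (∫ y, X.ext f s y ω ^ 2) ∂(nu.prod m) ≤
      16 * X.nrm m (fun s x ω => (f s x ω : ℂ)) := by
  refine (Finset.sum_le_sum fun s _ => X.int_ext_sq_le_tile m hf s).trans (le_of_eq ?_)
  rw [← Finset.mul_sum, Finset.sum_add_distrib, Finset.sum_comm]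
  have h : ∀ i : Fin 3, ∑ s, (X.T (X.σ s i)).nrm m (fun x ω => (f (X.σ s i) x ω : ℂ)) =
      X.nrm m (fun s x ω => (f s x ω : ℂ)) := fun i =>
    X.sum_nb (fun s => (X.T s).nrm m (fun x ω => (f s x ω : ℂ))) i
  simp only [h, Fin.sum_univ_three]
  unfold nrm
  ring

end Cx

end Vale.Agent.P099
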