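import Vale.Agent.P099.H504.Cx.C4
import Vale.Agent.P099.H504.Cx.A2

set_option linter.all false

open MeasureTheory Set Filter Topology

namespace Vale.Agent.P099

variable {Ω : Type} [MeasurableSpace Ω]

namespace Cx

variable {S : Type} (X : Cx S)

/-- the oscillation of the extended regular part at scale `ε` -/
lemma osc_est {Φ : S → ℂ → ℂ × Ω → ℝ} {CU L r K0 : ℝ} (hΦ : ∀ s x ω, |Φ s x ω| ≤ CU)
    (hL : ∀ s x y ω, |Φ s x ω - Φ s y ω| ≤ L * ‖x - y‖) (hL0 : 0 ≤ L)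
    (hr : ∀ s x ω, (∃ i, (X.T s).lam i x < r) → Φ s x ω = 0)
    {N : ℕ} {δ η ε : ℝ} (hδ : 0 < δ) (hη : 0 < η) (hη1 : η ≤ 1) (hε : 0 < ε)
    (hε' : 4 * ε ≤ η * sj δ N)
    (hK0 : ∀ s, (X.T s).Lp ≤ K0 ∧ ∀ i, X.kap s i * (X.T s).Lp ≤ K0) (hεr : K0 * ε < r)
    {s : S} {x y : ℂ} (hx : x ∈ (X.T s).table)
    (hxy : ‖y - x‖ ≤ ε) {ω : ℂ × Ω} (hu : ‖ω.1‖ = 1) :
    |X.ext (fun s x ω => X.chi' N δ η s (x, ω.1) * Φ s x ω) s y ω -
      X.ext (fun s x ω => X.chi' N δ η s (x, ω.1) * Φ s x ω) s x ω| ≤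
      L * ε + CU * (2 * ε / η * X.wt N δ η s (x, ω.1)) := by
  have hCU : 0 ≤ CU := (abs_nonneg _).trans (hΦ s x ω)
  have hw := X.wt_nonneg N hδ η s (x, ω.1)
  have hlam : ∀ i, |(X.T s).lam i y - (X.T s).lam i x| ≤ (X.T s).Lp * ε := fun i =>
    ((X.T s).abs_lam_sub_le i x y).trans (mul_le_mul_of_nonneg_left hxy (X.T s).Lp_pos.le)
  rw [ext_of_pos hx]
  by_cases hy : y ∈ (X.T s).table
  · rw [ext_of_pos hy]
    have h1 := X.chi'_lip N hδ hη hη1 hu hx hy hxy hε'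
    have h2 : X.chi' N δ η s (y, ω.1) * Φ s y ω - X.chi' N δ η s (x, ω.1) * Φ s x ω =
        X.chi' N δ η s (y, ω.1) * (Φ s y ω - Φ s x ω) +
        (X.chi' N δ η s (y, ω.1) - X.chi' N δ η s (x, ω.1)) * Φ s x ω := by ring
    rw [h2]
    apply (abs_add_le _ _).trans
    apply add_le_add
    · rw [abs_mul, abs_of_nonneg (X.chi'_nonneg _ _ _ _ _)]
      calc _ ≤ 1 * (L * ‖y - x‖) :=
            mul_le_mul (X.chi'_le_one _ _ _ _ _) (hL _ _ _ _) (abs_nonneg _) zero_le_one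
        _ ≤ L * ε := by rw [one_mul]; exact mul_le_mul_of_nonneg_left hxy hL0
    · rw [abs_mul, mul_comm]
      exact mul_le_mul (hΦ _ _ _) h1 (abs_nonneg _) hCU
  · have hLε : (X.T s).Lp * ε < r := lt_of_le_of_lt (by have := (hK0 s).1; gcongr) hεr
    have h1 : Φ s x ω = 0 := by
      apply hr
      rw [Triangle.mem_table_iff] at hy
      push Not at hy
      obtain ⟨i, hi⟩ := hy
      refine ⟨i, ?_⟩
      have := abs_le.1 (hlam i)
      linarith only [hLε, hi, this]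
    have h2 : X.ext (fun s x ω => X.chi' N δ η s (x, ω.1) * Φ s x ω) s y ω = 0 := by
      unfold ext
      rw [indicator_of_notMem hy, zero_add]
      apply Finset.sum_eq_zero
      intro i _
      by_cases hi : y ∈ X.R s i ⁻¹' (X.T (X.σ s i)).table
      · rw [indicator_of_mem hi]
        have h3 : Φ (X.σ s i) (X.R s i y) (X.D s i ω.1, ω.2) = 0 := by
          apply hr
          refine ⟨i, ?_⟩
          rw [X.lam_R]
          have h5 := abs_le.1 (hlam i)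
          have h4 := ((X.T s).mem_table_iff x).1 hx i
          have h6 : - (X.T s).lam i y ≤ (X.T s).Lp * ε := by linarith [h5.1]
          have h7 := X.kap_pos s i
          have h8 : X.kap s i * (-(X.T s).lam i y) ≤ X.kap s i * ((X.T s).Lp * ε) := by gcongr
          have h9 : X.kap s i * ((X.T s).Lp * ε) ≤ K0 * ε := by
            rw [← mul_assoc]
            have := (hK0 s).2 i
            gcongr
          linarith only [hεr, h8, h9]
        simp only [h3, mul_zero]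
      · exact indicator_of_notMem hi _
    rw [h1, h2]
    simp only [mul_zero, sub_zero, abs_zero]
    (clear * - hL0 hε hCU hη hw; positivity)

lemma bdd_chi' (N : ℕ) (δ η : ℝ) {U : S → ℂ → ℂ × Ω → ℝ} (hU : ∀ s, Bdd (U s)) (s : S) :
    Bdd (fun x (ω : ℂ × Ω) => X.chi' N δ η s (x, ω.1) * U s x ω) := by
  apply Bdd.mul _ (hU s)
  refine ⟨(X.measurable_chi' N δ η s).comp (f := fun p : ℂ × (ℂ × Ω) => (p.1, p.2.1))
      (by fun_prop), 1, ?_⟩
  intro y ω
  rw [abs_of_nonneg (X.chi'_nonneg _ _ _ _ _)]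
  exact X.chi'_le_one _ _ _ _ _

lemma bdd_wt (N : ℕ) {δ : ℝ} (hδ : 0 < δ) (η : ℝ) (s : S) :
    Bdd (fun x (ω : ℂ × Ω) => X.wt N δ η s (x, ω.1)) := by
  refine ⟨(X.measurable_wt N δ η s).comp (f := fun p : ℂ × (ℂ × Ω) => (p.1, p.2.1))
      (by fun_prop), (sj δ N)⁻¹, ?_⟩
  intro y ω
  rw [abs_of_nonneg (X.wt_nonneg N hδ η _ _)]
  exact X.wt_le N hδ η _ _

/-- pointwise gradient estimate for the regular part -/
lemma grd_reg_est {K : ℝ} (hK : ∀ ε : ℝ, 0 < ε → ∫ z, ‖Vale.Agent.P099.kap ε z‖ ≤ K / ε)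
    {Φ : S → ℂ → ℂ × Ω → ℝ} (hΦb : ∀ s, Bdd (Φ s)) {CU L r K0 : ℝ} (hΦ : ∀ s x ω, |Φ s x ω| ≤ CU)
    (hL : ∀ s x y ω, |Φ s x ω - Φ s y ω| ≤ L * ‖x - y‖) (hL0 : 0 ≤ L)
    (hr : ∀ s x ω, (∃ i, (X.T s).lam i x < r) → Φ s x ω = 0)
    {N : ℕ} {δ η ε : ℝ} (hδ : 0 < δ) (hη : 0 < η) (hη1 : η ≤ 1) (hε : 0 < ε)
    (hε' : 4 * ε ≤ η * sj δ N)
    (hK0 : ∀ s, (X.T s).Lp ≤ K0 ∧ ∀ i, X.kap s i * (X.T s).Lp ≤ K0) (hεr : K0 * ε < r)
    {s : S} {x : ℂ} (hx : x ∈ (X.T s).table) {ω : ℂ × Ω} (hu : ‖ω.1‖ = 1) :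
    ‖grd ε (X.ext (fun s x ω => X.chi' N δ η s (x, ω.1) * Φ s x ω) s) x ω‖ ≤
      K * L + 2 * K * CU / η * X.wt N δ η s (x, ω.1) := by
  set f := X.ext (fun s x ω => X.chi' N δ η s (x, ω.1) * Φ s x ω) s with hf
  have hCU : 0 ≤ CU := (abs_nonneg _).trans (hΦ s x ω)
  have hw := X.wt_nonneg N hδ η s (x, ω.1)
  have hfb : BddSupp f := X.bddSupp_ext (X.bdd_chi' N δ η hΦb) s
  have hk : Integrable fun y => Vale.Agent.P099.kap ε (x - y) := (integrable_kap hε).comp_sub_left x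
  obtain ⟨C, hC⟩ := hfb.1.2
  have h1 : Integrable fun y => Vale.Agent.P099.kap ε (x - y) * (f y ω : ℂ) :=
    hk.mul_bdd (c := C) (Complex.measurable_ofReal.comp (hfb.1.section ω)).aestronglyMeasurable
      (Eventually.of_forall fun y => by
        simp only [Complex.norm_real, Real.norm_eq_abs]; exact hC y ω)
  have h0 : ∫ y, Vale.Agent.P099.kap ε (x - y) = 0 := by
    rw [integral_sub_left_eq_self (fun z => Vale.Agent.P099.kap ε z) volume x, integral_kap hε]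
  have h2 : grd ε f x ω = ∫ y, Vale.Agent.P099.kap ε (x - y) * ((f y ω - f x ω : ℝ) : ℂ) := by
    have : ∀ y, Vale.Agent.P099.kap ε (x - y) * ((f y ω - f x ω : ℝ) : ℂ) =
        Vale.Agent.P099.kap ε (x - y) * (f y ω : ℂ) -
          Vale.Agent.P099.kap ε (x - y) * (f x ω : ℂ) := by
      intro y; push_cast; ring
    simp only [this]
    rw [integral_sub h1 (hk.mul_const _), integral_mul_const, h0, zero_mul, sub_zero]
    rfl
  set B := L * ε + CU * (2 * ε / η * X.wt N δ η s (x, ω.1)) with hB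
  have hB0 : 0 ≤ B := by (clear * - hL0 hε hCU hη hw; (clear * - hL0 hε hCU hη hw; positivity))
  rw [h2]
  calc ‖∫ y, Vale.Agent.P099.kap ε (x - y) * ((f y ω - f x ω : ℝ) : ℂ)‖
      ≤ ∫ y, ‖Vale.Agent.P099.kap ε (x - y)‖ * B := by
        apply norm_integral_le_of_norm_le (hk.norm.mul_const B)
        refine Eventually.of_forall fun y => ?_
        rw [norm_mul, Complex.norm_real, Real.norm_eq_abs]
        by_cases hy : ‖x - y‖ < ε
        · apply mul_le_mul_of_nonneg_left _ (norm_nonneg _)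
          rw [norm_sub_rev] at hy
          exact X.osc_est hΦ hL hL0 hr hδ hη hη1 hε hε' hK0 hεr hx hy.le hu
        · rw [kap_eq_zero hε (not_lt.1 hy)]
          simp
    _ = (∫ z, ‖Vale.Agent.P099.kap ε z‖) * B := by
        rw [integral_mul_const,
          integral_sub_left_eq_self (fun z => ‖Vale.Agent.P099.kap ε z‖) volume x]
    _ ≤ (K / ε) * B := mul_le_mul_of_nonneg_right (hK ε hε) hB0
    _ = K * L + 2 * K * CU / η * X.wt N δ η s (x, ω.1) := by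
        rw [hB]; (clear * - hη hε; field_simp)

variable (m : Measure Ω)

/-- the weight in norm -/
lemma nrm_wt_le [IsProbabilityMeasure m] (N : ℕ) {δ : ℝ} (hδ : 0 < δ) (η : ℝ) {B : ℝ} (s : S)
    (hB : (∫ p, X.wt N δ η s p ^ 2 ∂((volume.restrict (X.T s).table).prod nu)) ≤ B) :
    (X.T s).nrm m (fun x ω => ((X.wt N δ η s (x, ω.1) : ℝ) : ℂ)) ≤ B := by
  rw [(X.T s).nrm_eq_nu m (X.measurable_wt N δ η s) (C := (sj δ N)⁻¹) (fun p => by
    rw [abs_of_nonneg (X.wt_nonneg N hδ η _ _)]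
    exact X.wt_le N hδ η _ _)]
  exact hB

/-- the regular part -/
lemma nrm_grd_reg [IsProbabilityMeasure m] {K : ℝ}
    (hK : ∀ ε : ℝ, 0 < ε → ∫ z, ‖Vale.Agent.P099.kap ε z‖ ≤ K / ε)
    {Φ : S → ℂ → ℂ × Ω → ℝ} (hΦb : ∀ s, Bdd (Φ s)) {CU L r K0 : ℝ} (hΦ : ∀ s x ω, |Φ s x ω| ≤ CU)
    (hL : ∀ s x y ω, |Φ s x ω - Φ s y ω| ≤ L * ‖x - y‖) (hL0 : 0 ≤ L)
    (hr : ∀ s x ω, (∃ i, (X.T s).lam i x < r) → Φ s x ω = 0)
    {N : ℕ} {δ η ε B : ℝ} (hδ : 0 < δ) (hη : 0 < η) (hη1 : η ≤ 1) (hε : 0 < ε)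
    (hε' : 4 * ε ≤ η * sj δ N)
    (hK0 : ∀ s, (X.T s).Lp ≤ K0 ∧ ∀ i, X.kap s i * (X.T s).Lp ≤ K0) (hεr : K0 * ε < r) (s : S)
    (hB : (∫ p, X.wt N δ η s p ^ 2 ∂((volume.restrict (X.T s).table).prod nu)) ≤ B) :
    (X.T s).nrm m (grd ε (X.ext (fun s x ω => X.chi' N δ η s (x, ω.1) * Φ s x ω) s)) ≤
      2 * (K * L) ^ 2 * volume.real (X.T s).table + 8 * K ^ 2 * CU ^ 2 / η ^ 2 * B := by
  have hfb := X.bdd_chi' N δ η hΦb
  have hfe := X.bddSupp_ext hfb s
  obtain ⟨C, hC⟩ := exists_norm_grd_le hε hfe.1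
  have hm := measurable_grd ε hfe.1
  have hw := X.bdd_wt (Ω := Ω) N hδ η s
  obtain ⟨D, hD⟩ := hw.2
  have hmono : (X.T s).nrm m
      (grd ε (X.ext (fun s x ω => X.chi' N δ η s (x, ω.1) * Φ s x ω) s)) ≤
      (X.T s).nrm m (fun x ω => ((K * L : ℝ) : ℂ) +
        ((2 * K * CU / η : ℝ) : ℂ) * ((X.wt N δ η s (x, ω.1) : ℝ) : ℂ)) := by
    refine (X.T s).nrm_mono m hm ?_ hC (D := |K * L| + |2 * K * CU / η| * D) ?_ ?_
    · exact measurable_const.add (measurable_const.mul (Complex.measurable_ofReal.comp hw.1))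
    · intro x ω
      refine (norm_add_le _ _).trans ?_
      rw [norm_mul, Complex.norm_real, Complex.norm_real, Complex.norm_real, Real.norm_eq_abs,
        Real.norm_eq_abs, Real.norm_eq_abs]
      gcongr
      exact hD x ω
    · filter_upwards [(X.T s).ae_muT_norm m, (X.T s).ae_muT_table m] with p hp1 hp2
      refine (X.grd_reg_est hK hΦb hΦ hL hL0 hr hδ hη hη1 hε hε' hK0 hεr hp2 hp1).trans ?_
      rw [← Complex.ofReal_mul, ← Complex.ofReal_add, Complex.norm_real, Real.norm_eq_abs]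
      exact le_abs_self _
  refine hmono.trans ?_
  refine ((X.T s).nrm_add_le m (F := fun _ _ => ((K * L : ℝ) : ℂ))
    (G := fun x ω => ((2 * K * CU / η : ℝ) : ℂ) * ((X.wt N δ η s (x, ω.1) : ℝ) : ℂ))
    measurable_const (measurable_const.mul (Complex.measurable_ofReal.comp hw.1))
    (C := |K * L|) (D := |2 * K * CU / η| * D) (fun x ω => by
      rw [Complex.norm_real, Real.norm_eq_abs]) (fun x ω => by
      rw [norm_mul, Complex.norm_real, Complex.norm_real, Real.norm_eq_abs, Real.norm_eq_abs]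
      gcongr
      exact hD x ω)).trans ?_
  rw [(X.T s).nrm_const_mul m, (X.T s).nrm_const m, Complex.norm_real, Real.norm_eq_abs, sq_abs]
  have h1 := X.nrm_wt_le m N hδ η s hB
  have h2 : (2 * K * CU / η) ^ 2 * (X.T s).nrm m (fun x ω => ((X.wt N δ η s (x, ω.1) : ℝ) : ℂ)) ≤
      (2 * K * CU / η) ^ 2 * B := mul_le_mul_of_nonneg_left h1 (sq_nonneg _)
  have h3 : 2 * ((2 * K * CU / η) ^ 2 * B) = 8 * K ^ 2 * CU ^ 2 / η ^ 2 * B := by
    field_simp; ring
  linarith only [h2, h3]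

/-- the total area -/
noncomputable def vol [Fintype S] : ℝ := ∑ s, volume.real (X.T s).table

lemma vol_nonneg [Fintype S] : 0 ≤ X.vol := Finset.sum_nonneg fun s _ => measureReal_nonneg

/-- the gradient of the mollified cut-off function, in norm -/
lemma nrm_grd_est [Fintype S] [IsProbabilityMeasure m] {K : ℝ}
    (hK : ∀ ε : ℝ, 0 < ε → ∫ z, ‖Vale.Agent.P099.kap ε z‖ ≤ K / ε) {K2 : ℝ}
    (hK2 : ∀ (s : S) (ε : ℝ), 0 < ε → ∀ f : ℂ → ℂ × Ω → ℝ, BddSupp f →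
      (X.T s).nrm m (grd ε f) ≤ (K2 / ε) ^ 2 * ∫ ω, (∫ y, f y ω ^ 2) ∂(nu.prod m))
    {U : S → ℂ → ℂ × Ω → ℝ} (hU : ∀ s, Bdd (U s))
    {Φ : S → ℂ → ℂ × Ω → ℝ} (hΦb : ∀ s, Bdd (Φ s)) {CU L r τ K0 : ℝ}
    (hΦ : ∀ s x ω, |Φ s x ω| ≤ CU)
    (hL : ∀ s x y ω, |Φ s x ω - Φ s y ω| ≤ L * ‖x - y‖) (hL0 : 0 ≤ L)
    (hr : ∀ s x ω, (∃ i, (X.T s).lam i x < r) → Φ s x ω = 0)
    (hτ : X.nrm m (fun s x ω => ((U s x ω - Φ s x ω : ℝ) : ℂ)) ≤ τ)
    {N : ℕ} {δ η ε B : ℝ} (hδ : 0 < δ) (hη : 0 < η) (hη1 : η ≤ 1) (hε : 0 < ε)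
    (hε' : 4 * ε ≤ η * sj δ N)
    (hK0 : ∀ s, (X.T s).Lp ≤ K0 ∧ ∀ i, X.kap s i * (X.T s).Lp ≤ K0) (hεr : K0 * ε < r)
    (hB : ∀ s, (∫ p, X.wt N δ η s p ^ 2 ∂((volume.restrict (X.T s).table).prod nu)) ≤ B) :
    X.nrm m (fun s => grd ε (X.ext (fun s x ω => X.chi' N δ η s (x, ω.1) * U s x ω) s)) ≤
      4 * (K * L) ^ 2 * X.vol + 16 * K ^ 2 * CU ^ 2 / η ^ 2 * (Fintype.card S * B) +
        32 * (K2 / ε) ^ 2 * τ := by
  have hR : ∀ s, Bdd (fun x ω => U s x ω - Φ s x ω) := fun s => (hU s).sub (hΦb s)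
  have f1 := X.bddSupp_ext (X.bdd_chi' N δ η hU)
  have f2 := X.bddSupp_ext (X.bdd_chi' N δ η hΦb)
  have f3 := X.bddSupp_ext (X.bdd_chi' N δ η hR)
  have e1 : ∀ s, X.ext (fun s x ω => X.chi' N δ η s (x, ω.1) * (U s x ω - Φ s x ω)) s =
      fun x ω => X.ext (fun s x ω => X.chi' N δ η s (x, ω.1) * U s x ω) s x ω -
        X.ext (fun s x ω => X.chi' N δ η s (x, ω.1) * Φ s x ω) s x ω := by
    intro s
    have h := X.ext_sub (fun s x (ω : ℂ × Ω) => X.chi' N δ η s (x, ω.1) * U s x ω)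
      (fun s x (ω : ℂ × Ω) => X.chi' N δ η s (x, ω.1) * Φ s x ω) s
    rw [← h]
    congr 1
    funext s x ω
    ring
  have e2 : ∀ s, grd ε (X.ext (fun s x ω => X.chi' N δ η s (x, ω.1) * U s x ω) s) =
      fun x ω => grd ε (X.ext (fun s x ω => X.chi' N δ η s (x, ω.1) * Φ s x ω) s) x ω +
        grd ε (X.ext (fun s x ω => X.chi' N δ η s (x, ω.1) * (U s x ω - Φ s x ω)) s) x ω := by
    intro s
    funext x ω
    rw [e1, grd_sub hε (f1 s).1 (f2 s).1]
    ring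
  have b0 : ∀ s, (X.T s).nrm m
      (grd ε (X.ext (fun s x ω => X.chi' N δ η s (x, ω.1) * U s x ω) s)) ≤
      2 * (2 * (K * L) ^ 2 * volume.real (X.T s).table + 8 * K ^ 2 * CU ^ 2 / η ^ 2 * B) +
      2 * ((K2 / ε) ^ 2 * ∫ ω, (∫ y, X.ext (fun s x ω =>
        X.chi' N δ η s (x, ω.1) * (U s x ω - Φ s x ω)) s y ω ^ 2) ∂(nu.prod m)) := by
    intro s
    rw [e2]
    obtain ⟨C2, hC2⟩ := exists_norm_grd_le hε (f2 s).1
    obtain ⟨C3, hC3⟩ := exists_norm_grd_le hε (f3 s).1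
    refine ((X.T s).nrm_add_le m (measurable_grd ε (f2 s).1) (measurable_grd ε (f3 s).1)
      hC2 hC3).trans ?_
    have b1 := X.nrm_grd_reg m hK hΦb hΦ hL hL0 hr hδ hη hη1 hε hε' hK0 hεr s (hB s)
    have b2 := hK2 s ε hε _ (f3 s)
    linarith
  unfold nrm
  refine (Finset.sum_le_sum fun s _ => b0 s).trans ?_
  rw [Finset.sum_add_distrib, ← Finset.mul_sum, ← Finset.mul_sum, ← Finset.mul_sum,
    Finset.sum_add_distrib, ← Finset.mul_sum, Finset.sum_const, Finset.card_univ, nsmul_eq_mul]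
  have b3 : ∑ s, ∫ ω, (∫ y, X.ext (fun s x ω =>
        X.chi' N δ η s (x, ω.1) * (U s x ω - Φ s x ω)) s y ω ^ 2) ∂(nu.prod m) ≤ 16 * τ := by
    refine (X.int_ext_sq_le m (X.bdd_chi' N δ η hR)).trans ?_
    apply mul_le_mul_of_nonneg_left _ (by norm_num)
    refine le_trans ?_ hτ
    unfold nrm
    refine Finset.sum_le_sum fun s _ => ?_
    obtain ⟨C4, hC4⟩ := (hR s).2
    obtain ⟨C5, hC5⟩ := (X.bdd_chi' N δ η hR s).2
    refine (X.T s).nrm_mono m (Complex.measurable_ofReal.comp (X.bdd_chi' N δ η hR s).1)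
      (Complex.measurable_ofReal.comp (hR s).1) (C := C5) (D := C4) ?_ ?_ ?_
    · intro x ω; rw [Complex.norm_real, Real.norm_eq_abs]; exact hC5 x ω
    · intro x ω; rw [Complex.norm_real, Real.norm_eq_abs]; exact hC4 x ω
    · refine Eventually.of_forall fun p => ?_
      rw [Complex.norm_real, Complex.norm_real, Real.norm_eq_abs, Real.norm_eq_abs, abs_mul,
        abs_of_nonneg (X.chi'_nonneg _ _ _ _ _)]
      calc _ ≤ 1 * |U s p.1 p.2 - Φ s p.1 p.2| :=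
            mul_le_mul_of_nonneg_right (X.chi'_le_one _ _ _ _ _) (abs_nonneg _)
        _ = _ := one_mul _
  have b4 : (K2 / ε) ^ 2 * ∑ s, ∫ ω, (∫ y, X.ext (fun s x ω =>
        X.chi' N δ η s (x, ω.1) * (U s x ω - Φ s x ω)) s y ω ^ 2) ∂(nu.prod m) ≤
      (K2 / ε) ^ 2 * (16 * τ) := mul_le_mul_of_nonneg_left b3 (sq_nonneg _)
  unfold vol
  have e3 : 2 * (8 * K ^ 2 * CU ^ 2 / η ^ 2 * B) = 16 * K ^ 2 * CU ^ 2 / η ^ 2 * B := by ring
  linear_combination 2 * b4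

/-- the mollified cut-off function is close to the function -/
lemma nrm_app_est [Fintype S] [IsProbabilityMeasure m] {U : S → ℂ → ℂ × Ω → ℝ}
    (hU : ∀ s, Bdd (U s)) {CU : ℝ}
    (hCU : ∀ s x ω, |U s x ω| ≤ CU) {N : ℕ} {δ η ε B τ : ℝ} (hε : 0 < ε)
    (hB : ∀ s, (((volume.restrict (X.T s).table).prod nu) {p | X.chi N δ η s p < 1}).toReal ≤ B)
    (hτ : X.nrm m (fun s x ω => ((mol ε (X.ext U s) x ω - U s x ω : ℝ) : ℂ)) ≤ τ) :
    X.nrm m (fun s x ω =>
      ((mol ε (X.ext (fun s x ω => X.chi' N δ η s (x, ω.1) * U s x ω) s) x ω - U s x ω : ℝ) : ℂ)) ≤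
      32 * CU ^ 2 * (Fintype.card S * B) + 2 * τ := by
  have f1 := X.bdd_chi' N δ η hU
  have f2 : ∀ s, Bdd (fun x (ω : ℂ × Ω) => X.chi' N δ η s (x, ω.1) * U s x ω - U s x ω) :=
    fun s => (f1 s).sub (hU s)
  have g1 := X.bddSupp_ext f1
  have g2 := X.bddSupp_ext f2
  have g3 := X.bddSupp_ext hU
  have m2 := fun s => (g2 s).1.mol hε
  have m3 := fun s => ((g3 s).1.mol hε).sub (hU s)
  have e1 : ∀ s, X.ext (fun s x ω => X.chi' N δ η s (x, ω.1) * U s x ω - U s x ω) s =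
      fun x ω => X.ext (fun s x ω => X.chi' N δ η s (x, ω.1) * U s x ω) s x ω - X.ext U s x ω :=
    fun s => X.ext_sub (fun s x (ω : ℂ × Ω) => X.chi' N δ η s (x, ω.1) * U s x ω) U s
  have e2 : ∀ s, (fun x ω =>
      ((mol ε (X.ext (fun s x ω => X.chi' N δ η s (x, ω.1) * U s x ω) s) x ω - U s x ω : ℝ) : ℂ)) =
      fun x ω =>
        ((mol ε (X.ext (fun s x ω => X.chi' N δ η s (x, ω.1) * U s x ω - U s x ω) s) x ω : ℝ) : ℂ) +
        ((mol ε (X.ext U s) x ω - U s x ω : ℝ) : ℂ) := by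
    intro s
    funext x ω
    rw [e1, mol_sub hε (g1 s).1 (g3 s).1]
    push_cast
    ring
  have b0 : ∀ s, (X.T s).nrm m (fun x ω =>
      ((mol ε (X.ext (fun s x ω => X.chi' N δ η s (x, ω.1) * U s x ω) s) x ω - U s x ω : ℝ) : ℂ)) ≤
      2 * (∫ ω, (∫ y, X.ext (fun s x ω => X.chi' N δ η s (x, ω.1) * U s x ω - U s x ω) s y ω ^ 2)
        ∂(nu.prod m)) +
      2 * (X.T s).nrm m (fun x ω => ((mol ε (X.ext U s) x ω - U s x ω : ℝ) : ℂ)) := by
    intro s
    rw [e2]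
    obtain ⟨C2, hC2⟩ := (m2 s).2
    obtain ⟨C3, hC3⟩ := (m3 s).2
    refine ((X.T s).nrm_add_le m (Complex.measurable_ofReal.comp (m2 s).1)
      (Complex.measurable_ofReal.comp (m3 s).1) (C := C2) (D := C3) (fun x ω => by
        rw [Complex.norm_real, Real.norm_eq_abs]; exact hC2 x ω) (fun x ω => by
        rw [Complex.norm_real, Real.norm_eq_abs]; exact hC3 x ω)).trans ?_
    have b1 := (X.T s).nrm_mol_le m hε (g2 s)
    linarith
  unfold nrm at hτ ⊢
  refine (Finset.sum_le_sum fun s _ => b0 s).trans ?_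
  rw [Finset.sum_add_distrib, ← Finset.mul_sum, ← Finset.mul_sum]
  have b2 : ∑ s, ∫ ω, (∫ y,
      X.ext (fun s x ω => X.chi' N δ η s (x, ω.1) * U s x ω - U s x ω) s y ω ^ 2) ∂(nu.prod m) ≤
      16 * (CU ^ 2 * (Fintype.card S * B)) := by
    refine (X.int_ext_sq_le m f2).trans ?_
    apply mul_le_mul_of_nonneg_left _ (by norm_num)
    have b3 : ∀ s, (X.T s).nrm m
        (fun x ω => ((X.chi' N δ η s (x, ω.1) * U s x ω - U s x ω : ℝ) : ℂ)) ≤ CU ^ 2 * B := by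
      intro s
      refine ((X.T s).nrm_cut_le m (X.measurable_chi' N δ η s)
        (fun p => ⟨X.chi'_nonneg _ _ _ _ _, X.chi'_le_one _ _ _ _ _⟩) (hU s) (hCU s)
        (S := {p | X.chi' N δ η s p < 1})
        (measurableSet_lt (X.measurable_chi' N δ η s) measurable_const) ?_).trans ?_
      · intro p hp
        exact le_antisymm (X.chi'_le_one _ _ _ _ _) (not_lt.1 hp)
      · apply mul_le_mul_of_nonneg_left _ (sq_nonneg _)
        refine le_trans ?_ (hB s)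
        rw [measureReal_def]
        apply ENNReal.toReal_mono (measure_ne_top _ _)
        apply measure_mono_ae
        have h1 : ∀ᵐ q ∂((volume.restrict (X.T s).table).prod nu), ‖q.2‖ = 1 :=
          Measure.quasiMeasurePreserving_snd.ae ae_norm
        filter_upwards [h1] with p hp hpS
        have : X.chi' N δ η s p < 1 := hpS
        rw [show p = (p.1, p.2) from rfl, X.chi'_eq hp] at this
        exact this
    unfold nrm
    refine (Finset.sum_le_sum fun s _ => b3 s).trans (le_of_eq ?_)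
    rw [Finset.sum_const, Finset.card_univ, nsmul_eq_mul]
    ring
  linarith only [hτ, b2]

/-- from the pointwise estimate of the derivative along the motion to the norm -/
lemma nrm_Xd_est [Fintype S] [IsProbabilityMeasure m] {U V : S → ℂ → ℂ × Ω → ℝ}
    (hU : ∀ s, Bdd (U s)) (hV : ∀ s, Bdd (V s))
    {CU : ℝ} {N : ℕ} {δ η ε B : ℝ} (hδ : 0 < δ) (hε : 0 < ε)
    (hB : ∀ s, (∫ p, X.wt N δ η s p ^ 2 ∂((volume.restrict (X.T s).table).prod nu)) ≤ B)
    (h : ∀ s, ∀ᵐ ω ∂(nu.prod m), ∀ x ∈ (X.T s).table,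
      |Xd ε (X.ext (fun s x ω => X.chi' N δ η s (x, ω.1) * U s x ω) s) x ω -
        mol ε (X.ext (fun s x ω => X.chi' N δ η s (x, ω.1) * V s x ω) s) x ω| ≤
      η * CU * mol ε (X.ext (fun s x ω => X.wt N δ η s (x, ω.1)) s) x ω) :
    X.nrm m (fun s x ω => ((Xd ε (X.ext (fun s x ω => X.chi' N δ η s (x, ω.1) * U s x ω) s) x ω -
          mol ε (X.ext (fun s x ω => X.chi' N δ η s (x, ω.1) * V s x ω) s) x ω : ℝ) : ℂ)) ≤
      16 * (η * CU) ^ 2 * (Fintype.card S * B) := by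
  have w0 := X.bdd_wt (Ω := Ω) N hδ η
  have hae : ∀ᵐ ω : ℂ × Ω ∂(nu.prod m), ‖ω.1‖ = 1 :=
    Measure.quasiMeasurePreserving_fst.ae ae_norm
  have hS : MeasurableSet {ω : ℂ × Ω | ‖ω.1‖ = 1} :=
    measurableSet_eq_fun (measurable_fst.norm) measurable_const
  have tile : ∀ s, (X.T s).nrm m
      (fun x ω => ((Xd ε (X.ext (fun s x ω => X.chi' N δ η s (x, ω.1) * U s x ω) s) x ω -
          mol ε (X.ext (fun s x ω => X.chi' N δ η s (x, ω.1) * V s x ω) s) x ω : ℝ) : ℂ)) ≤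
      (η * CU) ^ 2 * ∫ ω, (∫ y, X.ext (fun s x ω => X.wt N δ η s (x, ω.1)) s y ω ^ 2)
        ∂(nu.prod m) := by
    intro s
    set f := X.ext (fun s x (ω : ℂ × Ω) => X.chi' N δ η s (x, ω.1) * U s x ω) s with hf
    set g := X.ext (fun s x (ω : ℂ × Ω) => X.chi' N δ η s (x, ω.1) * V s x ω) s with hg
    set w := X.ext (fun s x (ω : ℂ × Ω) => X.wt N δ η s (x, ω.1)) s with hw
    have f1 : BddSupp f := X.bddSupp_ext (X.bdd_chi' N δ η hU) s
    have g1 : BddSupp g := X.bddSupp_ext (X.bdd_chi' N δ η hV) s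
    have w1 : BddSupp w := X.bddSupp_ext w0 s
    obtain ⟨C1, hC1⟩ := exists_norm_grd_le hε f1.1
    obtain ⟨C2, hC2⟩ := (g1.1.mol hε).2
    obtain ⟨C3, hC3⟩ := (w1.1.mol hε).2
    set F : ℂ → ℂ × Ω → ℂ := fun x ω => ((Xd ε f x ω - mol ε g x ω : ℝ) : ℂ) with hF
    set F' : ℂ → ℂ × Ω → ℂ := fun x ω => {ω : ℂ × Ω | ‖ω.1‖ = 1}.indicator (F x) ω with hF'
    have e1 : (X.T s).nrm m F = (X.T s).nrm m F' := by
      unfold Triangle.nrm
      congr 1
      funext x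
      apply integral_congr_ae
      filter_upwards [hae] with ω hω
      rw [hF']
      simp only
      rw [indicator_of_mem (by exact hω)]
    have hFm : Measurable fun p : ℂ × (ℂ × Ω) => F p.1 p.2 := by
      rw [hF]
      apply Complex.measurable_ofReal.comp
      apply Measurable.sub _ (g1.1.mol hε).1
      unfold Xd
      exact (Complex.measurable_re.comp ((measurable_fst.comp measurable_snd).mul
        (measurable_grd ε f1.1))).const_mul 2
    have hFm' : Measurable fun p : ℂ × (ℂ × Ω) => F' p.1 p.2 := by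
      have : (fun p : ℂ × (ℂ × Ω) => F' p.1 p.2) =
          (Prod.snd ⁻¹' {ω : ℂ × Ω | ‖ω.1‖ = 1}).indicator
            (fun p : ℂ × (ℂ × Ω) => F p.1 p.2) := by
        funext p
        simp only [hF', indicator, mem_preimage]
      rw [this]
      exact hFm.indicator (measurable_snd hS)
    have e2 : (X.T s).nrm m F' ≤
        (X.T s).nrm m (fun x ω => ((η * CU : ℝ) : ℂ) * ((mol ε w x ω : ℝ) : ℂ)) := by
      refine (X.T s).nrm_mono m hFm' (measurable_const.mul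
        (Complex.measurable_ofReal.comp (w1.1.mol hε).1)) (C := 2 * |C1| + |C2|)
        (D := |η * CU| * |C3|) ?_ ?_ ?_
      · intro x ω
        by_cases hω : ‖ω.1‖ = 1
        · simp only [hF']
          rw [indicator_of_mem (by exact hω)]
          simp only [hF]
          rw [Complex.norm_real, Real.norm_eq_abs]
          refine (abs_sub _ _).trans ?_
          apply add_le_add
          · unfold Xd
            rw [abs_mul, abs_two]
            apply mul_le_mul_of_nonneg_left _ (by norm_num)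
            refine (Complex.abs_re_le_norm _).trans ?_
            rw [norm_mul, hω, one_mul]
            exact (hC1 x ω).trans (le_abs_self _)
          · exact (hC2 x ω).trans (le_abs_self _)
        · simp only [hF']
          rw [indicator_of_notMem (by exact hω), norm_zero]
          (clear * -; positivity)
      · intro x ω
        rw [norm_mul, Complex.norm_real, Complex.norm_real, Real.norm_eq_abs, Real.norm_eq_abs]
        apply mul_le_mul_of_nonneg_left _ (abs_nonneg _)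
        exact (hC3 x ω).trans (le_abs_self _)
      · have h2 : ∀ᵐ p ∂((X.T s).muT m), ∀ x ∈ (X.T s).table,
            |Xd ε f x p.2 - mol ε g x p.2| ≤ η * CU * mol ε w x p.2 := by
          unfold Triangle.muT
          exact Measure.quasiMeasurePreserving_snd.ae (h s)
        filter_upwards [h2, (X.T s).ae_muT_table m, (X.T s).ae_muT_norm m] with p hp hp2 hp3
        simp only [hF']
        rw [indicator_of_mem (by exact hp3)]
        simp only [hF]
        rw [Complex.norm_real, Real.norm_eq_abs, ← Complex.ofReal_mul, Complex.norm_real,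
          Real.norm_eq_abs]
        exact (hp p.1 hp2).trans (le_abs_self _)
    rw [e1]
    refine e2.trans ?_
    rw [(X.T s).nrm_const_mul m, Complex.norm_real, Real.norm_eq_abs, sq_abs]
    exact mul_le_mul_of_nonneg_left ((X.T s).nrm_mol_le m hε w1) (sq_nonneg _)
  unfold nrm
  refine (Finset.sum_le_sum fun s _ => tile s).trans ?_
  rw [← Finset.mul_sum]
  have e3 : ∑ s, ∫ ω, (∫ y, X.ext (fun s x ω => X.wt N δ η s (x, ω.1)) s y ω ^ 2)
        ∂(nu.prod m) ≤ 16 * (Fintype.card S * B) := by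
    refine (X.int_ext_sq_le m w0).trans ?_
    apply mul_le_mul_of_nonneg_left _ (by norm_num)
    unfold nrm
    refine (Finset.sum_le_sum fun s _ => X.nrm_wt_le m N hδ η s (hB s)).trans (le_of_eq ?_)
    rw [Finset.sum_const, Finset.card_univ, nsmul_eq_mul]
  calc _ ≤ (η * CU) ^ 2 * (16 * (Fintype.card S * B)) :=
        mul_le_mul_of_nonneg_left e3 (sq_nonneg _)
    _ = _ := by ring

end Cx

end Vale.Agent.P099
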