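import Vale.Agent.P099.H504.Cx.C5

set_option linter.all false

open MeasureTheory Set Filter Topology

namespace Vale.Agent.P099

variable {Ω : Type} [MeasurableSpace Ω]

namespace Cx

variable {S : Type} (X : Cx S)

/-- invariance of `H` under (flow) x (`Ψ`), for free flights inside a tile -/
def FreeInv (m : Measure Ω) (Ψ : ℝ → Ω → Ω) (H : S → ℂ → ℂ × Ω → ℝ) : Prop :=
  ∀ s, ∀ t : ℝ, 0 < t → ∀ᵐ p ∂((volume.restrict (X.T s).table).prod (nu.prod m)),
    p.1 + t • p.2.1 ∈ (X.T s).table → H s (p.1 + t • p.2.1) (p.2.1, Ψ t p.2.2) = H s p.1 p.2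

/-- invariance of `H` under (flow) x (`Ψ`), for motions which cross one side -/
def BounceInv (m : Measure Ω) (Ψ : ℝ → Ω → Ω) (H : S → ℂ → ℂ × Ω → ℝ) : Prop :=
  ∀ s, ∀ t : ℝ, 0 < t → ∀ i, ∀ᵐ p ∂((volume.restrict (X.T s).table).prod (nu.prod m)),
    (X.T s).E i (p.1, p.2.1) → (X.T s).hitT i (p.1, p.2.1) < t →
      X.R s i (p.1 + t • p.2.1) ∈ (X.T (X.σ s i)).table →
      H (X.σ s i) (X.R s i (p.1 + t • p.2.1)) (X.D s i p.2.1, Ψ t p.2.2) = H s p.1 p.2

/-- `V` is the derivative of `U` along free flights -/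
def FreeDer (m : Measure Ω) (U V : S → ℂ → ℂ × Ω → ℝ) : Prop :=
  ∀ s, ∀ t : ℝ, 0 < t → ∀ᵐ p ∂((volume.restrict (X.T s).table).prod (nu.prod m)),
    p.1 + t • p.2.1 ∈ (X.T s).table →
      U s (p.1 + t • p.2.1) p.2 - U s p.1 p.2 = ∫ r in (0:ℝ)..t, V s (p.1 + r • p.2.1) p.2

/-- `V` is the derivative of `U` along motions which cross one side -/
def BounceDer (m : Measure Ω) (U V : S → ℂ → ℂ × Ω → ℝ) : Prop :=
  ∀ s, ∀ t : ℝ, 0 < t → ∀ i, ∀ᵐ p ∂((volume.restrict (X.T s).table).prod (nu.prod m)),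
    (X.T s).E i (p.1, p.2.1) → (X.T s).hitT i (p.1, p.2.1) < t →
      X.R s i (p.1 + t • p.2.1) ∈ (X.T (X.σ s i)).table →
      U (X.σ s i) (X.R s i (p.1 + t • p.2.1)) (X.D s i p.2.1, p.2.2) - U s p.1 p.2 =
        (∫ r in (0:ℝ)..((X.T s).hitT i (p.1, p.2.1)), V s (p.1 + r • p.2.1) p.2) +
        ∫ r in ((X.T s).hitT i (p.1, p.2.1))..t,
          V (X.σ s i) (X.R s i (p.1 + r • p.2.1)) (X.D s i p.2.1, p.2.2)

/-- invariance, in the form adapted to the time averages -/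
lemma freeInv_shift {m : Measure Ω} [IsProbabilityMeasure m] {Ψ : ℝ → Ω → Ω} (hΨ : PFlow m Ψ)
    {H : S → ℂ → ℂ × Ω → ℝ} (hF : X.FreeInv m Ψ H) (s : S) {t : ℝ} (ht : 0 < t) (r : ℝ) :
    ∀ᵐ p ∂((volume.restrict (X.T s).table).prod (nu.prod m)),
      p.1 + t • p.2.1 ∈ (X.T s).table →
        H s (p.1 + t • p.2.1) (p.2.1, Ψ r p.2.2) = H s p.1 (p.2.1, Ψ (r - t) p.2.2) := by
  have h1 := ae_param (hΨ.mp (r - t)) (hF s t ht)
  have h2 : ∀ᵐ q ∂m, Ψ r q = Ψ t (Ψ (r - t) q) := by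
    have := hΨ.add t (r - t)
    simpa using this
  filter_upwards [h1, ae_of_param (T := X.T s) h2] with p hp hq hmem
  rw [hq]
  exact hp hmem

lemma bounceInv_shift {m : Measure Ω} [IsProbabilityMeasure m] {Ψ : ℝ → Ω → Ω} (hΨ : PFlow m Ψ)
    {H : S → ℂ → ℂ × Ω → ℝ} (hB : X.BounceInv m Ψ H) (s : S) {t : ℝ} (ht : 0 < t) (i : Fin 3)
    (r : ℝ) :
    ∀ᵐ p ∂((volume.restrict (X.T s).table).prod (nu.prod m)),
      (X.T s).E i (p.1, p.2.1) → (X.T s).hitT i (p.1, p.2.1) < t →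
        X.R s i (p.1 + t • p.2.1) ∈ (X.T (X.σ s i)).table →
        H (X.σ s i) (X.R s i (p.1 + t • p.2.1)) (X.D s i p.2.1, Ψ r p.2.2) =
          H s p.1 (p.2.1, Ψ (r - t) p.2.2) := by
  have h1 := ae_param (hΨ.mp (r - t)) (hB s t ht i)
  have h2 : ∀ᵐ q ∂m, Ψ r q = Ψ t (Ψ (r - t) q) := by
    have := hΨ.add t (r - t)
    simpa using this
  filter_upwards [h1, ae_of_param (T := X.T s) h2] with p hp hq hE hlt hmem
  rw [hq]
  exact hp hE hlt hmem

/-- the common computation for free flights and crossings -/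
lemma der_common {m : Measure Ω} {Ψ : ℝ → Ω → Ω} (hΨ : PFlow m Ψ)
    {H : S → ℂ → ℂ × Ω → ℝ} (hH : ∀ s, Bdd (H s)) {τ t : ℝ} (ht : 0 < t)
    {s s' : S} {x u y v : ℂ} {q : Ω}
    {W : ℝ → S} {Z : ℝ → ℂ × ℂ}
    (h1 : ∀ᵐ r : ℝ, H s' y (v, Ψ r q) = H s x (u, Ψ (r - t) q))
    (h2 : ∀ᵐ r : ℝ, r ∈ Ioo 0 t → H (W r) (Z r).1 ((Z r).2, q) = H s x (u, Ψ (- r) q))
    (h3 : ∀ᵐ r : ℝ, r ∈ Ioo 0 t → H (W r) (Z r).1 ((Z r).2, Ψ τ q) = H s x (u, Ψ (τ - r) q)) :
    Uav Ψ τ (H s') y (v, q) - Uav Ψ τ (H s) x (u, q) =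
      ∫ r in (0:ℝ)..t, Vav Ψ τ (H (W r)) (Z r).1 ((Z r).2, q) := by
  obtain ⟨C, hC⟩ := (hH s).2
  set h : ℝ → ℝ := fun r => H s x (u, Ψ r q) with hh
  have hm : Measurable h := by
    have h0 : Measurable (fun r : ℝ => (((x, (u, q)), r) : (ℂ × (ℂ × Ω)) × ℝ)) := by fun_prop
    exact (bdd_meas_comp hΨ (hH s)).comp h0
  have hb : ∀ r, |h r| ≤ C := fun r => hC _ _
  have hi : ∀ a b : ℝ, IntervalIntegrable h volume a b := Triangle.locInt_of_bdd hm hb
  have e1 : Uav Ψ τ (H s') y (v, q) = τ⁻¹ * ∫ r in (0:ℝ)..τ, h (r - t) := by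
    simp only [Uav]
    congr 1
    apply intervalIntegral.integral_congr_ae
    filter_upwards [h1] with r hr _
    exact hr
  have e2 : Uav Ψ τ (H s) x (u, q) = τ⁻¹ * ∫ r in (0:ℝ)..τ, h r := rfl
  have e3 : ∫ r in (0:ℝ)..t, Vav Ψ τ (H (W r)) (Z r).1 ((Z r).2, q) =
      τ⁻¹ * ∫ r in (0:ℝ)..t, (h (- r) - h (τ - r)) := by
    rw [← intervalIntegral.integral_const_mul]
    apply intervalIntegral.integral_congr_ae
    have h4 : ∀ᵐ r : ℝ, r ≠ t := by
      rw [ae_iff]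
      simp
    filter_upwards [h2, h3, h4] with r hs2 hs3 hs4 hs
    rw [uIoc_of_le ht.le] at hs
    have hs' : r ∈ Ioo 0 t := ⟨hs.1, lt_of_le_of_ne hs.2 hs4⟩
    simp only [Vav, hh]
    rw [hs2 hs', hs3 hs']
  rw [e1, e2, e3, ← real_identity hi τ t]
  ring

lemma freeDer_av {m : Measure Ω} [IsProbabilityMeasure m] {Ψ : ℝ → Ω → Ω} (hΨ : PFlow m Ψ)
    {H : S → ℂ → ℂ × Ω → ℝ} (hH : ∀ s, Bdd (H s)) (hF : X.FreeInv m Ψ H) {τ : ℝ} :
    X.FreeDer m (fun s => Uav Ψ τ (H s)) (fun s => Vav Ψ τ (H s)) := by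
  intro s
  have hF' : (X.T s).FreeInv m Ψ (H s) := hF s
  exact (X.T s).freeDer_av hΨ (hH s) hF'

/-- after the crossing the path stays in the next tile -/
lemma bounce_seg {s : S} {x u : ℂ} {i : Fin 3} {t r : ℝ} (hE : (X.T s).E i (x, u))
    (hs : (X.T s).hitT i (x, u) < r)
    (hst : r ≤ t) (hmem : X.R s i (x + t • u) ∈ (X.T (X.σ s i)).table) :
    X.R s i (x + r • u) ∈ (X.T (X.σ s i)).table := by
  set a := (X.T s).hitT i (x, u) with ha
  have h1 : (X.T s).lam i (x + a • u) = 0 := ((X.T s).lam_hit i hE :)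
  have h2 : X.R s i (x + a • u) = x + a • u := X.R_of_lam_eq_zero h1
  have hat : 0 < t - a := by linarith
  set c := (r - a) / (t - a) with hc
  have hc0 : 0 < c := div_pos (by linarith only [hs]) hat
  have hc1 : c ≤ 1 := (div_le_one hat).mpr (by linarith only [hst])
  set T' := X.T (X.σ s i) with hT'
  have h3 : X.R s i (x + r • u) = (1 - c) • (x + a • u) + c • X.R s i (x + t • u) := by
    have e1 : x + r • u = x + a • u + (r - a) • u := by
      rw [sub_smul]; ring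
    have e2 : x + t • u = x + a • u + (t - a) • u := by
      rw [sub_smul]; ring
    rw [e1, e2, X.R_add_smul s i (x + a • u), X.R_add_smul s i (x + a • u), h2]
    have e3 : c * (t - a) = r - a := div_mul_cancel₀ _ hat.ne'
    rw [smul_add c, smul_smul c, e3, sub_smul 1 c, one_smul]
    abel
  rw [T'.mem_table_iff] at hmem ⊢
  intro j
  have hl : T'.lam j (X.R s i (x + r • u)) =
      (1 - c) * T'.lam j (x + a • u) + c * T'.lam j (X.R s i (x + t • u)) := by
    rw [h3]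
    have e4 : (1 - c) • (x + a • u) + c • X.R s i (x + t • u) =
        (x + a • u) + c • (X.R s i (x + t • u) - (x + a • u)) := by
      rw [sub_smul, one_smul, smul_sub]; abel
    have e5 : X.R s i (x + t • u) = (x + a • u) + (X.R s i (x + t • u) - (x + a • u)) := by abel
    have e6 : T'.lam j (X.R s i (x + t • u)) = T'.lam j (x + a • u) +
        T'.ell j (X.R s i (x + t • u) - (x + a • u)) := by
      rw [← T'.lam_add, ← e5]
    rw [e4, T'.lam_add_smul, e6]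
    ring
  rw [hl]
  have hnn : 0 ≤ T'.lam j (x + a • u) := by
    by_cases hj : j = i
    · have := X.lam_R s i (x + a • u)
      rw [h2, h1, mul_zero] at this
      rw [hj, this]
    · have := X.lam_R_of_zero hj h1
      rw [h2] at this
      rw [this]
      exact (hE.2 j hj).le
  have := hmem j
  have h6 : 0 ≤ (1 - c) * T'.lam j (x + a • u) := mul_nonneg (by linarith only [hc1]) hnn
  have h7 : 0 < c * T'.lam j (X.R s i (x + t • u)) := mul_pos hc0 this
  linarith only [h6, h7]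

open Classical in
lemma bounceDer_av {m : Measure Ω} [IsProbabilityMeasure m] {Ψ : ℝ → Ω → Ω} (hΨ : PFlow m Ψ)
    {H : S → ℂ → ℂ × Ω → ℝ} (hH : ∀ s, Bdd (H s)) (hF : X.FreeInv m Ψ H)
    (hB : X.BounceInv m Ψ H) {τ : ℝ} (hτ : 0 < τ) :
    X.BounceDer m (fun s => Uav Ψ τ (H s)) (fun s => Vav Ψ τ (H s)) := by
  intro s t ht i
  set T := X.T s with hT
  have mE : MeasurableSet {z : (ℂ × (ℂ × Ω)) × ℝ | T.E i (z.1.1, z.1.2.1)} := by
    exact (T.wm_measurableSet_E i).preimage (by fun_prop)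
  have mh : Measurable (fun z : (ℂ × (ℂ × Ω)) × ℝ => T.hitT i (z.1.1, z.1.2.1)) :=
    (T.wm_measurable_hitT i).comp (by fun_prop)
  have mR : ∀ g : (ℂ × (ℂ × Ω)) × ℝ → ℂ, Measurable g → Measurable (fun z => X.R s i (g z)) :=
    fun g hg => (X.continuous_R s i).measurable.comp hg
  have mr : Measurable (fun z : (ℂ × (ℂ × Ω)) × ℝ => X.D s i z.1.2.1) :=
    (X.continuous_D s i).measurable.comp (by fun_prop)
  have oT' := (X.T (X.σ s i)).isOpen_table
  -- first relation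
  have a1 : ∀ᵐ p ∂((volume.restrict T.table).prod (nu.prod m)), ∀ᵐ r : ℝ,
      (T.E i (p.1, p.2.1) ∧ T.hitT i (p.1, p.2.1) < t ∧
        X.R s i (p.1 + t • p.2.1) ∈ (X.T (X.σ s i)).table) →
        H (X.σ s i) (X.R s i (p.1 + t • p.2.1)) (X.D s i p.2.1, Ψ r p.2.2) =
          H s p.1 (p.2.1, Ψ (r - t) p.2.2) := by
    refine Triangle.ae_ae_time T (B := {z | T.E i (z.1.1, z.1.2.1) ∧
        T.hitT i (z.1.1, z.1.2.1) < t ∧
        X.R s i (z.1.1 + t • z.1.2.1) ∈ (X.T (X.σ s i)).table})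
      (f := fun z => H (X.σ s i) (X.R s i (z.1.1 + t • z.1.2.1)) (X.D s i z.1.2.1, Ψ z.2 z.1.2.2))
      (g := fun z => H s z.1.1 (z.1.2.1, Ψ (z.2 - t) z.1.2.2)) ?_ ?_ ?_ ?_
    · refine mE.inter ((measurableSet_lt mh measurable_const).inter ?_)
      exact oT'.measurableSet.preimage (mR _ (by (clear * -; fun_prop)))
    · have h0 : Measurable (fun z : (ℂ × (ℂ × Ω)) × ℝ =>
        (((X.R s i (z.1.1 + t • z.1.2.1), (X.D s i z.1.2.1, z.1.2.2)), z.2) :
          (ℂ × (ℂ × Ω)) × ℝ)) := by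
        refine Measurable.prodMk (Measurable.prodMk (mR _ (by fun_prop))
          (Measurable.prodMk mr (by fun_prop))) (by fun_prop)
      exact (bdd_meas_comp hΨ (hH _)).comp h0
    · have h0 : Measurable (fun z : (ℂ × (ℂ × Ω)) × ℝ =>
        (((z.1.1, (z.1.2.1, z.1.2.2)), z.2 - t) : (ℂ × (ℂ × Ω)) × ℝ)) := by fun_prop
      exact (bdd_meas_comp hΨ (hH _)).comp h0
    · intro r
      filter_upwards [X.bounceInv_shift hΨ hB s ht i r] with p hp hmem
      exact hp hmem.1 hmem.2.1 hmem.2.2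
  have a2 : ∀ c : ℝ, ∀ᵐ p ∂((volume.restrict T.table).prod (nu.prod m)), ∀ᵐ r : ℝ,
      (0 < r ∧ p.1 + r • p.2.1 ∈ T.table) →
        H s (p.1 + r • p.2.1) (p.2.1, Ψ c p.2.2) = H s p.1 (p.2.1, Ψ (c - r) p.2.2) := by
    intro c
    refine Triangle.ae_ae_time T (B := {z | 0 < z.2 ∧ z.1.1 + z.2 • z.1.2.1 ∈ T.table})
      (f := fun z => H s (z.1.1 + z.2 • z.1.2.1) (z.1.2.1, Ψ c z.1.2.2))
      (g := fun z => H s z.1.1 (z.1.2.1, Ψ (c - z.2) z.1.2.2)) ?_ ?_ ?_ ?_
    · refine (measurableSet_lt measurable_const measurable_snd).inter ?_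
      exact T.isOpen_table.measurableSet.preimage (by fun_prop)
    · have h0 : Measurable (fun z : (ℂ × (ℂ × Ω)) × ℝ =>
        (((z.1.1 + z.2 • z.1.2.1, (z.1.2.1, z.1.2.2)), c) : (ℂ × (ℂ × Ω)) × ℝ)) := by fun_prop
      exact (bdd_meas_comp hΨ (hH _)).comp h0
    · have h0 : Measurable (fun z : (ℂ × (ℂ × Ω)) × ℝ =>
        (((z.1.1, (z.1.2.1, z.1.2.2)), c - z.2) : (ℂ × (ℂ × Ω)) × ℝ)) := by fun_prop
      exact (bdd_meas_comp hΨ (hH _)).comp h0
    · intro r
      by_cases hs : 0 < r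
      · filter_upwards [X.freeInv_shift hΨ hF s hs c] with p hp hmem
        exact hp hmem.2
      · refine Filter.Eventually.of_forall (fun p hmem => ?_)
        exact absurd hmem.1 hs
  have a3 : ∀ c : ℝ, ∀ᵐ p ∂((volume.restrict T.table).prod (nu.prod m)), ∀ᵐ r : ℝ,
      (0 < r ∧ T.E i (p.1, p.2.1) ∧ T.hitT i (p.1, p.2.1) < r ∧
        X.R s i (p.1 + r • p.2.1) ∈ (X.T (X.σ s i)).table) →
        H (X.σ s i) (X.R s i (p.1 + r • p.2.1)) (X.D s i p.2.1, Ψ c p.2.2) =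
          H s p.1 (p.2.1, Ψ (c - r) p.2.2) := by
    intro c
    refine Triangle.ae_ae_time T (B := {z | 0 < z.2 ∧ T.E i (z.1.1, z.1.2.1) ∧
        T.hitT i (z.1.1, z.1.2.1) < z.2 ∧
        X.R s i (z.1.1 + z.2 • z.1.2.1) ∈ (X.T (X.σ s i)).table})
      (f := fun z => H (X.σ s i) (X.R s i (z.1.1 + z.2 • z.1.2.1))
        (X.D s i z.1.2.1, Ψ c z.1.2.2))
      (g := fun z => H s z.1.1 (z.1.2.1, Ψ (c - z.2) z.1.2.2)) ?_ ?_ ?_ ?_
    · refine (measurableSet_lt measurable_const measurable_snd).inter (mE.inter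
        ((measurableSet_lt mh measurable_snd).inter ?_))
      exact oT'.measurableSet.preimage (mR _ (by fun_prop))
    · have h0 : Measurable (fun z : (ℂ × (ℂ × Ω)) × ℝ =>
        (((X.R s i (z.1.1 + z.2 • z.1.2.1), (X.D s i z.1.2.1, z.1.2.2)), c) :
          (ℂ × (ℂ × Ω)) × ℝ)) := by
        refine Measurable.prodMk (Measurable.prodMk (mR _ (by fun_prop))
          (Measurable.prodMk mr (by fun_prop))) (by fun_prop)
      exact (bdd_meas_comp hΨ (hH _)).comp h0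
    · have h0 : Measurable (fun z : (ℂ × (ℂ × Ω)) × ℝ =>
        (((z.1.1, (z.1.2.1, z.1.2.2)), c - z.2) : (ℂ × (ℂ × Ω)) × ℝ)) := by fun_prop
      exact (bdd_meas_comp hΨ (hH _)).comp h0
    · intro r
      by_cases hs : 0 < r
      · filter_upwards [X.bounceInv_shift hΨ hB s hs i c] with p hp hmem
        exact hp hmem.2.1 hmem.2.2.1 hmem.2.2.2
      · refine Filter.Eventually.of_forall (fun p hmem => ?_)
        exact absurd hmem.1 hs
  have hin : ∀ᵐ p ∂((volume.restrict T.table).prod (nu.prod m)), p.1 ∈ T.table :=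
    Measure.quasiMeasurePreserving_fst.ae (ae_restrict_mem T.isOpen_table.measurableSet)
  filter_upwards [a1, a2 0, a2 τ, a3 0, a3 τ, ae_of_param (T := T) hΨ.zero, hin] with
    p h1 h2 h3 h2' h3' h4 h5 hE hlt hmem
  set a := T.hitT i (p.1, p.2.1) with ha
  have ha0 : 0 < a := Triangle.E.hitT_pos T (T.adm_of_mem_table h5) hE
  have hseg : ∀ r : ℝ, 0 < r → r < a → p.1 + r • p.2.1 ∈ T.table := fun r hs hsa =>
    Triangle.E.mem_table T (T.adm_of_mem_table h5) hE hs hsa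
  have hseg' : ∀ r : ℝ, a < r → r ≤ t → X.R s i (p.1 + r • p.2.1) ∈ (X.T (X.σ s i)).table :=
    fun r hs hst => X.bounce_seg hE hs hst hmem
  set Z : ℝ → ℂ × ℂ := fun r => if r < a then (p.1 + r • p.2.1, p.2.1) else
    (X.R s i (p.1 + r • p.2.1), X.D s i p.2.1) with hZ
  set W : ℝ → S := fun r => if r < a then s else X.σ s i with hW
  have hna : ∀ᵐ r : ℝ, r ≠ a := by
    rw [ae_iff]
    simp
  have key := der_common (τ := τ) hΨ hH ht (W := W) (Z := Z) (s := s) (s' := X.σ s i)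
    (x := p.1) (u := p.2.1) (q := p.2.2)
    (y := X.R s i (p.1 + t • p.2.1)) (v := X.D s i p.2.1) ?_ ?_ ?_
  · have hbV := fun s => bdd_Vav hΨ (hH s) hτ
    have mv1 : Measurable (fun r : ℝ => Vav Ψ τ (H s) (p.1 + r • p.2.1) (p.2.1, p.2.2)) := by
      have h0 : Measurable (fun r : ℝ => (((p.1 + r • p.2.1), (p.2.1, p.2.2)) : ℂ × (ℂ × Ω))) := by
        fun_prop
      exact (hbV s).1.comp h0
    have mv2 : Measurable (fun r : ℝ => Vav Ψ τ (H (X.σ s i)) (X.R s i (p.1 + r • p.2.1))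
        (X.D s i p.2.1, p.2.2)) := by
      have h0 : Measurable (fun r : ℝ =>
          ((X.R s i (p.1 + r • p.2.1), (X.D s i p.2.1, p.2.2)) : ℂ × (ℂ × Ω))) := by
        refine Measurable.prodMk ((X.continuous_R s i).measurable.comp (by fun_prop))
          measurable_const
      exact (hbV _).1.comp h0
    have mZ : Measurable (fun r => Vav Ψ τ (H (W r)) (Z r).1 ((Z r).2, p.2.2)) := by
      have : (fun r => Vav Ψ τ (H (W r)) (Z r).1 ((Z r).2, p.2.2)) = fun r =>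
          if r < a then Vav Ψ τ (H s) (p.1 + r • p.2.1) (p.2.1, p.2.2) else
            Vav Ψ τ (H (X.σ s i)) (X.R s i (p.1 + r • p.2.1)) (X.D s i p.2.1, p.2.2) := by
        funext r
        by_cases h : r < a
        · simp only [hZ, hW, h, if_true]
        · simp only [hZ, hW, h, if_false]
      rw [this]
      exact Measurable.ite (measurableSet_lt measurable_id measurable_const) mv1 mv2
    obtain ⟨C1, hC1⟩ := (hbV s).2
    obtain ⟨C2, hC2⟩ := (hbV (X.σ s i)).2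
    have hi : ∀ a b : ℝ, IntervalIntegrable (fun r => Vav Ψ τ (H (W r)) (Z r).1 ((Z r).2, p.2.2))
        volume a b := Triangle.locInt_of_bdd mZ (C := max C1 C2) (fun r => by
          by_cases h : r < a
          · simp only [hW, h, if_true]
            exact (hC1 _ _).trans (le_max_left _ _)
          · simp only [hW, h, if_false]
            exact (hC2 _ _).trans (le_max_right _ _))
    rw [key, ← intervalIntegral.integral_add_adjacent_intervals (hi 0 a) (hi a t)]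
    congr 1
    · apply intervalIntegral.integral_congr_ae
      filter_upwards [hna] with r hs1 hs
      rw [uIoc_of_le ha0.le] at hs
      have : r < a := lt_of_le_of_ne hs.2 hs1
      simp only [hZ, hW, this, if_true]
    · apply intervalIntegral.integral_congr_ae
      refine Filter.Eventually.of_forall (fun r hs => ?_)
      rw [uIoc_of_le hlt.le] at hs
      have : ¬ r < a := not_lt.mpr hs.1.le
      simp only [hZ, hW, this, if_false]
  · filter_upwards [h1] with r hs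
    exact hs ⟨hE, hlt, hmem⟩
  · filter_upwards [h2, h2', hna] with r hs hs2 hsa hs'
    by_cases hlt' : r < a
    · simp only [hZ, hW, hlt', if_true]
      have := hs ⟨hs'.1, hseg r hs'.1 hlt'⟩
      rw [h4, zero_sub] at this
      exact this
    · simp only [hZ, hW, hlt', if_false]
      have hgt : a < r := lt_of_le_of_ne (not_lt.mp hlt') (Ne.symm hsa)
      have := hs2 ⟨hs'.1, hE, hgt, hseg' r hgt hs'.2.le⟩
      rw [h4, zero_sub] at this
      exact this
  · filter_upwards [h3, h3', hna] with r hs hs2 hsa hs'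
    by_cases hlt' : r < a
    · simp only [hZ, hW, hlt', if_true]
      exact hs ⟨hs'.1, hseg r hs'.1 hlt'⟩
    · simp only [hZ, hW, hlt', if_false]
      have hgt : a < r := lt_of_le_of_ne (not_lt.mp hlt') (Ne.symm hsa)
      exact hs2 ⟨hs'.1, hE, hgt, hseg' r hgt hs'.2.le⟩

end Cx

end Vale.Agent.P099
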