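import Vale.Agent.P099.H504.Cx.C6

set_option linter.all false

open MeasureTheory Set Filter Topology

namespace Vale.Agent.P099

variable {Ω : Type} [MeasurableSpace Ω]

namespace Cx

variable {S : Type} (X : Cx S) (m : Measure Ω)

/-- properties of a cut-off function which are used in the estimates -/
structure IsCut (η σ r0 : ℝ) (χ M : S → ℂ × ℂ → ℝ) : Prop where
  meas : ∀ s, Measurable (χ s)
  measM : ∀ s, Measurable (M s)
  nonneg : ∀ s p, 0 ≤ χ s p
  le_one : ∀ s p, χ s p ≤ 1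
  nonnegM : ∀ s p, 0 ≤ M s p
  bddM : ∃ C, ∀ s p, M s p ≤ C
  lip : ∀ s, ∀ x ∈ (X.T s).table, ∀ y ∈ (X.T s).table, ∀ u, ‖u‖ = 1 → an η u (y - x) ≤ σ →
    |χ s (y, u) - χ s (x, u)| ≤ an η u (y - x) * M s (x, u)
  cross : ∀ s i, ∀ x ∈ (X.T s).table, ∀ y ∈ (X.T (X.σ s i)).table, ∀ u, ‖u‖ = 1 →
    (X.T s).Cross i x (X.R (X.σ s i) i y) →
    an η u (X.R (X.σ s i) i y - x) ≤ σ →
    |χ (X.σ s i) (y, X.D s i u) - χ s (x, u)| ≤ an η u (X.R (X.σ s i) i y - x) * M s (x, u)
  near : ∀ s k, ∀ x ∈ (X.T s).table, ‖x - (X.T s).P k‖ < r0 → ∀ u, χ s (x, u) = 0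

/-! ### almost everywhere statements -/

lemma measurePreserving_cross_prod [SFinite m] (s : S) (i : Fin 3) :
    MeasurePreserving (fun p : ℂ × (ℂ × Ω) => (X.R s i p.1, (X.D s i p.2.1, p.2.2)))
      ((volume : Measure ℂ).prod (nu.prod m)) ((volume : Measure ℂ).prod (nu.prod m)) :=
  (X.measurePreserving_R s i).prod ((X.measurePreserving_D s i).prod (MeasurePreserving.id m))

lemma ae_reflect [SFinite m] (s : S) (i : Fin 3) {P : ℂ × (ℂ × Ω) → Prop}
    (h : ∀ᵐ p ∂((volume : Measure ℂ).prod (nu.prod m)), P p) :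
    ∀ᵐ p ∂((volume : Measure ℂ).prod (nu.prod m)), P (X.R s i p.1, (X.D s i p.2.1, p.2.2)) :=
  (X.measurePreserving_cross_prod m s i).quasiMeasurePreserving.ae h

/-! ### the extension along short straight segments -/

variable {X} {m}

lemma LocAt.ext_mul {f g : S → ℂ → ℂ × Ω → ℝ} {s : S} {i : Fin 3} {y : ℂ} (h : X.LocAt s i y)
    (ω : ℂ × Ω) :
    X.ext (fun s x ω => f s x ω * g s x ω) s y ω = X.ext f s y ω * X.ext g s y ω := by
  rcases lt_trichotomy ((X.T s).lam i y) 0 with h0 | h0 | h0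
  · rw [h.ext_of_neg h0, h.ext_of_neg h0, h.ext_of_neg h0]
  · rw [h.ext_of_zero h0, h.ext_of_zero h0, zero_mul]
  · rw [ext_of_pos (h.mem_table h0), ext_of_pos (h.mem_table h0), ext_of_pos (h.mem_table h0)]

/-- crossing from inside to outside: all the facts -/
lemma cross_facts {s : S} {i : Fin 3} {y u : ℂ} {t : ℝ} (ht : 0 < t)
    (hloc : ∀ r ∈ Icc (0:ℝ) t, X.LocAt s i (y + r • u)) (h0 : 0 < (X.T s).lam i y)
    (h1 : (X.T s).lam i (y + t • u) < 0) :
    (X.T s).ell i u < 0 ∧ 0 < (X.T s).hitT i (y, u) ∧ (X.T s).hitT i (y, u) < t ∧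
      (X.T s).E i (y, u) := by
  have he : (X.T s).ell i u < 0 := by
    rw [(X.T s).lam_add_smul] at h1
    by_contra hcon
    push Not at hcon
    have := mul_nonneg ht.le hcon
    linarith only [h0, h1, this]
  have hpos : 0 < (X.T s).hitT i (y, u) := by
    unfold Triangle.hitT
    exact div_pos_of_neg_of_neg (by linarith only [h0]) he
  have hlt : (X.T s).hitT i (y, u) < t := by
    rw [Triangle.lam_add_smul_eq he.ne] at h1
    by_contra hcon
    push Not at hcon
    have : 0 ≤ (t - (X.T s).hitT i (y, u)) * (X.T s).ell i u :=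
      mul_nonneg_of_nonpos_of_nonpos (by linarith) he.le
    linarith
  exact ⟨he, hpos, hlt, he, fun j hj => (hloc _ ⟨hpos.le, hlt.le⟩).1 j hj⟩

variable (X)

/-- free-flight identity at the state `p` -/
def FreeAt (U V : S → ℂ → ℂ × Ω → ℝ) (s : S) (t : ℝ) (p : ℂ × (ℂ × Ω)) : Prop :=
  p.1 + t • p.2.1 ∈ (X.T s).table →
    U s (p.1 + t • p.2.1) p.2 - U s p.1 p.2 = ∫ r in (0:ℝ)..t, V s (p.1 + r • p.2.1) p.2

/-- one-crossing identity at the state `p` -/
def BounceAt (U V : S → ℂ → ℂ × Ω → ℝ) (s : S) (t : ℝ) (i : Fin 3) (p : ℂ × (ℂ × Ω)) : Prop :=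
  (X.T s).E i (p.1, p.2.1) → (X.T s).hitT i (p.1, p.2.1) < t →
    X.R s i (p.1 + t • p.2.1) ∈ (X.T (X.σ s i)).table →
      U (X.σ s i) (X.R s i (p.1 + t • p.2.1)) (X.D s i p.2.1, p.2.2) - U s p.1 p.2 =
        (∫ r in (0:ℝ)..((X.T s).hitT i (p.1, p.2.1)), V s (p.1 + r • p.2.1) p.2) +
        ∫ r in ((X.T s).hitT i (p.1, p.2.1))..t,
          V (X.σ s i) (X.R s i (p.1 + r • p.2.1)) (X.D s i p.2.1, p.2.2)

variable {X}

/-- crossing from outside to inside: all the facts -/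
lemma enter_facts {s : S} {i : Fin 3} {y u : ℂ} {t : ℝ} (ht : 0 < t)
    (hloc : ∀ r ∈ Icc (0:ℝ) t, X.LocAt s i (y + r • u)) (h0 : (X.T s).lam i y < 0)
    (h1 : 0 < (X.T s).lam i (y + t • u)) :
    0 < (X.T s).ell i u ∧ 0 < (X.T s).hitT i (y, u) ∧ (X.T s).hitT i (y, u) < t ∧
      (X.T (X.σ s i)).hitT i (X.R s i y, X.D s i u) = (X.T s).hitT i (y, u) ∧
      (X.T (X.σ s i)).E i (X.R s i y, X.D s i u) := by
  have hk := X.kap_pos s i
  have he : 0 < (X.T s).ell i u := by
    rw [(X.T s).lam_add_smul] at h1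
    by_contra hcon
    push Not at hcon
    have := mul_nonneg ht.le (neg_nonneg.mpr hcon)
    linarith
  have hpos : 0 < (X.T s).hitT i (y, u) := by
    unfold Triangle.hitT
    simp only
    apply div_pos (by linarith) he
  have hlth : (X.T s).hitT i (y, u) < t := by
    rw [Triangle.lam_add_smul_eq he.ne'] at h1
    by_contra hcon
    push Not at hcon
    have : (t - (X.T s).hitT i (y, u)) * (X.T s).ell i u ≤ 0 :=
      mul_nonpos_of_nonpos_of_nonneg (by linarith only [hcon]) he.le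
    linarith
  have hh' : (X.T (X.σ s i)).hitT i (X.R s i y, X.D s i u) = (X.T s).hitT i (y, u) := by
    unfold Triangle.hitT
    simp only
    rw [X.lam_R, X.ell_D, ← mul_neg, mul_div_mul_left]
    exact (neg_lt_zero.2 hk).ne
  have hz : (X.T s).lam i (y + (X.T s).hitT i (y, u) • u) = 0 := by
    rw [Triangle.lam_add_smul_eq he.ne', sub_self, zero_mul]
  refine ⟨he, hpos, hlth, hh', by simp only; rw [X.ell_D]; nlinarith, fun j hj => ?_⟩
  rw [hh']
  simp only
  rw [← X.R_add_smul, X.lam_R_of_zero hj hz]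
  exact (hloc _ ⟨hpos.le, hlth.le⟩).1 j hj

/-- the derivative of the extension along straight segments near one side -/
lemma ext_der_of {U V : S → ℂ → ℂ × Ω → ℝ} (hV : ∀ s, Bdd (V s)) {s : S} {t : ℝ} (ht : 0 < t)
    {y : ℂ} {ω : ℂ × Ω} {i : Fin 3}
    (hF : y ∈ (X.T s).table → X.FreeAt U V s t (y, ω) ∧ X.BounceAt U V s t i (y, ω))
    (hR : X.R s i y ∈ (X.T (X.σ s i)).table →
      X.FreeAt U V (X.σ s i) t (X.R s i y, (X.D s i ω.1, ω.2)) ∧
      X.BounceAt U V (X.σ s i) t i (X.R s i y, (X.D s i ω.1, ω.2)))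
    (h0 : (X.T s).lam i y ≠ 0) (h1 : (X.T s).lam i (y + t • ω.1) ≠ 0)
    (hloc : ∀ r ∈ Icc (0:ℝ) t, X.LocAt s i (y + r • ω.1)) :
    X.ext U s (y + t • ω.1) ω - X.ext U s y ω =
      ∫ r in (0:ℝ)..t, X.ext V s (y + r • ω.1) ω := by
  obtain ⟨u, q⟩ := ω
  simp only at *
  have hl0 : X.LocAt s i y := by simpa only [zero_smul, add_zero] using hloc 0 ⟨le_rfl, ht.le⟩
  have hlt : X.LocAt s i (y + t • u) := hloc t ⟨ht.le, le_rfl⟩
  have hVe : ∀ a b, IntervalIntegrable (fun r : ℝ => X.ext V s (y + r • u) (u, q)) volume a b :=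
    fun a b => Triangle.Bdd.intervalIntegrable (X.bddSupp_ext hV s).1 y u (u, q) a b
  rcases lt_or_gt_of_ne h0 with h0 | h0
  · -- starts outside
    have hy' := hl0.R_mem_table h0
    obtain ⟨hF', hB'⟩ := hR hy'
    rw [hl0.ext_of_neg h0]
    rcases lt_or_gt_of_ne h1 with h1 | h1
    · -- stays outside
      rw [hlt.ext_of_neg h1]
      have h2 := hF' (by
        show X.R s i y + t • X.D s i u ∈ (X.T (X.σ s i)).table
        rw [← X.R_add_smul]
        exact hlt.R_mem_table h1)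
      simp only at h2 ⊢
      rw [X.R_add_smul, h2]
      apply intervalIntegral.integral_congr
      intro r hs
      rw [uIcc_of_le ht.le] at hs
      simp only
      rw [(hloc r hs).ext_of_neg (Triangle.lam_neg_of_ends hs h0 h1)]
      simp only
      rw [X.R_add_smul]
    · -- enters
      rw [ext_of_pos (hlt.mem_table h1)]
      obtain ⟨he, hpos, hlth, hh', hE⟩ := enter_facts ht hloc h0 h1
      set h := (X.T s).hitT i (y, u) with hh
      have hR2 : ∀ r : ℝ, X.R (X.σ s i) i (X.R s i y + r • X.D s i u) = y + r • u := by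
        intro r
        rw [← X.R_add_smul, X.R_R]
      have h2 := hB' hE (by simpa only [hh'] using hlth) (by
        simp only
        rw [hR2, X.invol]
        exact hlt.mem_table h1)
      simp only [hR2, X.D_D, hh', X.invol] at h2
      rw [h2, ← intervalIntegral.integral_add_adjacent_intervals (hVe 0 h) (hVe h t)]
      congr 1
      · apply intervalIntegral.integral_congr_ae
        have h3 : ∀ᵐ r : ℝ, r ≠ h := by
          rw [ae_iff]; simp
        filter_upwards [h3] with r hs hs2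
        rw [uIoc_of_le hpos.le] at hs2
        have hs3 : r < h := lt_of_le_of_ne hs2.2 hs
        have h4 : (X.T s).lam i (y + r • u) < 0 := by
          rw [Triangle.lam_add_smul_eq he.ne']
          exact mul_neg_of_neg_of_pos (by linarith only [hs3]) he
        rw [(hloc r ⟨hs2.1.le, by linarith⟩).ext_of_neg h4]
        simp only
        rw [X.R_add_smul]
      · apply intervalIntegral.integral_congr_ae
        refine ae_of_all _ fun r hs => ?_
        rw [uIoc_of_le hlth.le] at hs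
        have h4 : 0 < (X.T s).lam i (y + r • u) := by
          rw [Triangle.lam_add_smul_eq he.ne']
          exact mul_pos (by linarith [hs.1]) he
        rw [ext_of_pos ((hloc r ⟨by linarith only [hpos, hs.1], hs.2⟩).mem_table h4)]
  · -- starts inside
    have hy := hl0.mem_table h0
    obtain ⟨hF', hB'⟩ := hF hy
    rw [ext_of_pos hy]
    rcases lt_or_gt_of_ne h1 with h1 | h1
    · -- leaves
      obtain ⟨he, hpos, hlth, hE⟩ := cross_facts ht hloc h0 h1
      rw [hlt.ext_of_neg h1]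
      have h2 := hB' hE hlth (hlt.R_mem_table h1)
      simp only at h2 ⊢
      set h := (X.T s).hitT i (y, u) with hh
      rw [h2, ← intervalIntegral.integral_add_adjacent_intervals (hVe 0 h) (hVe h t)]
      congr 1
      · apply intervalIntegral.integral_congr_ae
        have h3 : ∀ᵐ r : ℝ, r ≠ h := by
          rw [ae_iff]; simp
        filter_upwards [h3] with r hs hs2
        rw [uIoc_of_le hpos.le] at hs2
        have hs3 : r < h := lt_of_le_of_ne hs2.2 hs
        have h4 : 0 < (X.T s).lam i (y + r • u) := by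
          rw [Triangle.lam_add_smul_eq he.ne]
          exact mul_pos_of_neg_of_neg (by linarith only [hs3]) he
        rw [ext_of_pos ((hloc r ⟨hs2.1.le, by linarith⟩).mem_table h4)]
      · apply intervalIntegral.integral_congr_ae
        refine ae_of_all _ fun r hs => ?_
        rw [uIoc_of_le hlth.le] at hs
        have h4 : (X.T s).lam i (y + r • u) < 0 := by
          rw [Triangle.lam_add_smul_eq he.ne]
          exact mul_neg_of_pos_of_neg (by linarith [hs.1]) he
        rw [(hloc r ⟨by linarith [hs.1], hs.2⟩).ext_of_neg h4]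
    · -- stays inside
      rw [ext_of_pos (hlt.mem_table h1)]
      have h2 := hF' (hlt.mem_table h1)
      simp only at h2
      rw [h2]
      apply intervalIntegral.integral_congr
      intro r hs
      rw [uIcc_of_le ht.le] at hs
      simp only
      rw [ext_of_pos ((hloc r hs).mem_table (Triangle.lam_pos_of_ends hs h0 h1))]

/-! ### the extended cut-off along short straight segments -/

/-- the extended cut-off is Lipschitz along straight segments near one side -/
lemma IsCut.ext_lip {η σ r0 : ℝ} {χ M : S → ℂ × ℂ → ℝ} (h : X.IsCut η σ r0 χ M) {s : S} {t : ℝ}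
    (ht : 0 < t) (hts : η * t ≤ σ) {y : ℂ} {ω : ℂ × Ω} (hω : ‖ω.1‖ = 1) {i : Fin 3}
    (h0 : (X.T s).lam i y ≠ 0) (h1 : (X.T s).lam i (y + t • ω.1) ≠ 0)
    (hloc : ∀ r ∈ Icc (0:ℝ) t, X.LocAt s i (y + r • ω.1)) :
    |X.ext (fun s x (ω : ℂ × Ω) => χ s (x, ω.1)) s (y + t • ω.1) ω -
        X.ext (fun s x (ω : ℂ × Ω) => χ s (x, ω.1)) s y ω| ≤
      η * t * X.ext (fun s x (ω : ℂ × Ω) => M s (x, ω.1)) s y ω := by
  obtain ⟨u, q⟩ := ω
  simp only at *
  have hl0 : X.LocAt s i y := by simpa using hloc 0 ⟨le_rfl, ht.le⟩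
  have hlt : X.LocAt s i (y + t • u) := hloc t ⟨ht.le, le_rfl⟩
  have hu' : ‖X.D s i u‖ = 1 := by rw [X.norm_D]; exact hω
  have ha1 : an η u (t • u) = η * t := by rw [an_self hω, abs_of_pos ht]
  have ha2 : an η (X.D s i u) (t • X.D s i u) = η * t := by rw [an_self hu', abs_of_pos ht]
  rcases lt_or_gt_of_ne h0 with h0 | h0
  · have hy' := hl0.R_mem_table h0
    rw [hl0.ext_of_neg h0, hl0.ext_of_neg h0]
    simp only
    rcases lt_or_gt_of_ne h1 with h1 | h1
    · -- stays outside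
      have hz := hlt.R_mem_table h1
      rw [hlt.ext_of_neg h1]
      simp only
      have h2 := h.lip (X.σ s i) (X.R s i y) hy' (X.R s i (y + t • u)) hz (X.D s i u) hu'
      rw [X.R_add_smul, add_sub_cancel_left, ha2] at h2
      rw [X.R_add_smul]
      exact h2 hts
    · -- enters
      obtain ⟨he, hpos, hlth, hh', hE⟩ := enter_facts ht hloc h0 h1
      have hz := hlt.mem_table h1
      rw [ext_of_pos hz]
      simp only
      have hRz : X.R s i (y + t • u) = X.R s i y + t • X.D s i u := X.R_add_smul s i y u t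
      have hc : (X.T (X.σ s i)).Cross i (X.R s i y)
          (X.R (X.σ (X.σ s i) i) i (y + t • u)) := by
        rw [X.invol, hRz]
        exact Triangle.cross_of_exit hE ht (by rw [hh']; exact hlth)
      have h2 := h.cross (X.σ s i) i (X.R s i y) hy' (y + t • u) (by rw [X.invol]; exact hz)
        (X.D s i u) hu' hc
      rw [X.invol, hRz, add_sub_cancel_left, ha2, X.D_D] at h2
      exact h2 hts
  · have hy := hl0.mem_table h0
    rw [ext_of_pos hy, ext_of_pos hy]
    simp only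
    rcases lt_or_gt_of_ne h1 with h1 | h1
    · -- leaves
      obtain ⟨he, hpos, hlth, hE⟩ := cross_facts ht hloc h0 h1
      have hz := hlt.R_mem_table h1
      rw [hlt.ext_of_neg h1]
      simp only
      have hc : (X.T s).Cross i y (X.R (X.σ s i) i (X.R s i (y + t • u))) := by
        rw [X.R_R]
        exact Triangle.cross_of_exit hE ht hlth
      have h2 := h.cross s i y hy (X.R s i (y + t • u)) hz u hω hc
      rw [X.R_R, add_sub_cancel_left, ha1] at h2
      exact h2 hts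
    · -- stays inside
      have hz := hlt.mem_table h1
      rw [ext_of_pos hz]
      simp only
      have h2 := h.lip s y hy (y + t • u) hz u hω
      rw [add_sub_cancel_left, ha1] at h2
      exact h2 hts

lemma IsCut.nonneg_extM {η σ r0 : ℝ} {χ M : S → ℂ × ℂ → ℝ} (h : X.IsCut η σ r0 χ M) (s : S)
    (y : ℂ) (ω : ℂ × Ω) : 0 ≤ X.ext (fun s x (ω : ℂ × Ω) => M s (x, ω.1)) s y ω := by
  unfold ext
  apply add_nonneg
  · exact indicator_nonneg (fun z _ => h.nonnegM _ _) y
  · exact Finset.sum_nonneg fun i _ => indicator_nonneg (fun z _ => h.nonnegM _ _) y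

lemma IsCut.bdd_chi {η σ r0 : ℝ} {χ M : S → ℂ × ℂ → ℝ} (h : X.IsCut η σ r0 χ M) (s : S) :
    Bdd (fun x (ω : ℂ × Ω) => χ s (x, ω.1)) := by
  refine ⟨(h.meas s).comp (measurable_fst.prodMk (measurable_fst.comp measurable_snd)), 1,
    fun y ω => ?_⟩
  rw [abs_of_nonneg (h.nonneg _ _)]
  exact h.le_one _ _

lemma IsCut.bdd_M {η σ r0 : ℝ} {χ M : S → ℂ × ℂ → ℝ} (h : X.IsCut η σ r0 χ M) (s : S) :
    Bdd (fun x (ω : ℂ × Ω) => M s (x, ω.1)) := by
  obtain ⟨C, hC⟩ := h.bddM
  refine ⟨(h.measM s).comp (measurable_fst.prodMk (measurable_fst.comp measurable_snd)), C,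
    fun y ω => ?_⟩
  rw [abs_of_nonneg (h.nonnegM _ _)]
  exact hC _ _

/-- pointwise estimate -/
lemma IsCut.ext_incr {η σ r0 : ℝ} {χ M : S → ℂ × ℂ → ℝ} (h : X.IsCut η σ r0 χ M) (hη : 0 < η)
    {U V : S → ℂ → ℂ × Ω → ℝ} (hV : ∀ s, Bdd (V s)) {CU CV : ℝ} {s : S}
    (hCU : ∀ y ω, |X.ext U s y ω| ≤ CU) (hCV : ∀ y ω, |X.ext V s y ω| ≤ CV) {t : ℝ} (ht : 0 < t)
    (hts : η * t ≤ σ) {y : ℂ} {ω : ℂ × Ω} (hω : ‖ω.1‖ = 1) {i : Fin 3}
    (hF : y ∈ (X.T s).table → X.FreeAt U V s t (y, ω) ∧ X.BounceAt U V s t i (y, ω))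
    (hR : X.R s i y ∈ (X.T (X.σ s i)).table →
      X.FreeAt U V (X.σ s i) t (X.R s i y, (X.D s i ω.1, ω.2)) ∧
      X.BounceAt U V (X.σ s i) t i (X.R s i y, (X.D s i ω.1, ω.2)))
    (h0 : (X.T s).lam i y ≠ 0) (h1 : (X.T s).lam i (y + t • ω.1) ≠ 0)
    (hloc : ∀ r ∈ Icc (0:ℝ) t, X.LocAt s i (y + r • ω.1)) :
    |X.ext (fun s x ω => χ s (x, ω.1) * U s x ω) s (y + t • ω.1) ω -
        X.ext (fun s x ω => χ s (x, ω.1) * U s x ω) s y ω -
        ∫ r in (0:ℝ)..t, X.ext (fun s x ω => χ s (x, ω.1) * V s x ω) s (y + r • ω.1) ω| ≤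
      η * t * (CU + CV * t) * X.ext (fun s x (ω : ℂ × Ω) => M s (x, ω.1)) s y ω := by
  set cc : ℝ → ℝ := fun r => X.ext (fun s x (ω : ℂ × Ω) => χ s (x, ω.1)) s (y + r • ω.1) ω
    with hcc
  set w : ℝ → ℝ := fun r => X.ext V s (y + r • ω.1) ω with hw
  have hl0 : X.LocAt s i y := by simpa using hloc 0 ⟨le_rfl, ht.le⟩
  have hlt : X.LocAt s i (y + t • ω.1) := hloc t ⟨ht.le, le_rfl⟩
  have e1 : X.ext (fun s x ω => χ s (x, ω.1) * U s x ω) s (y + t • ω.1) ω =
      cc t * X.ext U s (y + t • ω.1) ω := hlt.ext_mul ω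
  have e2 : X.ext (fun s x ω => χ s (x, ω.1) * U s x ω) s y ω = cc 0 * X.ext U s y ω := by
    rw [hl0.ext_mul ω, hcc]
    simp
  have e3 : ∫ r in (0:ℝ)..t, X.ext (fun s x ω => χ s (x, ω.1) * V s x ω) s (y + r • ω.1) ω =
      ∫ r in (0:ℝ)..t, cc r * w r := by
    apply intervalIntegral.integral_congr
    intro r hs
    rw [uIcc_of_le ht.le] at hs
    exact (hloc r hs).ext_mul ω
  have hder := ext_der_of hV ht hF hR h0 h1 hloc
  have hbχ : ∀ s, Bdd (fun x (ω : ℂ × Ω) => χ s (x, ω.1)) := h.bdd_chi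
  have hMnn := h.nonneg_extM s y ω
  have hA : 0 ≤ η * t * X.ext (fun s x (ω : ℂ × Ω) => M s (x, ω.1)) s y ω := by
    (clear * - hη ht hMnn; positivity)
  have key := Triangle.prod_increment (c := cc) (w := w) (U0 := X.ext U s y ω)
    (U1 := X.ext U s (y + t • ω.1) ω)
    (A := η * t * X.ext (fun s x (ω : ℂ × Ω) => M s (x, ω.1)) s y ω) (CU := CU) (CV := CV) ht hA
    (Triangle.Bdd.intervalIntegrable (X.bddSupp_ext hV s).1 y ω.1 ω 0 t)
    (by
      have h5 : Bdd (fun x ω => X.ext (fun s x (ω : ℂ × Ω) => χ s (x, ω.1)) s x ω *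
          X.ext V s x ω) :=
        (X.bddSupp_ext hbχ s).1.mul (X.bddSupp_ext hV s).1
      exact Triangle.Bdd.intervalIntegrable h5 y ω.1 ω 0 t)
    hder ?_ ?_ (fun r => hCV _ _) (hCU _ _)
  · rw [e1, e2, e3]
    refine key.trans (le_of_eq (by ring))
  · -- a.e. bound
    have h6 : ∀ᵐ r : ℝ, (X.T s).lam i (y + r • ω.1) ≠ 0 := by
      by_cases he : (X.T s).ell i ω.1 = 0
      · refine ae_of_all _ fun r => ?_
        rw [(X.T s).lam_add_smul, he, mul_zero, add_zero]
        exact h0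
      · have h7 : ∀ᵐ r : ℝ, r ≠ (X.T s).hitT i (y, ω.1) := by
          rw [ae_iff]; simp
        filter_upwards [h7] with r hs
        rw [Triangle.lam_add_smul_eq he]
        exact mul_ne_zero (sub_ne_zero.mpr hs) he
    filter_upwards [h6] with r hs hs2
    have h8 := h.ext_lip hs2.1 (le_trans (by gcongr; exact hs2.2) hts) hω h0 hs
      (fun s' hs' => hloc s' ⟨hs'.1, hs'.2.trans hs2.2⟩)
    rw [hcc]
    simp only [zero_smul, add_zero]
    refine h8.trans ?_
    gcongr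
    exact hs2.2
  · have h8 := h.ext_lip ht hts hω h0 h1 hloc
    rw [hcc]
    simp only [zero_smul, add_zero]
    exact h8

/-! ### integration -/

variable (X)

/-- the geometric input: local structure at scale `ε` -/
def LocScale (s : S) (ε r0 : ℝ) : Prop :=
  ∀ x, (∀ i, 0 ≤ (X.T s).lam i x) →
    (∃ k, ∀ y, ‖y - x‖ < 2 * ε → ‖y - (X.T s).P k‖ < r0) ∨
    (∃ i, ∀ y, ‖y - x‖ < 2 * ε → X.LocAt s i y)

variable {X}

/-- for almost every parameter the pointwise estimate holds at almost all positions near the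
table -/
lemma IsCut.ae_incr [SFinite m] {η σ r0 : ℝ} {χ M : S → ℂ × ℂ → ℝ} (h : X.IsCut η σ r0 χ M)
    (hη : 0 < η) {U V : S → ℂ → ℂ × Ω → ℝ} (hV : ∀ s, Bdd (V s)) {CU CV : ℝ} {s : S}
    (hCU : ∀ y ω, |X.ext U s y ω| ≤ CU) (hCV : ∀ y ω, |X.ext V s y ω| ≤ CV)
    (hF : X.FreeDer m U V) (hB : X.BounceDer m U V) {ε t : ℝ} (ht : 0 < t)
    (htε : t ≤ ε) (hts : η * t ≤ σ) (hr : ∀ s, (X.T s).Lp * r0 ≤ 1) (hloc : X.LocScale s ε r0) :
    ∀ᵐ ω ∂(nu.prod m), ∀ᵐ y ∂(volume : Measure ℂ), (∃ x ∈ (X.T s).table, ‖y - x‖ < ε) →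
      |X.ext (fun s x ω => χ s (x, ω.1) * U s x ω) s (y + t • ω.1) ω -
        X.ext (fun s x ω => χ s (x, ω.1) * U s x ω) s y ω -
        ∫ r in (0:ℝ)..t, X.ext (fun s x ω => χ s (x, ω.1) * V s x ω) s (y + r • ω.1) ω| ≤
      η * t * (CU + CV * t) * X.ext (fun s x (ω : ℂ × Ω) => M s (x, ω.1)) s y ω := by
  have a1 : ∀ s, ∀ᵐ p ∂((volume : Measure ℂ).prod (nu.prod m)),
      p.1 ∈ (X.T s).table → X.FreeAt U V s t p :=
    fun s => (X.T s).ae_table_to_global m (hF s t ht)
  have a2 : ∀ s i, ∀ᵐ p ∂((volume : Measure ℂ).prod (nu.prod m)),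
      p.1 ∈ (X.T s).table → X.BounceAt U V s t i p :=
    fun s i => (X.T s).ae_table_to_global m (hB s t ht i)
  have b1 := Triangle.ae_fiber m (a1 s)
  have b2 := fun i => Triangle.ae_fiber m (a2 s i)
  have b3 := fun i => Triangle.ae_fiber m (X.ae_reflect m s i (a1 (X.σ s i)))
  have b4 := fun i => Triangle.ae_fiber m (X.ae_reflect m s i (a2 (X.σ s i) i))
  rw [← ae_all_iff] at b2 b3 b4
  have b5 : ∀ᵐ ω ∂(nu.prod m), ‖ω.1‖ = 1 :=
    Measure.quasiMeasurePreserving_fst.ae ae_norm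
  filter_upwards [b1, b2, b3, b4, b5] with ω c1 c2 c3 c4 c5
  rw [← ae_all_iff] at c2 c3 c4
  have c6 : ∀ᵐ y ∂(volume : Measure ℂ), ∀ i, (X.T s).lam i (y + (0:ℝ) • ω.1) ≠ 0 :=
    ae_all_iff.mpr fun i => (X.T s).ae_lam_ne i _
  have c7 : ∀ᵐ y ∂(volume : Measure ℂ), ∀ i, (X.T s).lam i (y + t • ω.1) ≠ 0 :=
    ae_all_iff.mpr fun i => (X.T s).ae_lam_ne i _
  filter_upwards [c1, c2, c3, c4, c6, c7] with y d1 d2 d3 d4 d6 d7
  rintro ⟨x, hx, hyx⟩
  have hM := h.nonneg_extM s y ω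
  have hCU0 : 0 ≤ CU := (abs_nonneg _).trans (hCU y ω)
  have hCV0 : 0 ≤ CV := (abs_nonneg _).trans (hCV y ω)
  have hseg : ∀ r ∈ Icc (0:ℝ) t, ‖y + r • ω.1 - x‖ < 2 * ε := by
    intro r hs
    calc ‖y + r • ω.1 - x‖ = ‖(y - x) + r • ω.1‖ := by congr 1; ring
      _ ≤ ‖y - x‖ + ‖r • ω.1‖ := norm_add_le _ _
      _ = ‖y - x‖ + r := by rw [norm_smul, c5, mul_one, Real.norm_of_nonneg hs.1]
      _ < 2 * ε := by linarith only [htε, hyx, hs.2]
  rcases hloc x (fun i => (((X.T s).mem_table_iff x).mp hx i).le) with ⟨k, hk⟩ | ⟨i, hi⟩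
  · have hz : ∀ (W : S → ℂ → ℂ × Ω → ℝ), ∀ r ∈ Icc (0:ℝ) t,
        X.ext (fun s x ω => χ s (x, ω.1) * W s x ω) s (y + r • ω.1) ω = 0 := by
      intro W r hs
      apply X.ext_eq_zero_near (hr s) _ (hk _ (hseg r hs))
      intro s' k' z hz hzk ω'
      rw [h.near s' k' z hz hzk, zero_mul]
    have e0 := hz U 0 ⟨le_rfl, ht.le⟩
    rw [zero_smul, add_zero] at e0
    rw [hz U t ⟨ht.le, le_rfl⟩, e0]
    have e1 : ∫ r in (0:ℝ)..t,
        X.ext (fun s x ω => χ s (x, ω.1) * V s x ω) s (y + r • ω.1) ω = 0 := by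
      rw [intervalIntegral.integral_congr (g := fun _ => (0:ℝ))]
      · simp
      · intro r hs
        rw [uIcc_of_le ht.le] at hs
        exact hz V r hs
    rw [e1]
    simp only [sub_self, abs_zero]
    (clear * - hη ht hCU0 hCV0 hM; positivity)
  · apply h.ext_incr hη hV hCU hCV ht hts c5 (i := i)
    · intro hy
      exact ⟨d1 hy, d2 i hy⟩
    · intro hy
      exact ⟨d3 i hy, d4 i hy⟩
    · simpa using d6 i
    · exact d7 i
    · intro r hs
      exact hi _ (hseg r hs)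

/-- The estimate for the derivative of the mollification along the direction of motion. -/
theorem IsCut.Xd_est [SFinite m] {η σ r0 : ℝ} {χ M : S → ℂ × ℂ → ℝ} (h : X.IsCut η σ r0 χ M)
    (hη : 0 < η) (hσ : 0 < σ) {U V : S → ℂ → ℂ × Ω → ℝ} (hU : ∀ s, Bdd (U s))
    (hV : ∀ s, Bdd (V s)) {CU : ℝ} {s : S}
    (hCU : ∀ y ω, |X.ext U s y ω| ≤ CU) (hF : X.FreeDer m U V) (hB : X.BounceDer m U V) {ε : ℝ}
    (hε : 0 < ε) (hr : ∀ s, (X.T s).Lp * r0 ≤ 1) (hloc : X.LocScale s ε r0) :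
    ∀ᵐ ω ∂(nu.prod m), ∀ x ∈ (X.T s).table,
      |Xd ε (X.ext (fun s x ω => χ s (x, ω.1) * U s x ω) s) x ω -
        mol ε (X.ext (fun s x ω => χ s (x, ω.1) * V s x ω) s) x ω| ≤
      η * CU * mol ε (X.ext (fun s x (ω : ℂ × Ω) => M s (x, ω.1)) s) x ω := by
  obtain ⟨CV, hCV⟩ := (X.bddSupp_ext hV s).1.2
  set t0 : ℝ := min ε (σ / η) with ht0
  have ht0p : 0 < t0 := by (clear * - hε hσ hη; positivity)
  set tn : ℕ → ℝ := fun n => t0 / (n + 1) with htn
  have htnp : ∀ n, 0 < tn n := fun n => by rw [htn]; (clear * - hε hσ hη; positivity)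
  have htn0 : ∀ n, tn n ≤ t0 := fun n => by
    rw [htn]
    apply div_le_self ht0p.le
    have : (0:ℝ) ≤ n := Nat.cast_nonneg n
    linarith only []
  have htnlim : Tendsto tn atTop (𝓝 0) := by
    rw [htn]
    have := tendsto_one_div_add_atTop_nhds_zero_nat (𝕜 := ℝ)
    have h2 := this.const_mul t0
    rw [mul_zero] at h2
    refine h2.congr fun n => ?_
    ring
  have hae : ∀ᵐ ω ∂(nu.prod m), ∀ n : ℕ, ∀ᵐ y ∂(volume : Measure ℂ),
      (∃ x ∈ (X.T s).table, ‖y - x‖ < ε) →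
      |X.ext (fun s x ω => χ s (x, ω.1) * U s x ω) s (y + tn n • ω.1) ω -
        X.ext (fun s x ω => χ s (x, ω.1) * U s x ω) s y ω -
        ∫ r in (0:ℝ)..(tn n),
          X.ext (fun s x ω => χ s (x, ω.1) * V s x ω) s (y + r • ω.1) ω| ≤
      η * tn n * (CU + CV * tn n) * X.ext (fun s x (ω : ℂ × Ω) => M s (x, ω.1)) s y ω := by
    rw [ae_all_iff]
    intro n
    apply h.ae_incr hη hV hCU hCV hF hB (htnp n) ((htn0 n).trans (min_le_left _ _)) _ hr hloc
    have h1 : tn n ≤ σ / η := (htn0 n).trans (min_le_right _ _)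
    rw [le_div_iff₀ hη] at h1
    linarith only [h1]
  filter_upwards [hae] with ω hω x hx
  have hχ : ∀ s, Bdd (fun x (ω : ℂ × Ω) => χ s (x, ω.1)) := h.bdd_chi
  have hH : Bdd (X.ext (fun s x ω => χ s (x, ω.1) * U s x ω) s) :=
    (X.bddSupp_ext (fun s => (hχ s).mul (hU s)) s).1
  have hK : Bdd (X.ext (fun s x ω => χ s (x, ω.1) * V s x ω) s) :=
    (X.bddSupp_ext (fun s => (hχ s).mul (hV s)) s).1
  have hE : Bdd (X.ext (fun s x (ω : ℂ × Ω) => M s (x, ω.1)) s) := (X.bddSupp_ext h.bdd_M s).1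
  set H := X.ext (fun s x ω => χ s (x, ω.1) * U s x ω) s with hHdef
  set K := X.ext (fun s x ω => χ s (x, ω.1) * V s x ω) s with hKdef
  set E := X.ext (fun s x (ω : ℂ × Ω) => M s (x, ω.1)) s with hEdef
  -- finite differences
  have step1 : ∀ n, |mol ε H (x + tn n • ω.1) ω - mol ε H x ω -
      ∫ r in (0:ℝ)..(tn n), mol ε K (x + r • ω.1) ω| ≤
        η * tn n * (CU + CV * tn n) * mol ε E x ω := by
    intro n
    set t := tn n with ht
    have htp : 0 < t := htnp n
    have i1 : Integrable fun y => rho ε (x - y) * H (y + t • ω.1) ω :=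
      Triangle.integrable_rho_mul hε hH x _ ω
    have i2 : Integrable fun y => rho ε (x - y) * H y ω := by
      simpa only [add_zero] using Triangle.integrable_rho_mul hε hH x 0 ω
    have hIK : Bdd (fun y ω => ∫ r in (0:ℝ)..t, K (y + r • ω.1) ω) := by
      obtain ⟨hKm, CK, hCK⟩ := id hK
      refine ⟨?_, CK * t, fun y ω => ?_⟩
      · have h1 : StronglyMeasurable (Function.uncurry fun (p : ℂ × (ℂ × Ω)) (r : ℝ) =>
            K (p.1 + r • p.2.1) p.2) := by
          apply Measurable.stronglyMeasurable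
          have h2 : Measurable fun q : (ℂ × (ℂ × Ω)) × ℝ =>
              ((q.1.1 + q.2 • q.1.2.1, q.1.2) : ℂ × (ℂ × Ω)) := by
            apply Measurable.prodMk
            · fun_prop
            · fun_prop
          exact (hKm.comp h2 :)
        have h3 := (h1.integral_prod_right (ν := volume.restrict (Ioc 0 t))).measurable
        simp only [intervalIntegral.integral_of_le htp.le]
        exact h3
      · have := intervalIntegral.norm_integral_le_of_norm_le_const (a := 0) (b := t) (C := CK)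
          (f := fun r => K (y + r • ω.1) ω) (fun r _ => by
            simpa only [Complex.real_smul, Real.norm_eq_abs] using hCK _ _)
        rw [sub_zero, abs_of_pos htp] at this
        exact this
    have i12 : Integrable fun y => rho ε (x - y) * H (y + t • ω.1) ω - rho ε (x - y) * H y ω :=
      i1.sub i2
    have i3 : Integrable fun y => rho ε (x - y) * ∫ r in (0:ℝ)..t, K (y + r • ω.1) ω := by
      simpa only [Complex.real_smul, add_zero] using Triangle.integrable_rho_mul hε hIK x 0 ω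
    have i4 : Integrable fun y => rho ε (x - y) * E y ω := by
      simpa only [add_zero] using Triangle.integrable_rho_mul hε hE x 0 ω
    rw [Triangle.mol_shift, Triangle.integral_mol_segment hε hK x ω.1 ω htp]
    have e1 : mol ε H x ω = ∫ y, rho ε (x - y) * H y ω := rfl
    have e2 : mol ε E x ω = ∫ y, rho ε (x - y) * E y ω := rfl
    rw [e1, e2, ← integral_sub i1 i2, ← integral_sub i12 i3, ← integral_const_mul]
    rw [← Real.norm_eq_abs]
    apply norm_integral_le_of_norm_le (i4.const_mul _)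
    filter_upwards [hω n] with y hy
    by_cases hyx : ‖y - x‖ < ε
    · have h2 := hy ⟨x, hx, hyx⟩
      have h3 : rho ε (x - y) * H (y + t • ω.1) ω - rho ε (x - y) * H y ω -
          rho ε (x - y) * ∫ r in (0:ℝ)..t, K (y + r • ω.1) ω =
          rho ε (x - y) * (H (y + t • ω.1) ω - H y ω - ∫ r in (0:ℝ)..t, K (y + r • ω.1) ω) := by
        ring
      rw [h3, norm_mul, Real.norm_eq_abs, Real.norm_eq_abs, abs_of_nonneg (rho_nonneg _ _)]
      calc rho ε (x - y) * |H (y + t • ω.1) ω - H y ω - ∫ r in (0:ℝ)..t, K (y + r • ω.1) ω|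
          ≤ rho ε (x - y) * (η * t * (CU + CV * t) * E y ω) := by
            apply mul_le_mul_of_nonneg_left h2 (rho_nonneg _ _)
        _ = η * t * (CU + CV * t) * (rho ε (x - y) * E y ω) := by ring
    · push Not at hyx
      rw [norm_sub_rev] at hyx
      rw [rho_eq_zero hε hyx]
      simp
  -- the limit
  set F : ℝ → ℝ := fun r => mol ε H (x + r • ω.1) ω - mol ε H x ω -
      ∫ r' in (0:ℝ)..r, mol ε K (x + r' • ω.1) ω with hFdef
  have hF0 : F 0 = 0 := by
    rw [hFdef]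
    simp
  have hcont : Continuous (fun r : ℝ => mol ε K (x + r • ω.1) ω) :=
    (Triangle.continuous_mol hε hK ω).comp (by fun_prop)
  have hFd : HasDerivAt F (Xd ε H x ω - mol ε K x ω) 0 := by
    have h1 := (Triangle.hasDerivAt_mol hε hH x ω).sub_const (mol ε H x ω)
    have h2 := (hcont.integral_hasStrictDerivAt 0 0).hasDerivAt
    rw [zero_smul, add_zero] at h2
    exact h1.sub h2
  have hlim : Tendsto (fun n => (tn n)⁻¹ • (F (0 + tn n) - F 0)) atTop
      (𝓝 (Xd ε H x ω - mol ε K x ω)) := by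
    have h1 := hasDerivAt_iff_tendsto_slope_zero.mp hFd
    apply h1.comp
    rw [tendsto_nhdsWithin_iff]
    exact ⟨htnlim, Eventually.of_forall fun n => (htnp n).ne'⟩
  have hlim2 : Tendsto (fun n => η * (CU + CV * tn n) * mol ε E x ω) atTop
      (𝓝 (η * CU * mol ε E x ω)) := by
    have h1 : Tendsto (fun n => η * (CU + CV * tn n) * mol ε E x ω) atTop
        (𝓝 (η * (CU + CV * 0) * mol ε E x ω)) :=
      ((htnlim.const_mul CV).const_add CU |>.const_mul η).mul_const _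
    simpa only [mul_zero, add_zero] using h1
  refine le_of_tendsto_of_tendsto' hlim.abs hlim2 fun n => ?_
  rw [hF0, zero_add, sub_zero, smul_eq_mul, abs_mul, abs_of_pos (inv_pos.mpr (htnp n)),
    inv_mul_le_iff₀ (htnp n)]
  refine (step1 n).trans (le_of_eq (by ring))

/-! ### the concrete cut-off -/

lemma isCut_chi' (X : Cx S) (N : ℕ) {δ η : ℝ} (hδ : 0 < δ) (hη : 0 < η) (hη1 : η ≤ 1) :
    X.IsCut η (sj δ N / 2) (sj δ N * η / 2) (X.chi' N δ η) (X.wt N δ η) where
  meas := X.measurable_chi' N δ η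
  measM := X.measurable_wt N δ η
  nonneg := fun s p => X.chi'_nonneg _ _ _ _ _
  le_one := fun s p => X.chi'_le_one _ _ _ _ _
  nonnegM := fun s p => X.wt_nonneg N hδ η s p
  bddM := ⟨_, fun s p => X.wt_le N hδ η s p⟩
  lip := fun s x hx y hy u hu ha => by
    rw [X.chi'_eq hu, X.chi'_eq hu]
    exact X.chi_sub_le N hδ (X.dis_lip hη u hx hy) ha
  cross := fun s i x hx y hy u hu hc ha => by
    rw [X.chi'_eq hu, X.chi'_eq (by rw [X.norm_D]; exact hu)]
    exact X.chi_sub_le N hδ (X.dis_cross hη u hx hy hc) ha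
  near := fun s k x _ hk u => X.chi'_eq_zero N hδ hη hη1 k hk

/-- Existence of the scales: all the local geometric input in one statement. -/
lemma exists_locScale [Fintype S] (X : Cx S) : ∃ κ : ℝ, 0 < κ ∧ κ ≤ 1 / 4 ∧
    ∀ r0 : ℝ, 0 < r0 → ∀ ε : ℝ, 0 < ε → ε ≤ κ * r0 → ∀ s, X.LocScale s ε r0 := by
  obtain ⟨κ1, hκ1, hloc⟩ := X.exists_locAt
  refine ⟨min (1 / 4) κ1, by positivity, min_le_left _ _, ?_⟩
  intro r0 hr0 ε hε hεκ s x hx
  have h1 : ε ≤ κ1 * r0 := by
    refine hεκ.trans ?_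
    gcongr
    exact min_le_right _ _
  have h2 : ε ≤ 1 / 4 * r0 := by
    refine hεκ.trans ?_
    gcongr
    exact min_le_left _ _
  by_cases hm : ∀ m, r0 / 2 ≤ ‖x - (X.T s).P m‖
  · exact Or.inr (hloc s r0 hr0 ε hε h1 x hx hm)
  · push Not at hm
    obtain ⟨k, hk⟩ := hm
    refine Or.inl ⟨k, fun y hy => ?_⟩
    calc ‖y - (X.T s).P k‖ = ‖(y - x) + (x - (X.T s).P k)‖ := by congr 1; ring
      _ ≤ ‖y - x‖ + ‖x - (X.T s).P k‖ := norm_add_le _ _
      _ < r0 := by linarith only [hy, hk, h2]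

end Cx

end Vale.Agent.P099
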