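import Vale.Agent.P099.H504.Cx.C7

set_option linter.all false

open MeasureTheory Set Filter Topology

namespace Vale.Agent.P099

variable {Ω : Type} [MeasurableSpace Ω]

namespace Cx

variable {S : Type} (X : Cx S) (m : Measure Ω)

lemma tendsto_nrm_mol_ext [Fintype S] [IsProbabilityMeasure m] {f : S → ℂ → ℂ × Ω → ℝ}
    (hf : ∀ s, Bdd (f s)) :
    Tendsto (fun ε : ℝ => X.nrm m (fun s x ω => ((mol ε (X.ext f s) x ω - f s x ω : ℝ) : ℂ)))
      (𝓝[>] 0) (𝓝 0) := by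
  have h : Tendsto (fun ε : ℝ => ∑ s, (X.T s).nrm m
      (fun x ω => ((mol ε (X.ext f s) x ω - f s x ω : ℝ) : ℂ))) (𝓝[>] 0) (𝓝 (∑ _s : S, (0:ℝ))) := by
    refine tendsto_finsetSum _ fun s _ => ?_
    refine ((X.T s).tendsto_nrm_mol m (X.bddSupp_ext hf s).1).congr fun ε => ?_
    refine (X.T s).nrm_congr m fun x hx ω => ?_
    rw [X.ext_of_mem_table f hx]
  simpa [Cx.nrm] using h

/-- The approximation theorem on the complex. -/
theorem approx [Fintype S] [IsProbabilityMeasure m] (U V : S → ℂ → ℂ × Ω → ℝ)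
    (hU : ∀ s, Bdd (U s)) (hV : ∀ s, Bdd (V s))
    (h1 : X.FreeDer m U V) (h2 : X.BounceDer m U V) (tol : ℝ) (htol : 0 < tol) :
    ∃ ε : ℝ, 0 < ε ∧ ∃ χ : S → ℂ × ℂ → ℝ, (∀ s, Measurable (χ s)) ∧
      (∀ s p, 0 ≤ χ s p ∧ χ s p ≤ 1) ∧
      (∀ s, BddSupp (X.ext (fun s x ω => χ s (x, ω.1) * U s x ω) s)) ∧
      (∀ s, BddSupp (X.ext (fun s x ω => χ s (x, ω.1) * V s x ω) s)) ∧
      X.Sym ε (X.ext (fun s x ω => χ s (x, ω.1) * U s x ω)) ∧
      X.Sym ε (X.ext (fun s x ω => χ s (x, ω.1) * V s x ω)) ∧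
      X.nrm m (fun s x ω =>
        ((mol ε (X.ext (fun s x ω => χ s (x, ω.1) * U s x ω) s) x ω - U s x ω : ℝ) : ℂ)) ≤ tol ∧
      X.nrm m (fun s x ω =>
        ((mol ε (X.ext (fun s x ω => χ s (x, ω.1) * V s x ω) s) x ω - V s x ω : ℝ) : ℂ)) ≤ tol ∧
      ∃ a e : ℝ, 0 ≤ a ∧ 0 ≤ e ∧ e ≤ tol ∧ e * a ≤ tol ∧
        X.nrm m (fun s => grd ε (X.ext (fun s x ω => χ s (x, ω.1) * U s x ω) s)) ≤ a ^ 2 ∧
        X.nrm m (fun s x ω => ((Xd ε (X.ext (fun s x ω => χ s (x, ω.1) * U s x ω) s) x ω -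
          mol ε (X.ext (fun s x ω => χ s (x, ω.1) * V s x ω) s) x ω : ℝ) : ℂ)) ≤ e ^ 2 := by
  obtain ⟨M, hM0, hM⟩ : ∃ M : ℝ, 0 < M ∧ ∀ s, (∀ x ω, |U s x ω| ≤ M) ∧
      (∀ x ω, |V s x ω| ≤ M) ∧ (∀ x ω, |X.ext U s x ω| ≤ M) := by
    refine unif_bound (P := fun s M => (∀ x ω, |U s x ω| ≤ M) ∧
      (∀ x ω, |V s x ω| ≤ M) ∧ (∀ x ω, |X.ext U s x ω| ≤ M)) ?_ ?_
    · rintro s a b hab ⟨k1, k2, k3⟩
      exact ⟨fun x ω => (k1 x ω).trans hab, fun x ω => (k2 x ω).trans hab,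
        fun x ω => (k3 x ω).trans hab⟩
    · intro s
      obtain ⟨CU0, hCU0⟩ := (hU s).2
      obtain ⟨CV0, hCV0⟩ := (hV s).2
      obtain ⟨CE0, hCE0⟩ := (X.bddSupp_ext hU s).1.2
      refine ⟨|CU0| + |CV0| + |CE0|, fun x ω => ?_, fun x ω => ?_, fun x ω => ?_⟩
      · have := (hCU0 x ω).trans (le_abs_self CU0)
        linarith [abs_nonneg CV0, abs_nonneg CE0]
      · have := (hCV0 x ω).trans (le_abs_self CV0)
        linarith [abs_nonneg CU0, abs_nonneg CE0]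
      · have := (hCE0 x ω).trans (le_abs_self CE0)
        linarith [abs_nonneg CU0, abs_nonneg CV0]
  have hMU : ∀ s x ω, |U s x ω| ≤ M := fun s => (hM s).1
  have hMV : ∀ s x ω, |V s x ω| ≤ M := fun s => (hM s).2.1
  have hME : ∀ s x ω, |X.ext U s x ω| ≤ M := fun s => (hM s).2.2
  obtain ⟨κ, r1, hκ, hκ4, hr1, hl1, hsym, hloc⟩ := X.exists_loc (Ω := Ω)
  obtain ⟨K1, hK1, hK1'⟩ := exists_kap_bound
  obtain ⟨K2, hK2, hK2'⟩ : ∃ C : ℝ, 0 < C ∧ ∀ s : S, 0 < C ∧ ∀ (m : Measure Ω)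
      [IsProbabilityMeasure m] (ε : ℝ), 0 < ε → ∀ f : ℂ → ℂ × Ω → ℝ, BddSupp f →
      (X.T s).nrm m (grd ε f) ≤ (C / ε) ^ 2 * ∫ ω, (∫ y, f y ω ^ 2) ∂(nu.prod m) := by
    refine unif_bound (P := fun s C => 0 < C ∧ ∀ (m : Measure Ω)
      [IsProbabilityMeasure m] (ε : ℝ), 0 < ε → ∀ f : ℂ → ℂ × Ω → ℝ, BddSupp f →
      (X.T s).nrm m (grd ε f) ≤ (C / ε) ^ 2 * ∫ ω, (∫ y, f y ω ^ 2) ∂(nu.prod m)) ?_ ?_
    · rintro s a b hab ⟨ha, h⟩
      refine ⟨ha.trans_le hab, fun m _ ε hε f hf => (h m ε hε f hf).trans ?_⟩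
      apply mul_le_mul_of_nonneg_right
      · (clear * - ha hab hε; gcongr)
      · exact integral_nonneg fun ω => integral_nonneg fun y => sq_nonneg _
    · intro s
      obtain ⟨C, hC, h⟩ := (X.T s).nrm_grd_le (Ω := Ω)
      exact ⟨C, hC, h⟩
  obtain ⟨C0, hC0, hCC⟩ := X.exists_chi_const
  obtain ⟨K0, hK0, hK0'⟩ : ∃ C : ℝ, 0 < C ∧ ∀ s : S, (X.T s).Lp ≤ C ∧
      ∀ i, X.kap s i * (X.T s).Lp ≤ C := by
    refine unif_bound (P := fun s C => (X.T s).Lp ≤ C ∧ ∀ i, X.kap s i * (X.T s).Lp ≤ C) ?_ ?_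
    · rintro s a b hab ⟨h, h'⟩
      exact ⟨h.trans hab, fun i => (h' i).trans hab⟩
    · intro s
      have hL := (X.T s).Lp_pos
      refine ⟨(X.T s).Lp + ∑ i, X.kap s i * (X.T s).Lp, ?_, fun i => ?_⟩
      · have : 0 ≤ ∑ i, X.kap s i * (X.T s).Lp := Finset.sum_nonneg fun i _ =>
          (mul_pos (X.kap_pos s i) hL).le
        linarith
      · have := Finset.single_le_sum (f := fun i => X.kap s i * (X.T s).Lp)
          (fun i _ => (mul_pos (X.kap_pos s i) hL).le) (Finset.mem_univ i)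
        have h2 := (X.T s).Lp_pos
        linarith
  set n0 : ℝ := (Fintype.card S : ℝ) with hn0
  have hn0' : 0 ≤ n0 := Nat.cast_nonneg _
  set C : ℝ := n0 * C0 + 1 with hCdef
  have hC : 0 < C := by (clear * - hn0' hC0; positivity)
  have hCn : n0 * C0 ≤ C := by rw [hCdef]; linarith
  have hA : 0 ≤ X.vol := X.vol_nonneg
  set A := X.vol with hAdef
  -- choice of N
  obtain ⟨N, hN, hN2⟩ : ∃ N : ℕ, 0 < N ∧
      16 * M ^ 2 * (C / N) * (16 * K1 ^ 2 * M ^ 2 * (C / N)) ≤ tol ^ 2 / 3 := by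
    obtain ⟨n, hn⟩ := exists_nat_gt (768 * M ^ 4 * K1 ^ 2 * C ^ 2 / tol ^ 2)
    have hn0 : (0:ℝ) < n := lt_of_le_of_lt (by (clear * - hM0 hK1 hC htol; positivity)) hn
    have hn1 : 0 < n := by exact_mod_cast hn0
    have hn2 : (1:ℝ) ≤ n := by exact_mod_cast hn1
    refine ⟨n, hn1, ?_⟩
    rw [div_lt_iff₀ (by positivity)] at hn
    have e : 16 * M ^ 2 * (C / n) * (16 * K1 ^ 2 * M ^ 2 * (C / n)) =
        256 * M ^ 4 * K1 ^ 2 * C ^ 2 / (n * n) := by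
      (clear * - hn0; field_simp; ring)
    rw [e, div_le_iff₀ (by (clear * - hn1; positivity))]
    have : (n:ℝ) * tol ^ 2 ≤ n * n * tol ^ 2 := by
      apply mul_le_mul_of_nonneg_right _ (by positivity)
      nlinarith only [hn2]
    linarith only [this, hn]
  have hN' : (0:ℝ) < N := by exact_mod_cast hN
  have hCN : n0 * (C0 / N) ≤ C / N := by
    rw [mul_div_assoc']
    (clear * - hCn hN'; gcongr)
  -- choice of δ
  obtain ⟨δ, hδ, hδ2⟩ : ∃ δ : ℝ, 0 < δ ∧ 32 * M ^ 2 * (C * δ ^ 2) ≤ tol / 2 := by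
    refine ⟨min 1 (tol / (64 * M ^ 2 * C)), by (clear * - htol hM0 hC; positivity), ?_⟩
    set δ := min 1 (tol / (64 * M ^ 2 * C)) with hδ
    have h0 : 0 < δ := by (clear * - htol hM0 hC; positivity)
    have h1 : δ ≤ 1 := min_le_left _ _
    have h2 : δ ≤ tol / (64 * M ^ 2 * C) := min_le_right _ _
    rw [le_div_iff₀ (by (clear * - hM0 hC; positivity))] at h2
    have h3 : δ ^ 2 ≤ δ := by nlinarith only [h0, h1]
    have h4 : 32 * M ^ 2 * (C * δ ^ 2) ≤ 32 * M ^ 2 * (C * δ) := by (clear * - h3 hC hM0; gcongr)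
    linarith only [h4, h2]
  have hδ3 : 32 * M ^ 2 * (n0 * (C0 * δ ^ 2)) ≤ tol / 2 := by
    refine le_trans ?_ hδ2
    have : n0 * (C0 * δ ^ 2) ≤ C * δ ^ 2 := by
      rw [← mul_assoc]
      (clear * - hCn; gcongr)
    (clear * - this; gcongr)
  have hσ := sj_pos hδ N
  set σ := sj δ N with hσdef
  -- choice of τ
  set c3 : ℝ := 16 * M ^ 2 * (C / N) * (32 * K2 ^ 2 * (2 / (κ * σ)) ^ 2) with hc3
  have hc3' : 0 ≤ c3 := by (clear * - hM0 hC hN hK2 hκ hσ; positivity)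
  obtain ⟨τ, hτ, hτ2⟩ : ∃ τ : ℝ, 0 < τ ∧ c3 * τ ≤ tol ^ 2 / 3 := by
    refine ⟨tol ^ 2 / 3 / (c3 + 1), by (clear * - htol hM0 hC hN hK2 hκ hσ; positivity), ?_⟩
    rw [mul_div_assoc', div_le_iff₀ (by (clear * - hc3'; positivity))]
    nlinarith only [sq_nonneg tol, hc3']
  -- choice of Φ
  have hτn : 0 < τ / (n0 + 1) := by (clear * - hτ hn0'; positivity)
  have hΦex := fun s => (X.T s).exists_lip m (hU s) (hMU s) hτn
  choose Φ hΦs hΦM hΦL hΦr hΦτ0 using hΦex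
  obtain ⟨L, hL, hL'⟩ : ∃ L : ℝ, 0 < L ∧ ∀ s, ∀ x y ω, |Φ s x ω - Φ s y ω| ≤ L * ‖x - y‖ := by
    refine unif_bound (P := fun s L => ∀ x y ω, |Φ s x ω - Φ s y ω| ≤ L * ‖x - y‖) ?_ ?_
    · intro s a b hab h x y ω
      exact (h x y ω).trans (by gcongr)
    · intro s
      obtain ⟨L, -, h⟩ := hΦL s
      exact ⟨L, h⟩
  obtain ⟨r, hr, hr'⟩ : ∃ r : ℝ, 0 < r ∧ ∀ s, ∀ x ω i, (X.T s).lam i x ≤ r → Φ s x ω = 0 := by
    refine unif_const (P := fun s r => ∀ x ω i, (X.T s).lam i x ≤ r → Φ s x ω = 0) ?_ ?_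
    · intro s a b hb hba h x ω i hx
      exact h x ω i (hx.trans hba)
    · intro s
      obtain ⟨r, h0, h⟩ := hΦr s
      exact ⟨r, h0, h⟩
  have hΦτ : X.nrm m (fun s x ω => ((U s x ω - Φ s x ω : ℝ) : ℂ)) ≤ τ := by
    have e1 : X.nrm m (fun s x ω => ((U s x ω - Φ s x ω : ℝ) : ℂ)) ≤
        ∑ _s : S, τ / (n0 + 1) := Finset.sum_le_sum fun s _ => hΦτ0 s
    refine e1.trans ?_
    rw [Finset.sum_const, Finset.card_univ, nsmul_eq_mul, ← hn0, mul_div_assoc',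
      div_le_iff₀ (by linarith)]
    nlinarith only [hτ, hn0']
  -- choice of η
  have hη_ev : ∀ᶠ η in 𝓝[>] (0:ℝ), (0 < η ∧ η ≤ 1 ∧ σ * η / 2 < r1 ∧
      K0 * (κ * (σ * η / 2)) < r ∧ K0 * (σ * η / 2) < 1 ∧
      16 * M ^ 2 * (C / N) * (4 * (K1 * L) ^ 2 * A) * η ^ 2 ≤ tol ^ 2 / 3 ∧
      16 * (η * M) ^ 2 * (C / N) ≤ tol ^ 2) ∧
      X.nrm m (fun s x ω => ((mol (κ * (σ * η / 2)) (X.ext U s) x ω - U s x ω : ℝ) : ℂ)) ≤ tol / 4 ∧
      X.nrm m (fun s x ω => ((mol (κ * (σ * η / 2)) (X.ext V s) x ω - V s x ω : ℝ) : ℂ)) ≤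
        tol / 4 := by
    have small : ∀ (φ : ℝ → ℝ), Continuous φ → φ 0 = 0 → ∀ b : ℝ, 0 < b →
        ∀ᶠ η in 𝓝[>] (0:ℝ), φ η < b := by
      intro φ hφ h0 b hb
      have : Tendsto φ (𝓝[>] 0) (𝓝 (φ 0)) :=
        (hφ.continuousAt (x := 0)).tendsto.mono_left nhdsWithin_le_nhds
      rw [h0] at this
      exact this.eventually_lt_const hb
    have hlim : Tendsto (fun η : ℝ => κ * (σ * η / 2)) (𝓝[>] 0) (𝓝[>] 0) := by
      apply tendsto_nhdsWithin_of_tendsto_nhds_of_eventually_within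
      · have : Continuous fun η : ℝ => κ * (σ * η / 2) := by fun_prop
        have h0 := this.continuousAt (x := 0).tendsto
        simp only [mul_zero, zero_div] at h0
        exact h0.mono_left nhdsWithin_le_nhds
      · filter_upwards [self_mem_nhdsWithin] with η hη
        have hη' : 0 < η := hη
        simp only [mem_Ioi]
        (clear * - hκ hσ hη'; positivity)
    have t1 := ((X.tendsto_nrm_mol_ext m hU).comp hlim).eventually_lt_const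
      (show (0:ℝ) < tol / 4 by positivity)
    have t2 := ((X.tendsto_nrm_mol_ext m hV).comp hlim).eventually_lt_const
      (show (0:ℝ) < tol / 4 by positivity)
    filter_upwards [self_mem_nhdsWithin, small (fun η => η) (by fun_prop) rfl 1 one_pos,
      small (fun η => σ * η / 2) (by fun_prop) (by simp) r1 hr1,
      small (fun η => K0 * (κ * (σ * η / 2))) (by fun_prop) (by simp) r hr,
      small (fun η => K0 * (σ * η / 2)) (by fun_prop) (by simp) 1 one_pos,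
      small (fun η => 16 * M ^ 2 * (C / N) * (4 * (K1 * L) ^ 2 * A) * η ^ 2) (by fun_prop)
        (by simp) (tol ^ 2 / 3) (by positivity),
      small (fun η => 16 * (η * M) ^ 2 * (C / N)) (by fun_prop) (by simp) (tol ^ 2)
        (by positivity), t1, t2] with η h1 h2 h3 h4 h4' h5 h6 h7 h8
    exact ⟨⟨h1, h2.le, h3, h4, h4', h5.le, h6.le⟩, h7.le, h8.le⟩
  obtain ⟨η, ⟨hη, hη1, hηr1, hηr, hηL, hη5, hη6⟩, hη7, hη8⟩ := hη_ev.exists
  set ε := κ * (σ * η / 2) with hε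
  have hε0 : 0 < ε := by (clear * - hκ hσ hη; positivity)
  have hr0 : 0 < σ * η / 2 := by (clear * - hσ hη; positivity)
  have hε4 : 4 * ε ≤ η * σ := by
    rw [hε]
    have : κ * (σ * η / 2) ≤ 1 / 4 * (σ * η / 2) := by (clear * - hκ4 hσ hη; gcongr)
    have : 0 < σ * η := by (clear * - hσ hη; positivity)
    nlinarith
  have hB1 := fun s => (hCC N hN δ hδ η hη s).1
  have hB2 := fun s => (hCC N hN δ hδ η hη s).2
  have hzero : ∀ W : S → ℂ → ℂ × Ω → ℝ, ∀ s x (ω : ℂ × Ω), x ∈ (X.T s).table →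
      (∃ k, ‖x - (X.T s).P k‖ < σ * η / 2) → X.chi' N δ η s (x, ω.1) * W s x ω = 0 := by
    intro W s x ω _ ⟨k, hk⟩
    rw [X.chi'_eq_zero N hδ hη hη1 k hk, zero_mul]
  have hcut := X.isCut_chi' N hδ hη hη1
  have hXd := fun s => hcut.Xd_est (m := m) hη (by (clear * - hσ; positivity)) hU hV (hME s) h1 h2
    hε0 (fun s => le_trans (by
      have := (hK0' s).1
      (clear * - this hσ hη; gcongr)) hηL.le)
    (fun x hx => hloc _ ε hr0 hηr1 hε0 le_rfl s x hx)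
  refine ⟨ε, hε0, X.chi' N δ η, X.measurable_chi' N δ η,
    fun s p => ⟨X.chi'_nonneg _ _ _ _ _, X.chi'_le_one _ _ _ _ _⟩,
    X.bddSupp_ext (X.bdd_chi' N δ η hU), X.bddSupp_ext (X.bdd_chi' N δ η hV),
    hsym _ _ ε hr0 hηr1 hε0 le_rfl (hzero U), hsym _ _ ε hr0 hηr1 hε0 le_rfl (hzero V),
    ?_, ?_, ?_⟩
  · have := X.nrm_app_est (m := m) hU hMU hε0 hB2 hη7
    linarith only [this, hδ3]
  · have := X.nrm_app_est (m := m) hV hMV hε0 hB2 hη8
    linarith only [hδ3, this]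
  · set A2 := 4 * (K1 * L) ^ 2 * A + 16 * K1 ^ 2 * M ^ 2 / η ^ 2 * (C / N) +
        32 * (K2 / ε) ^ 2 * τ with hA2
    set E2 := 16 * (η * M) ^ 2 * (C / N) with hE2
    have hA20 : 0 ≤ A2 := by (clear * - hA hK1 hL hM0 hη hC hN hK2 hε0 hτ; positivity)
    have hE20 : 0 ≤ E2 := by (clear * - hη hM0 hC hN; positivity)
    refine ⟨√A2, √E2, Real.sqrt_nonneg _, Real.sqrt_nonneg _, ?_, ?_, ?_, ?_⟩
    · exact (Real.sqrt_le_sqrt hη6).trans (by rw [Real.sqrt_sq htol.le])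
    · rw [← Real.sqrt_mul hE20]
      refine (Real.sqrt_le_sqrt (y := tol ^ 2) ?_).trans (by rw [Real.sqrt_sq htol.le])
      have e : E2 * A2 = 16 * M ^ 2 * (C / N) * (4 * (K1 * L) ^ 2 * A) * η ^ 2 +
          16 * M ^ 2 * (C / N) * (16 * K1 ^ 2 * M ^ 2 * (C / N)) + c3 * τ := by
        rw [hE2, hA2, hc3, hε]
        (clear * - hN hη hσ hκ hK1 hL hA hM0 hC hK2 hτ; field_simp)
      rw [e]
      linarith only [hN2, hτ2, hη5]
    · rw [Real.sq_sqrt hA20]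
      have := X.nrm_grd_est (m := m) hK1' (fun s ε hε f hf => (hK2' s).2 m ε hε f hf) hU
        (fun s => (hΦs s).1) hΦM hL' hL.le
        (fun s x ω ⟨i, hi⟩ => hr' s x ω i hi.le) hΦτ hδ hη hη1 hε0 hε4 hK0' hηr hB1
      refine this.trans ?_
      rw [hA2]
      have h3 : 16 * K1 ^ 2 * M ^ 2 / η ^ 2 * (n0 * (C0 / N)) ≤
          16 * K1 ^ 2 * M ^ 2 / η ^ 2 * (C / N) := by
        apply mul_le_mul_of_nonneg_left hCN
        (clear * - hη; positivity)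
      linarith only [h3]
    · rw [Real.sq_sqrt hE20]
      refine (X.nrm_Xd_est (m := m) hU hV hδ hε0 hB1 hXd).trans ?_
      rw [hE2]
      apply mul_le_mul_of_nonneg_left hCN
      (clear * - hη; positivity)

end Cx

end Vale.Agent.P099
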