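import Vale.Agent.P099.H504.Cx.C8

set_option linter.all false

open MeasureTheory Set Filter Topology

namespace Vale.Agent.P099

variable {Ω : Type} [MeasurableSpace Ω]

lemma skew_av2 {m : Measure Ω} [IsProbabilityMeasure m] {Ψ : ℝ → Ω → Ω} (hΨ : PFlow m Ψ)
    {H H' : ℂ → ℂ × Ω → ℝ} (hH : Bdd H) (hH' : Bdd H') {τ : ℝ} (hτ : 0 < τ) :
    ∀ y y' u u', ∫ q, Vav Ψ τ H y (u, q) * Uav Ψ τ H' y' (u', q) ∂m =
      - ∫ q, Uav Ψ τ H y (u, q) * Vav Ψ τ H' y' (u', q) ∂m := by
  intro y y' u u'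
  obtain ⟨C1, hC1⟩ := hH.2
  obtain ⟨C2, hC2⟩ := hH'.2
  obtain ⟨C, hC, hC'⟩ : ∃ C, (∀ x ω, |H x ω| ≤ C) ∧ (∀ x ω, |H' x ω| ≤ C) :=
    ⟨max C1 C2, fun x ω => (hC1 x ω).trans (le_max_left _ _),
      fun x ω => (hC2 x ω).trans (le_max_right _ _)⟩
  set h : Ω → ℝ := fun q => H y (u, q) with hh
  set h' : Ω → ℝ := fun q => H' y' (u', q) with hh'
  have hm : Measurable h := bdd_meas_snd hH y u
  have hm' : Measurable h' := bdd_meas_snd hH' y' u'
  have hb : ∀ q, |h q| ≤ C := fun q => hC _ _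
  have hb' : ∀ q, |h' q| ≤ C := fun q => hC' _ _
  have key : ∀ g g' : Ω → ℝ, Measurable g → Measurable g' → (∀ q, |g q| ≤ C) → (∀ q, |g' q| ≤ C) →
      ∫ q, (g q - g (Ψ τ q)) * (∫ s in (0:ℝ)..τ, g' (Ψ s q)) ∂m =
        (∫ s in (0:ℝ)..τ, ∫ q, g q * g' (Ψ s q) ∂m) -
        (∫ s in (0:ℝ)..τ, ∫ q, g q * g' (Ψ (s - τ) q) ∂m) := by
    intro g g' hg hg' hgb hgb'
    have e1 : Measurable (fun q => g (Ψ τ q)) := hg.comp (hΨ.measurable_time τ)
    have mI : Measurable (fun q => ∫ s in (0:ℝ)..τ, g' (Ψ s q)) := by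
      simp only [intervalIntegral.integral_of_le hτ.le]
      have hmeas : Measurable (fun z : Ω × ℝ => g' (Ψ z.2 z.1)) :=
        hg'.comp (hΨ.meas.comp (Measurable.prodMk measurable_snd measurable_fst))
      exact (hmeas.stronglyMeasurable.integral_prod_right'
        (ν := (volume : Measure ℝ).restrict (Ioc 0 τ))).measurable
    have bI : ∀ q, |∫ s in (0:ℝ)..τ, g' (Ψ s q)| ≤ C * τ := by
      intro q
      have := intervalIntegral.norm_integral_le_of_norm_le_const (a := 0) (b := τ) (C := C)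
        (f := fun s => g' (Ψ s q)) (fun s _ => hgb' _)
      simpa only [ge_iff_le, Real.norm_eq_abs, sub_zero, abs_of_pos hτ] using this
    have hC0 : 0 ≤ C := by
      by_contra hneg
      have : Nonempty Ω := by
        by_contra hne
        rw [not_nonempty_iff] at hne
        have h1 : m univ = 1 := measure_univ
        rw [Set.univ_eq_empty_iff.mpr hne, measure_empty] at h1
        exact zero_ne_one h1
      obtain ⟨q⟩ := this
      exact hneg (le_trans (abs_nonneg _) (hgb q))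
    have i1 : Integrable (fun q => g q * (∫ s in (0:ℝ)..τ, g' (Ψ s q))) m := by
      refine Integrable.of_bound (C := C * (C * τ)) (hg.mul mI).aestronglyMeasurable ?_
      refine Filter.Eventually.of_forall (fun q => ?_)
      rw [Real.norm_eq_abs, abs_mul]
      exact mul_le_mul (hgb _) (bI _) (abs_nonneg _) hC0
    have i2 : Integrable (fun q => g (Ψ τ q) * (∫ s in (0:ℝ)..τ, g' (Ψ s q))) m := by
      refine Integrable.of_bound (C := C * (C * τ)) (e1.mul mI).aestronglyMeasurable ?_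
      refine Filter.Eventually.of_forall (fun q => ?_)
      rw [Real.norm_eq_abs, abs_mul]
      exact mul_le_mul (hgb _) (bI _) (abs_nonneg _) hC0
    simp only [sub_mul]
    rw [integral_sub i1 i2]
    congr 1
    · exact avg_swap hΨ hg hg' ⟨C, hgb'⟩ ⟨C, hgb⟩ hτ
    · have := avg_swap (g := fun q => g (Ψ τ q)) hΨ e1 hg' ⟨C, hgb'⟩ ⟨C, fun q => hgb _⟩ hτ
      rw [this]
      apply intervalIntegral.integral_congr
      intro s _
      exact corr_shift hΨ hg hg' τ s
  have hL : ∫ q, Vav Ψ τ H y (u, q) * Uav Ψ τ H' y' (u', q) ∂m =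
      τ⁻¹ * τ⁻¹ * ∫ q, (h q - h (Ψ τ q)) * (∫ s in (0:ℝ)..τ, h' (Ψ s q)) ∂m := by
    rw [← integral_const_mul]
    apply integral_congr_ae
    refine Filter.Eventually.of_forall (fun q => ?_)
    simp only [Vav, Uav, hh, hh']
    ring
  have hR : ∫ q, Uav Ψ τ H y (u, q) * Vav Ψ τ H' y' (u', q) ∂m =
      τ⁻¹ * τ⁻¹ * ∫ q, (h' q - h' (Ψ τ q)) * (∫ s in (0:ℝ)..τ, h (Ψ s q)) ∂m := by
    rw [← integral_const_mul]
    apply integral_congr_ae
    refine Filter.Eventually.of_forall (fun q => ?_)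
    simp only [Vav, Uav, hh, hh']
    ring
  rw [hL, hR, key h h' hm hm' hb hb', key h' h hm' hm hb' hb]
  set c : ℝ → ℝ := fun s => ∫ q, h q * h' (Ψ s q) ∂m with hc
  have c1 : ∀ s, ∫ q, h' q * h (Ψ s q) ∂m = c (- s) := by
    intro s
    have h0 : ∫ q, h' q * h (Ψ s q) ∂m = ∫ q, h (Ψ s q) * h' (Ψ 0 q) ∂m := by
      apply integral_congr_ae
      filter_upwards [hΨ.zero] with q hq
      rw [hq, mul_comm]
    rw [h0, corr_shift hΨ hm hm' s 0]
    simp [hc]
  simp only [c1]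
  have e1 : ∫ s in (0:ℝ)..τ, c (-(s - τ)) = ∫ s in (0:ℝ)..τ, c s := by
    have : ∫ s in (0:ℝ)..τ, c (τ - s) = ∫ s in (0:ℝ)..τ, c s := by
      rw [intervalIntegral.integral_comp_sub_left (fun s => c s) τ]
      simp
    rw [← this]
    apply intervalIntegral.integral_congr
    intro s _
    simp only [neg_sub]
  have e2 : ∫ s in (0:ℝ)..τ, c (- s) = ∫ s in (0:ℝ)..τ, c (s - τ) := by
    rw [intervalIntegral.integral_comp_neg (fun s => c s),
      intervalIntegral.integral_comp_sub_right (fun s => c s) τ]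
    simp
  have e3 : (fun s => ∫ q, h q * h' (Ψ s q) ∂m) = c := rfl
  have e4 : ∫ s in (0:ℝ)..τ, ∫ q, h q * h' (Ψ (s - τ) q) ∂m = ∫ s in (0:ℝ)..τ, c (s - τ) := rfl
  rw [e1, e2, e4]
  simp only [hc]
  ring



open Rig

namespace Cx

variable {S : Type} (X : Cx S) {m : Measure Ω}

section skew

open Classical in
noncomputable def jc (χ : S → ℂ × ℂ → ℝ) (s : S) : Option (Fin 3) → ℂ → ℂ → ℝ
  | none, y, u => if y ∈ (X.T s).table then χ s (y, u) else 0
  | some i, y, u => if X.R s i y ∈ (X.T (X.σ s i)).table then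
      χ (X.σ s i) (X.R s i y, X.D s i u) else 0

noncomputable def jt (s : S) : Option (Fin 3) → S
  | none => s
  | some i => X.σ s i

noncomputable def jy (s : S) : Option (Fin 3) → ℂ → ℂ
  | none, y => y
  | some i, y => X.R s i y

noncomputable def jw (s : S) : Option (Fin 3) → ℂ → ℂ
  | none, u => u
  | some i, u => X.D s i u

lemma ext_eq_sum (χ : S → ℂ × ℂ → ℝ) (F : S → ℂ → ℂ × Ω → ℝ) (s : S) (y u : ℂ) (q : Ω) :
    X.ext (fun s x ω => χ s (x, ω.1) * F s x ω) s y (u, q) =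
      ∑ j, X.jc χ s j y u * F (X.jt s j) (X.jy s j y) (X.jw s j u, q) := by
  classical
  rw [Fintype.sum_option]
  unfold Cx.ext
  congr 1
  · unfold jc jt jy jw
    by_cases h : y ∈ (X.T s).table
    · simp [h]
    · simp [h]
  · refine Finset.sum_congr rfl fun i _ => ?_
    unfold jc jt jy jw
    by_cases h : X.R s i y ∈ (X.T (X.σ s i)).table
    · have h' : y ∈ X.R s i ⁻¹' (X.T (X.σ s i)).table := h
      simp [h, h']
    · have h' : y ∉ X.R s i ⁻¹' (X.T (X.σ s i)).table := h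
      simp [h, h']

lemma int_ext_mul [IsProbabilityMeasure m] (χ : S → ℂ × ℂ → ℝ) {F G : S → ℂ → ℂ × Ω → ℝ}
    (hF : ∀ s, Bdd (F s)) (hG : ∀ s, Bdd (G s)) (s s' : S) (y y' u u' : ℂ) :
    ∫ q, X.ext (fun s x ω => χ s (x, ω.1) * F s x ω) s y (u, q) *
        X.ext (fun s x ω => χ s (x, ω.1) * G s x ω) s' y' (u', q) ∂m =
      ∑ j, ∑ l, X.jc χ s j y u * X.jc χ s' l y' u' *
        ∫ q, F (X.jt s j) (X.jy s j y) (X.jw s j u, q) *
          G (X.jt s' l) (X.jy s' l y') (X.jw s' l u', q) ∂m := by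
  simp only [ext_eq_sum, Finset.sum_mul_sum]
  rw [integral_finsetSum]
  · refine Finset.sum_congr rfl fun j _ => ?_
    rw [integral_finsetSum]
    · refine Finset.sum_congr rfl fun l _ => ?_
      rw [← integral_const_mul]
      congr 1
      funext q
      ring
    · intro l _
      have := (int_sec (m := m) (hF (X.jt s j)) (hG (X.jt s' l)) (X.jy s j y) (X.jy s' l y')
        (X.jw s j u) (X.jw s' l u')).const_mul (X.jc χ s j y u * X.jc χ s' l y' u')
      refine this.congr (Eventually.of_forall fun q => ?_)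
      show _ = _
      ring
  · intro j _
    refine integrable_finsetSum _ fun l _ => ?_
    have := (int_sec (m := m) (hF (X.jt s j)) (hG (X.jt s' l)) (X.jy s j y) (X.jy s' l y')
      (X.jw s j u) (X.jw s' l u')).const_mul (X.jc χ s j y u * X.jc χ s' l y' u')
    refine this.congr (Eventually.of_forall fun q => ?_)
    show _ = _
    ring

lemma ext_skew [IsProbabilityMeasure m] (χ : S → ℂ × ℂ → ℝ) {U V : S → ℂ → ℂ × Ω → ℝ}
    (hU : ∀ s, Bdd (U s)) (hV : ∀ s, Bdd (V s))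
    (hskew : ∀ s s' y y' u u', ∫ q, V s y (u, q) * U s' y' (u', q) ∂m =
      - ∫ q, U s y (u, q) * V s' y' (u', q) ∂m) (s : S) (y y' u u' : ℂ) :
    ∫ q, X.ext (fun s x ω => χ s (x, ω.1) * V s x ω) s y (u, q) *
        X.ext (fun s x ω => χ s (x, ω.1) * U s x ω) s y' (u', q) ∂m =
    - ∫ q, X.ext (fun s x ω => χ s (x, ω.1) * U s x ω) s y (u, q) *
        X.ext (fun s x ω => χ s (x, ω.1) * V s x ω) s y' (u', q) ∂m := by
  rw [X.int_ext_mul χ hV hU, X.int_ext_mul χ hU hV, ← Finset.sum_neg_distrib]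
  refine Finset.sum_congr rfl fun j _ => ?_
  rw [← Finset.sum_neg_distrib]
  refine Finset.sum_congr rfl fun l _ => ?_
  rw [hskew]
  ring

end skew

variable (m)

/-- The rigidity theorem: `U` does not vary in the direction orthogonal to the motion. -/
theorem rigid [Fintype S] [IsProbabilityMeasure m] (U V : S → ℂ → ℂ × Ω → ℝ)
    (hU : ∀ s, Bdd (U s)) (hV : ∀ s, Bdd (V s))
    (h1 : X.FreeDer m U V) (h2 : X.BounceDer m U V)
    (hskew : ∀ s s' y y' u u', ∫ q, V s y (u, q) * U s' y' (u', q) ∂m =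
      - ∫ q, U s y (u, q) * V s' y' (u', q) ∂m) (s : S)
    (φ : ℂ → ℝ) (hφ : ContDiff ℝ (⊤ : ℕ∞) φ) (hφc : HasCompactSupport φ)
    (hφs : tsupport φ ⊆ (X.T s).table) :
    ∀ᵐ ω ∂(nu.prod m), ∫ x in (X.T s).table, U s x ω * fderiv ℝ φ x (Complex.I * ω.1) = 0 := by
  have hfin : ∀ s, IsFiniteMeasure (volume.restrict (X.T s).table) := fun s =>
    ⟨by rw [Measure.restrict_apply_univ]; exact (X.T s).volume_table_lt_top⟩
  obtain ⟨K, hK⟩ := (hφc.fderiv (𝕜 := ℝ)).exists_bound_of_continuous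
    (hφ.continuous_fderiv (by simp))
  choose CU hCU using fun s => (hU s).2
  choose CV hCV using fun s => (hV s).2
  have hcU : ∀ s, BC (fun x ω => (U s x ω : ℂ)) := fun s => BC.of_real (hU s).1 (hCU s)
  have hcV : ∀ s, BC (fun x ω => (V s x ω : ℂ)) := fun s => BC.of_real (hV s).1 (hCV s)
  obtain ⟨c1, hc1⟩ : ∃ c1, c1 = K ^ 2 * (volume (X.T s).table).toReal := ⟨_, rfl⟩
  have hc10 : 0 ≤ c1 := by rw [hc1]; (clear * -; positivity)
  obtain ⟨c2, hc2⟩ : ∃ c2, c2 = ∫ x in (X.T s).table, ‖(φ x : ℂ)‖ ^ 2 := ⟨_, rfl⟩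
  have hc20 : 0 ≤ c2 := by rw [hc2]; exact integral_nonneg fun x => by (clear * -; positivity)
  obtain ⟨NV, hNV⟩ : ∃ NV : ℤ → ℝ, NV = fun j =>
    ∑ s, N2 (X.T s).table m (md j (fun x ω => (V s x ω : ℂ))) := ⟨_, rfl⟩
  obtain ⟨N0, hN0⟩ : ∃ N0, N0 = ∑ s, N2 (X.T s).table (nu.prod m) (fun x ω => (V s x ω : ℂ)) :=
    ⟨_, rfl⟩
  have hN00 : 0 ≤ N0 := by
    rw [hN0]
    exact Finset.sum_nonneg fun s _ => N2_nonneg _ _ _
  obtain ⟨v, hv⟩ : ∃ v, v = Real.sqrt (2 * N0 + 2) := ⟨_, rfl⟩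
  have hv0 : 0 ≤ v := by rw [hv]; exact Real.sqrt_nonneg _
  have hv2 : v ^ 2 = 2 * N0 + 2 := by
    rw [hv]
    exact Real.sq_sqrt (by linarith only [hN00])
  have main : ∀ (k : ℤ) (n : ℕ), |k| ≤ n → ∀ tol : ℝ, 0 < tol → tol ≤ 1 →
      ∫ q, ‖mL (X.T s).table φ k (fun x ω => (U s x ω : ℂ)) q‖ ^ 2 ∂m ≤
        4 * c2 * (NV (n + 1) + NV (-n - 1)) +
        (2 * c1 + 2 * c2 * (4 + 100 * (n + 1) * (2 + v))) * tol := by
    intro k n hkn tol htol htol1
    obtain ⟨ε, hε, χ, hχm, hχ, hf, hh, hfs, hhs, hnU, hnV, a, e, ha, he, het, hea, hA, hE⟩ :=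
      X.approx m U V hU hV h1 h2 tol htol
    obtain ⟨f, hfdef⟩ : ∃ f, f = X.ext (fun s x ω => χ s (x, ω.1) * U s x ω) := ⟨_, rfl⟩
    obtain ⟨h, hhdef⟩ : ∃ h, h = X.ext (fun s x ω => χ s (x, ω.1) * V s x ω) := ⟨_, rfl⟩
    have hsk := X.ext_skew (m := m) χ hU hV hskew
    rw [← hfdef, ← hhdef] at hsk
    rw [← hfdef] at hf hfs hnU hA hE
    rw [← hhdef] at hh hhs hnV hE
    have hG : ∀ s, BC (fun x ω => ((mol ε (f s) x ω : ℝ) : ℂ)) := fun s => BC_mol hε (hf s).1
    have hH : ∀ s, BC (fun x ω => ((mol ε (h s) x ω : ℝ) : ℂ)) := fun s => BC_mol hε (hh s).1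
    -- the approximation of `V`
    have eV : ∀ s, (fun x ω => ((mol ε (h s) x ω : ℝ) : ℂ)) =
        fun x ω => (((mol ε (h s) x ω : ℝ) : ℂ) - (V s x ω : ℂ)) + (V s x ω : ℂ) := by
      intro s
      funext x ω; ring
    obtain ⟨dV, hdV⟩ : ∃ dV : S → ℝ, dV = fun s => N2 (X.T s).table (nu.prod m)
      (fun x ω => ((mol ε (h s) x ω : ℝ) : ℂ) - (V s x ω : ℂ)) := ⟨_, rfl⟩
    have nV : ∑ s, dV s ≤ tol := by
      refine le_trans (le_of_eq ?_) hnV
      unfold Cx.nrm
      refine Finset.sum_congr rfl fun s _ => ?_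
      rw [hdV]
      unfold N2 Triangle.nrm
      simp only [Complex.ofReal_sub]
    have nH : X.nrm m (fun s x ω => (mol ε (h s) x ω : ℂ)) ≤ v ^ 2 := by
      have h3 : ∀ s, (X.T s).nrm m (fun x ω => (mol ε (h s) x ω : ℂ)) ≤
          2 * dV s + 2 * N2 (X.T s).table (nu.prod m) (fun x ω => (V s x ω : ℂ)) := by
        intro s
        have h3 := N2_add_le (A := (X.T s).table) (κ := nu.prod m) ((hH s).sub (hcV s)) (hcV s)
        calc (X.T s).nrm m (fun x ω => (mol ε (h s) x ω : ℂ)) =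
            N2 (X.T s).table (nu.prod m) (fun x ω =>
              (((mol ε (h s) x ω : ℝ) : ℂ) - (V s x ω : ℂ)) + (V s x ω : ℂ)) := by
              rw [← eV]; rfl
          _ ≤ _ := by rw [hdV]; linarith only [h3]
      have h4 : X.nrm m (fun s x ω => (mol ε (h s) x ω : ℂ)) ≤ 2 * ∑ s, dV s + 2 * N0 := by
        rw [hN0, Finset.mul_sum, Finset.mul_sum, ← Finset.sum_add_distrib]
        exact Finset.sum_le_sum fun s _ => h3 s
      rw [hv2]
      linarith only [h4, nV, htol1]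
    have hen := X.energy (m := m) hε f h hf hh hfs hhs hsk a v e ha hv0 he hA nH hE k n hkn
    have mdV : ∀ j : ℤ, X.nrmq m (fun s => md j (fun x ω => (mol ε (h s) x ω : ℂ))) ≤
        2 * tol + 2 * NV j := by
      intro j
      have h3 : ∀ s, (X.T s).nrmq m (md j (fun x ω => (mol ε (h s) x ω : ℂ))) ≤
          2 * dV s + 2 * N2 (X.T s).table m (md j (fun x ω => (V s x ω : ℂ))) := by
        intro s
        have h3 := N2_md_add_le (A := (X.T s).table) (m := m) ((hH s).sub (hcV s)) (hcV s) j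
        calc (X.T s).nrmq m (md j (fun x ω => (mol ε (h s) x ω : ℂ))) =
            N2 (X.T s).table m (md j (fun x ω =>
              (((mol ε (h s) x ω : ℝ) : ℂ) - (V s x ω : ℂ)) + (V s x ω : ℂ))) := by
              rw [← eV]; rfl
          _ ≤ _ := by rw [hdV]; linarith only [h3]
      have h4 : X.nrmq m (fun s => md j (fun x ω => (mol ε (h s) x ω : ℂ))) ≤
          2 * ∑ s, dV s + 2 * NV j := by
        rw [hNV]
        simp only
        rw [Finset.mul_sum, Finset.mul_sum, ← Finset.sum_add_distrib]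
        exact Finset.sum_le_sum fun s _ => h3 s
      linarith only [h4, nV]
    -- the two parts of `U`
    have eU : (fun x ω => (U s x ω : ℂ)) =
        fun x ω => ((U s x ω : ℂ) - ((mol ε (f s) x ω : ℝ) : ℂ)) +
          ((mol ε (f s) x ω : ℝ) : ℂ) := by
      funext x ω; ring
    have nU : N2 (X.T s).table (nu.prod m)
        (fun x ω => (U s x ω : ℂ) - ((mol ε (f s) x ω : ℝ) : ℂ)) ≤ tol := by
      have h5 : (X.T s).nrm m (fun x ω => ((mol ε (f s) x ω - U s x ω : ℝ) : ℂ)) ≤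
          X.nrm m (fun s x ω => ((mol ε (f s) x ω - U s x ω : ℝ) : ℂ)) :=
        Finset.single_le_sum (f := fun s => (X.T s).nrm m
          (fun x ω => ((mol ε (f s) x ω - U s x ω : ℝ) : ℂ)))
          (fun s _ => (X.T s).nrm_nonneg m _) (Finset.mem_univ s)
      refine le_trans (le_of_eq ?_) (h5.trans hnU)
      unfold N2 Triangle.nrm
      simp only [Complex.ofReal_sub]
      congr 1
      funext x
      congr 1
      funext ω
      rw [norm_sub_rev]
    have s1 := S_add_le (A := (X.T s).table) (m := m) hφ hK ((hcU s).sub (hG s)) (hG s) k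
    have s2 := S_le (A := (X.T s).table) (m := m) hφ hK ((hcU s).sub (hG s)) k
    have s3 := S_mol_le (A := (X.T s).table) (m := m) hε (hf s).1 hφ hφc hφs k
    rw [← hc1] at s2
    rw [← hc2] at s3
    have s40 : N2 (X.T s).table m (Ek ε (f s) k) ≤
        X.nrmq m (fun s x q => md (k - 1) (grd ε (f s)) x q -
          md (k + 1) (fun x ω => (starRingEnd ℂ) (grd ε (f s) x ω)) x q) := by
      have h6 : ∀ s, 0 ≤ (X.T s).nrmq m (fun x q => md (k - 1) (grd ε (f s)) x q -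
          md (k + 1) (fun x ω => (starRingEnd ℂ) (grd ε (f s) x ω)) x q) := fun s =>
        integral_nonneg fun x => integral_nonneg fun q => sq_nonneg _
      exact Finset.single_le_sum (f := fun s => (X.T s).nrmq m
        (fun x q => md (k - 1) (grd ε (f s)) x q -
          md (k + 1) (fun x ω => (starRingEnd ℂ) (grd ε (f s) x ω)) x q))
        (fun s _ => h6 s) (Finset.mem_univ s)
    have s4 := s40.trans hen
    have m1 := mdV (n + 1)
    have m2 := mdV (-n - 1)
    have s5 : e * a + e * v + e ^ 2 ≤ tol * (2 + v) := by nlinarith only [hea, hv0, het, htol1, he]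
    have s6 : N2 (X.T s).table m (Ek ε (f s) k) ≤
        2 * NV (n + 1) + 2 * NV (-n - 1) + (4 + 100 * (n + 1) * (2 + v)) * tol := by
      have h7 : 100 * ((n : ℝ) + 1) * (e * a + e * v + e ^ 2) ≤
          100 * ((n : ℝ) + 1) * (tol * (2 + v)) := by
        (clear * - s5; gcongr)
      linarith only [s4, m1, m2, h7]
    rw [← eU] at s1
    have s7 : N2 (X.T s).table (nu.prod m)
        (fun x ω => (U s x ω : ℂ) - ((mol ε (f s) x ω : ℝ) : ℂ)) * c1 ≤
        tol * c1 := mul_le_mul_of_nonneg_right nU hc10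
    have s8 : c2 * N2 (X.T s).table m (Ek ε (f s) k) ≤ c2 * (2 * NV (n + 1) +
        2 * NV (-n - 1) +
        (4 + 100 * (n + 1) * (2 + v)) * tol) := mul_le_mul_of_nonneg_left s6 hc20
    linarith only [s1, s2, s3, s7, s8]
  -- the limit `tol → 0`
  have main2 : ∀ (k : ℤ) (n : ℕ), |k| ≤ n →
      ∫ q, ‖mL (X.T s).table φ k (fun x ω => (U s x ω : ℂ)) q‖ ^ 2 ∂m ≤
        4 * c2 * (NV (n + 1) + NV (-n - 1)) := fun k n hkn =>
    le_of_affine (by (clear * - hc10 hc20 hv0; positivity)) (main k n hkn)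
  have hS : ∀ k : ℤ, ∫ q, ‖mL (X.T s).table φ k (fun x ω => (U s x ω : ℂ)) q‖ ^ 2 ∂m = 0 := by
    intro k
    refine le_antisymm ?_ (integral_nonneg fun q => by (clear * -; positivity))
    have t0 : Tendsto NV cofinite (𝓝 0) := by
      have : Tendsto (fun j : ℤ => ∑ s, N2 (X.T s).table m (md j (fun x ω => (V s x ω : ℂ))))
          cofinite (𝓝 (∑ _s : S, (0:ℝ))) :=
        tendsto_finsetSum _ fun s _ => tendsto_N2_md (A := (X.T s).table) (m := m) (hcV s)
      rw [hNV]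
      simpa using this
    have t1 : Tendsto (fun n : ℕ => NV ((n : ℤ) + 1)) atTop (𝓝 0) := by
      rw [← Nat.cofinite_eq_atTop]
      exact t0.comp (Function.Injective.tendsto_cofinite (f := fun n : ℕ => (n : ℤ) + 1)
        (fun a b hab => by simpa using hab))
    have t2 : Tendsto (fun n : ℕ => NV (-(n : ℤ) - 1)) atTop (𝓝 0) := by
      rw [← Nat.cofinite_eq_atTop]
      exact t0.comp (Function.Injective.tendsto_cofinite (f := fun n : ℕ => -(n : ℤ) - 1)
        (fun a b hab => by simpa using hab))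
    have t3 := (t1.add t2).const_mul (4 * c2)
    rw [add_zero, mul_zero] at t3
    refine ge_of_tendsto t3 ?_
    filter_upwards [eventually_ge_atTop k.natAbs] with n hn
    exact main2 k n (by rw [Int.abs_eq_natAbs]; exact_mod_cast hn)
  have hall : ∀ᵐ q ∂m, ∀ k : ℤ, mL (X.T s).table φ k (fun x ω => (U s x ω : ℂ)) q = 0 := by
    rw [ae_all_iff]
    intro k
    have h3 := (integral_eq_zero_iff_of_nonneg (fun q => by (clear * -; positivity))
      (mL_int_sq (A := (X.T s).table) (m := m) hφ hK (hcU s) k)).mp (hS k)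
    filter_upwards [h3] with q hq
    have hq' : ‖mL (X.T s).table φ k (fun x ω => (U s x ω : ℂ)) q‖ ^ 2 = 0 := hq
    exact norm_eq_zero.mp (pow_eq_zero_iff (by norm_num) |>.mp hq')
  obtain ⟨B, hB⟩ := Lam_bdd (A := (X.T s).table) hφ hK (hcU s)
  have hLm := Lam_meas (A := (X.T s).table) hφ (hcU s)
  have hae : ∀ᵐ q ∂m, ∀ᵐ u ∂nu, Lam (X.T s).table φ (fun x ω => (U s x ω : ℂ)) (u, q) = 0 := by
    filter_upwards [hall] with q hq
    exact ae_zero_of_mode _ (memLp_of_bdd (slice_meas hLm q) (C := B)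
      (by filter_upwards [ae_norm] with u hu; exact hB (u, q) hu)) hq
  have hms : MeasurableSet {z : Ω × ℂ | Lam (X.T s).table φ (fun x ω => (U s x ω : ℂ)) (z.2, z.1) = 0} :=
    (hLm.comp measurable_swap) (measurableSet_singleton 0)
  have hprod : ∀ᵐ z ∂(m.prod nu), Lam (X.T s).table φ (fun x ω => (U s x ω : ℂ)) (z.2, z.1) = 0 :=
    (Measure.ae_prod_iff_ae_ae hms).mpr hae
  have hfinal : ∀ᵐ z ∂(nu.prod m), Lam (X.T s).table φ (fun x ω => (U s x ω : ℂ)) z = 0 := by
    have hsw : MeasurePreserving Prod.swap (nu.prod m) (m.prod nu) := Measure.measurePreserving_swap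
    have := hsw.quasiMeasurePreserving.ae hprod
    simpa only [Prod.snd_swap, Prod.fst_swap, Prod.mk.eta] using this
  filter_upwards [hfinal] with ω hω
  have h3 : Lam (X.T s).table φ (fun x ω => (U s x ω : ℂ)) ω =
      ((∫ x in (X.T s).table, U s x ω * fderiv ℝ φ x (Complex.I * ω.1) : ℝ) : ℂ) := by
    unfold Lam
    rw [← integral_complex_ofReal]
    push_cast
    rfl
  rw [h3] at hω
  exact_mod_cast hω

end Cx

end Vale.Agent.P099
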