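import Vale.Agent.P099.Bdl.B1

set_option linter.all false

open MeasureTheory Set Filter Topology

namespace Vale.Agent.P099

/-- A polygonal table cut into triangles `T s`, `s : S`. The vertices of every triangle are numbered
`0, 1, 2`; the neighbour of the triangle `s` across its side `i` (opposite to the vertex `i`) is
`σ s i`, which is `s` itself if the side is a wall. Neighbours have the two vertices of the common
side in common, with the same numbers, and lie on different sides of it. -/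
structure Cx (S : Type) where
  T : S → Triangle
  σ : S → Fin 3 → S
  invol : ∀ s i, σ (σ s i) i = s
  glue : ∀ s i j, j ≠ i → (T (σ s i)).P j = (T s).P j
  opp : ∀ s i, σ s i ≠ s → (T (σ s i)).lam i ((T s).P i) < 0

namespace Cx

variable {S : Type} (X : Cx S)

open Classical in
/-- the crossing map of the side `i` of the tile `s`: reflection at a wall, identity otherwise -/
noncomputable def R (s : S) (i : Fin 3) (x : ℂ) : ℂ := if X.σ s i = s then (X.T s).R i x else x

open Classical in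
/-- the linear part of `R` -/
noncomputable def D (s : S) (i : Fin 3) (u : ℂ) : ℂ := if X.σ s i = s then (X.T s).refl i u else u

open Classical in
/-- the scale of the coordinates across the side -/
noncomputable def kap (s : S) (i : Fin 3) : ℝ :=
  if X.σ s i = s then 1 else - (X.T (X.σ s i)).lam i ((X.T s).P i)

lemma R_wall {s : S} {i : Fin 3} (h : X.σ s i = s) : X.R s i = (X.T s).R i := by
  funext x
  rw [R, if_pos h]

lemma R_glue {s : S} {i : Fin 3} (h : X.σ s i ≠ s) (x : ℂ) : X.R s i x = x := by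
  rw [R, if_neg h]

lemma D_wall {s : S} {i : Fin 3} (h : X.σ s i = s) : X.D s i = (X.T s).refl i := by
  funext x
  rw [D, if_pos h]

lemma D_glue {s : S} {i : Fin 3} (h : X.σ s i ≠ s) (u : ℂ) : X.D s i u = u := by
  rw [D, if_neg h]

lemma kap_wall {s : S} {i : Fin 3} (h : X.σ s i = s) : X.kap s i = 1 := by
  rw [kap, if_pos h]

lemma kap_glue {s : S} {i : Fin 3} (h : X.σ s i ≠ s) :
    X.kap s i = - (X.T (X.σ s i)).lam i ((X.T s).P i) := by
  rw [kap, if_neg h]

lemma kap_pos (s : S) (i : Fin 3) : 0 < X.kap s i := by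
  by_cases h : X.σ s i = s
  · rw [X.kap_wall h]; norm_num
  · rw [X.kap_glue h]
    have := X.opp s i h
    linarith

lemma wall_symm {s : S} {i : Fin 3} (h : X.σ s i ≠ s) : X.σ (X.σ s i) i ≠ X.σ s i := by
  rw [X.invol]
  exact h.symm

/-- coordinates of one triangle in terms of those of another -/
lemma lam_expand (T T' : Triangle) (j : Fin 3) (x : ℂ) :
    T'.lam j x = T.lam 0 x * T'.lam j (T.P 0) + T.lam 1 x * T'.lam j (T.P 1) +
      T.lam 2 x * T'.lam j (T.P 2) := by
  conv_lhs => rw [T.eq_sum_lam x]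
  rw [T'.lam_comb3 j (T.sum_lam x)]

/-- a point of `s` in coordinates of its neighbour -/
lemma lam_nb {s : S} {i j : Fin 3} (hj : j ≠ i) (x : ℂ) :
    (X.T (X.σ s i)).lam j x = (X.T s).lam j x +
      (X.T (X.σ s i)).lam j ((X.T s).P i) * (X.T s).lam i x := by
  rw [lam_expand (X.T s) (X.T (X.σ s i)) j x]
  have h : ∀ k, k ≠ i → (X.T (X.σ s i)).lam j ((X.T s).P k) = if j = k then 1 else 0 := by
    intro k hk
    rw [← X.glue s i k hk, (X.T (X.σ s i)).lam_P]
  have hi3 : ∀ i : Fin 3, i = 0 ∨ i = 1 ∨ i = 2 := by decide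
  rcases hi3 i with rfl | rfl | rfl <;> rcases hi3 j with rfl | rfl | rfl <;>
    first
      | exact absurd rfl hj
      | (simp only [h _ (show (1 : Fin 3) ≠ 0 by decide), h _ (show (2 : Fin 3) ≠ 0 by decide)]
         simp
         try ring)
      | (simp only [h _ (show (0 : Fin 3) ≠ 1 by decide), h _ (show (2 : Fin 3) ≠ 1 by decide)]
         simp
         try ring)
      | (simp only [h _ (show (0 : Fin 3) ≠ 2 by decide), h _ (show (1 : Fin 3) ≠ 2 by decide)]
         simp
         try ring)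

lemma lam_nb_self {s : S} {i : Fin 3} (x : ℂ) :
    (X.T (X.σ s i)).lam i x = (X.T (X.σ s i)).lam i ((X.T s).P i) * (X.T s).lam i x := by
  rw [lam_expand (X.T s) (X.T (X.σ s i)) i x]
  have h : ∀ k, k ≠ i → (X.T (X.σ s i)).lam i ((X.T s).P k) = 0 := by
    intro k hk
    rw [← X.glue s i k hk, (X.T (X.σ s i)).lam_P, if_neg (Ne.symm hk)]
  have hi3 : ∀ i : Fin 3, i = 0 ∨ i = 1 ∨ i = 2 := by decide
  rcases hi3 i with rfl | rfl | rfl
  · rw [h 1 (by decide), h 2 (by decide)]; ring
  · rw [h 0 (by decide), h 2 (by decide)]; ring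
  · rw [h 0 (by decide), h 1 (by decide)]; ring

/-- the coordinate of the crossed side changes its sign -/
lemma lam_R (s : S) (i : Fin 3) (x : ℂ) :
    (X.T (X.σ s i)).lam i (X.R s i x) = - X.kap s i * (X.T s).lam i x := by
  by_cases h : X.σ s i = s
  · rw [X.R_wall h, X.kap_wall h, h, (X.T s).lam_R]; ring
  · rw [X.R_glue h, X.kap_glue h, X.lam_nb_self x]; ring

/-- the other coordinates -/
lemma lam_R_ne (s : S) {i j : Fin 3} (hj : j ≠ i) :
    ∃ c : ℝ, ∀ x, (X.T (X.σ s i)).lam j (X.R s i x) = (X.T s).lam j x + c * (X.T s).lam i x := by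
  by_cases h : X.σ s i = s
  · obtain ⟨c, hc⟩ := (X.T s).lam_R_ne i j
    refine ⟨c, fun x => ?_⟩
    rw [X.R_wall h, h, hc]
  · exact ⟨_, fun x => by rw [X.R_glue h]; exact X.lam_nb hj x⟩

lemma R_R (s : S) (i : Fin 3) (x : ℂ) : X.R (X.σ s i) i (X.R s i x) = x := by
  by_cases h : X.σ s i = s
  · rw [h, X.R_wall h, (X.T s).R_R]
  · rw [X.R_glue h, X.R_glue (X.wall_symm h)]

lemma D_D (s : S) (i : Fin 3) (x : ℂ) : X.D (X.σ s i) i (X.D s i x) = x := by
  by_cases h : X.σ s i = s
  · rw [h, X.D_wall h, (X.T s).refl_refl]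
  · rw [X.D_glue h, X.D_glue (X.wall_symm h)]

lemma kap_kap (s : S) (i : Fin 3) : X.kap (X.σ s i) i * X.kap s i = 1 := by
  have h1 := X.lam_R s i ((X.T s).P i)
  have h2 := X.lam_R (X.σ s i) i (X.R s i ((X.T s).P i))
  rw [X.R_R, X.invol, h1, (X.T s).lam_P, if_pos rfl] at h2
  linarith

lemma D_add (s : S) (i : Fin 3) (u v : ℂ) : X.D s i (u + v) = X.D s i u + X.D s i v := by
  by_cases h : X.σ s i = s
  · rw [X.D_wall h, (X.T s).refl_add]
  · rw [X.D_glue h, X.D_glue h, X.D_glue h]

lemma D_smul (s : S) (i : Fin 3) (r : ℝ) (u : ℂ) : X.D s i (r • u) = r • X.D s i u := by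
  by_cases h : X.σ s i = s
  · rw [X.D_wall h, (X.T s).refl_smul]
  · rw [X.D_glue h, X.D_glue h]

lemma D_neg (s : S) (i : Fin 3) (u : ℂ) : X.D s i (-u) = - X.D s i u := by
  by_cases h : X.σ s i = s
  · rw [X.D_wall h, (X.T s).refl_neg]
  · rw [X.D_glue h, X.D_glue h]

lemma D_sub (s : S) (i : Fin 3) (u v : ℂ) : X.D s i (u - v) = X.D s i u - X.D s i v := by
  rw [sub_eq_add_neg, X.D_add, X.D_neg, ← sub_eq_add_neg]

lemma norm_D (s : S) (i : Fin 3) (u : ℂ) : ‖X.D s i u‖ = ‖u‖ := by
  by_cases h : X.σ s i = s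
  · rw [X.D_wall h, (X.T s).norm_refl]
  · rw [X.D_glue h]

lemma dt_D (s : S) (i : Fin 3) (a b : ℂ) : dt (X.D s i a) (X.D s i b) = dt a b := by
  by_cases h : X.σ s i = s
  · rw [X.D_wall h, (X.T s).dt_refl]
  · rw [X.D_glue h, X.D_glue h]

lemma abs_cr_D (s : S) (i : Fin 3) (a b : ℂ) : |cr (X.D s i a) (X.D s i b)| = |cr a b| := by
  by_cases h : X.σ s i = s
  · rw [X.D_wall h, (X.T s).cr_refl, abs_neg]
  · rw [X.D_glue h, X.D_glue h]

lemma continuous_D (s : S) (i : Fin 3) : Continuous (X.D s i) := by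
  by_cases h : X.σ s i = s
  · rw [X.D_wall h]; exact (X.T s).continuous_refl i
  · have : X.D s i = id := funext fun u => X.D_glue h u
    rw [this]; exact continuous_id

lemma continuous_R (s : S) (i : Fin 3) : Continuous (X.R s i) := by
  by_cases h : X.σ s i = s
  · rw [X.R_wall h]; exact (X.T s).continuous_R i
  · have : X.R s i = id := funext fun u => X.R_glue h u
    rw [this]; exact continuous_id

lemma measurePreserving_R (s : S) (i : Fin 3) : MeasurePreserving (X.R s i) volume volume := by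
  by_cases h : X.σ s i = s
  · rw [X.R_wall h]; exact (X.T s).measurePreserving_R i
  · have : X.R s i = id := funext fun u => X.R_glue h u
    rw [this]; exact MeasurePreserving.id _

lemma measurePreserving_D (s : S) (i : Fin 3) : MeasurePreserving (X.D s i) nu nu := by
  by_cases h : X.σ s i = s
  · rw [X.D_wall h]; exact (X.T s).measurePreserving_refl i
  · have : X.D s i = id := funext fun u => X.D_glue h u
    rw [this]; exact MeasurePreserving.id _

lemma R_add (s : S) (i : Fin 3) (x v : ℂ) : X.R s i (x + v) = X.R s i x + X.D s i v := by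
  by_cases h : X.σ s i = s
  · rw [X.R_wall h, X.D_wall h, (X.T s).R_add]
  · rw [X.R_glue h, X.R_glue h, X.D_glue h]

lemma R_add_smul (s : S) (i : Fin 3) (x v : ℂ) (r : ℝ) :
    X.R s i (x + r • v) = X.R s i x + r • X.D s i v := by
  rw [X.R_add, X.D_smul]

lemma R_sub (s : S) (i : Fin 3) (a b : ℂ) : X.R s i a - X.R s i b = X.D s i (a - b) := by
  have := X.R_add s i b (a - b)
  rw [add_sub_cancel] at this
  rw [this]
  ring

lemma norm_R_sub_R (s : S) (i : Fin 3) (x y : ℂ) : ‖X.R s i x - X.R s i y‖ = ‖x - y‖ := by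
  rw [X.R_sub, X.norm_D]

lemma R_of_lam_eq_zero {s : S} {i : Fin 3} {x : ℂ} (h : (X.T s).lam i x = 0) : X.R s i x = x := by
  by_cases h' : X.σ s i = s
  · rw [X.R_wall h', (X.T s).R_of_lam_eq_zero h]
  · rw [X.R_glue h']

/-- the vertices of the crossed side -/
lemma R_P {s : S} {i m : Fin 3} (h : m ≠ i) : X.R s i ((X.T s).P m) = (X.T s).P m :=
  X.R_of_lam_eq_zero (by rw [(X.T s).lam_P, if_neg (Ne.symm h)])

lemma R_P' {s : S} {i m : Fin 3} (h : m ≠ i) : X.R s i ((X.T s).P m) = (X.T (X.σ s i)).P m := by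
  rw [X.R_P h, X.glue s i m h]

lemma ell_D (s : S) (i : Fin 3) (u : ℂ) :
    (X.T (X.σ s i)).ell i (X.D s i u) = - X.kap s i * (X.T s).ell i u := by
  have h1 := X.lam_R s i (0 + u)
  rw [X.R_add, (X.T (X.σ s i)).lam_add, (X.T s).lam_add, X.lam_R s i 0] at h1
  linarith

lemma bb_R (s : S) (i j : Fin 3) (x z : ℂ) :
    (X.T (X.σ s i)).bb i j (X.R s i x) (X.R s i z) = - X.kap s i * (X.T s).bb i j x z := by
  by_cases hj : j = i
  · subst hj
    simp only [Triangle.bb]
    ring
  · obtain ⟨c, hc⟩ := X.lam_R_ne s hj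
    simp only [Triangle.bb, hc, X.lam_R]
    ring

lemma an_R (η : ℝ) (s : S) (i : Fin 3) (u x y : ℂ) :
    an η (X.D s i u) (X.R s i x - X.R s i y) = an η u (x - y) := by
  rw [X.R_sub]
  unfold an
  rw [X.abs_cr_D, X.dt_D]

lemma R_seg (s : S) (i : Fin 3) (x y : ℂ) (r : ℝ) :
    X.R s i (x + r • (y - x)) = X.R s i x + r • (X.R s i y - X.R s i x) := by
  rw [X.R_add_smul, X.R_sub]

/-- a point of the open side: the other coordinates do not change -/
lemma lam_R_of_zero {s : S} {i j : Fin 3} (hj : j ≠ i) {x : ℂ} (h : (X.T s).lam i x = 0) :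
    (X.T (X.σ s i)).lam j (X.R s i x) = (X.T s).lam j x := by
  obtain ⟨c, hc⟩ := X.lam_R_ne s hj
  rw [hc, h]
  ring

end Cx

end Vale.Agent.P099
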